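import Vale.Agent.P046.Full.Flow.Facts

/-!
The mass of the points whose deviation leaves the bad threshold after the window.
-/

namespace Vale.Agent.P046.Full

open Finset

noncomputable section

/-- The profile restricted to moderate deviations. -/
def lowProf (u : ℝ) : ℝ := if u ≤ 3 then prof u else 0

lemma lowProf_nonneg (u : ℝ) : 0 ≤ lowProf u := by
  unfold lowProf; split_ifs
  · exact prof_nonneg u
  · exact le_rfl

lemma one_add_mul_lowProf {u : ℝ} : (1 + u) * lowProf u ≤ 4 * prof u := by
  have := prof_nonneg u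
  unfold lowProf; split_ifs with h
  · exact mul_le_mul_of_nonneg_right (by linarith) this
  · linarith

lemma sq_le_lowProf {u : ℝ} (h1 : -1 ≤ u) (h3 : u ≤ 3) : u ^ 2 ≤ 36 * lowProf u := by
  rw [lowProf, if_pos h3]
  rcases le_or_gt u 0 with h | h
  · rw [prof_of_nonpos h]
    have hd := den_pos u
    have h18 : den u ≤ 18 := by unfold den; nlinarith
    have : u ^ 2 / 18 ≤ core u := by
      unfold core; exact div_le_div_of_nonneg_left (sq_nonneg u) hd h18
    linarith
  · rw [prof_of_pos h]
    have hc := core_nonneg u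
    have : u ^ 2 / 10 ≤ 2 / 5 * u ^ 2 / (1 + u) := by
      rw [le_div_iff₀ (by linarith)]
      nlinarith [mul_nonneg (sq_nonneg u) (show (0:ℝ) ≤ 3 - u by linarith)]
    nlinarith [sq_nonneg u]

lemma profDeriv_large {u : ℝ} (h : 3 < u) : 3 / 8 ≤ profDeriv u := by
  simp only [profDeriv, if_neg (show ¬ u ≤ 0 by linarith)]
  have hd := den_pos u
  have h0 : 0 < u := by linarith
  have h2 : 0 ≤ u * (2 + u) / (10 * den u ^ 2) := by positivity
  have h1 : 3 / 8 ≤ 2 / 5 * (u * (2 + u)) / (1 + u) ^ 2 := by
    rw [le_div_iff₀ (by positivity)]; nlinarith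
  linarith

variable {α : Type*} [DecidableEq α]

/-- The weighted movement of a point while its deviation is above a quarter of the threshold. -/
def crossing (E : Finset (Finset α)) (M : ℕ) (D b : ℝ) (e : α) (l : ℕ) : ℝ :=
  if b / 4 < |fdev E M D e l| then
    surv E M e l * |fdev E M D e (l + 1) - fdev E M D e l| else 0

lemma crossing_nonneg (E : Finset (Finset α)) (M : ℕ) (D b : ℝ) (e : α) {l : ℕ} (hl : l ≤ M) :
    0 ≤ crossing E M D b e l := by
  unfold crossing; split_ifs
  · exact mul_nonneg (qf_mem_unit E ∅ e hl).1 (abs_nonneg _)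
  · exact le_rfl

namespace Setting

variable {V : Finset α} {E : Finset (Finset α)} {D lam D3 b : ℝ} {M i : ℕ}

/-- The pair interactions at one hyperedge are paid by the dissipation and the profile. -/
lemma pair_le (s : Setting V E D lam D3 M) (hi : i < M) (hb : 0 < b) {R : Finset α} (hR : R ∈ E) :
    ∑ e ∈ R, (if b / 4 < |fdev E M D e i| then ∑ f ∈ R.erase e, |fdev E M D f i| else 0)
      ≤ 100 * keyR E M D R i + 288 / b * ∑ x ∈ R, lowProf (fdev E M D x i) := by
  have hm := s.mild hi
  have hK := s.keyR_nonneg hi hR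
  set u : α → ℝ := fun x => fdev E M D x i with hu
  have hge : ∀ x, -1 ≤ u x := fun x => s.fdev_ge hi x
  have hL : 0 ≤ 288 / b * ∑ x ∈ R, lowProf (u x) :=
    mul_nonneg (by positivity) (sum_nonneg fun x _ => lowProf_nonneg _)
  have h3 : (R.card : ℝ) = 3 := by rw [s.reg.lin.three R hR]; norm_num
  by_cases hbig : ∃ x ∈ R, 3 < u x
  · obtain ⟨x, hx, hx3⟩ := hbig
    set S := ∑ y ∈ R, u y with hS
    set G := ∑ y ∈ R, profDeriv (u y) with hG
    have hc2 := hm.card_erase_two hR hx
    have hS1 : u x - 2 ≤ S := by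
      have : ∑ _y ∈ R.erase x, (-1 : ℝ) ≤ ∑ y ∈ R.erase x, u y := sum_le_sum fun y _ => hge y
      rw [sum_const, hc2, nsmul_eq_mul] at this
      rw [hS, ← add_sum_erase R _ hx]
      push_cast at this
      linarith
    have hG1 : 39 / 200 ≤ G := by
      have : ∑ _y ∈ R.erase x, (-(9 / 100) : ℝ) ≤ ∑ y ∈ R.erase x, profDeriv (u y) :=
        sum_le_sum fun y _ => profDeriv_ge (hge y)
      rw [sum_const, hc2, nsmul_eq_mul] at this
      rw [hG, ← add_sum_erase R _ hx]
      push_cast at this
      linarith [profDeriv_large hx3]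
    have hkey : S * G ≤ keyR E M D R i := by
      have : 0 ≤ ∑ y ∈ R, diss (u y) :=
        sum_nonneg fun y hy => diss_nonneg (s.fdev_gt hi hR hy)
      change _ ≤ ∑ y ∈ R, diss (u y) + S * G
      linarith
    have hA : ∑ y ∈ R, |u y| ≤ S + 6 := by
      have : ∀ y ∈ R, |u y| ≤ u y + 2 := fun y _ => abs_le.2
        ⟨by linarith [hge y], by linarith [hge y]⟩
      refine (sum_le_sum this).trans ?_
      rw [sum_add_distrib, sum_const, nsmul_eq_mul, h3]
      linarith
    have hlhs : ∑ e ∈ R, (if b / 4 < |u e| then ∑ f ∈ R.erase e, |u f| else 0)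
        ≤ 2 * ∑ y ∈ R, |u y| := by
      calc ∑ e ∈ R, (if b / 4 < |u e| then ∑ f ∈ R.erase e, |u f| else 0)
          ≤ ∑ e ∈ R, ((∑ f ∈ R, |u f|) - |u e|) := sum_le_sum fun e he => by
            rw [← add_sum_erase R (fun f => |u f|) he, add_sub_cancel_left]
            split_ifs
            · exact le_rfl
            · exact sum_nonneg fun f _ => abs_nonneg _
        _ = _ := by rw [sum_sub_distrib, sum_const, nsmul_eq_mul, h3]; ring
    have hSG := mul_le_mul_of_nonneg_left hG1 (show (0:ℝ) ≤ S by linarith)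
    refine hlhs.trans ?_
    linarith
  · push Not at hbig
    have hsq : ∑ y ∈ R, u y ^ 2 ≤ 36 * ∑ y ∈ R, lowProf (u y) := by
      rw [mul_sum]; exact sum_le_sum fun y hy => sq_le_lowProf (hge y) (hbig y hy)
    calc ∑ e ∈ R, (if b / 4 < |u e| then ∑ f ∈ R.erase e, |u f| else 0)
        ≤ ∑ e ∈ R, 2 / b * (u e ^ 2 + ∑ f ∈ R, u f ^ 2) := sum_le_sum fun e he => by
          split_ifs with h
          · have h' : ∀ f ∈ R.erase e, |u f| ≤ 2 / b * (u e ^ 2 + u f ^ 2) := fun f _ => by
              rw [div_mul_eq_mul_div, le_div_iff₀ hb]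
              have h1 := mul_le_mul_of_nonneg_left h.le (abs_nonneg (u f))
              have h2 := two_mul_le_add_sq |u e| |u f|
              rw [sq_abs, sq_abs] at h2
              linarith
            refine (sum_le_sum h').trans (le_of_eq ?_)
            rw [← mul_sum, sum_add_distrib, sum_const, hm.card_erase_two hR he, nsmul_eq_mul,
              ← add_sum_erase R (fun f => u f ^ 2) he]
            push_cast
            ring
          · exact mul_nonneg (by positivity)
              (add_nonneg (sq_nonneg _) (sum_nonneg fun f _ => sq_nonneg _))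
      _ = 8 / b * ∑ y ∈ R, u y ^ 2 := by
          rw [← mul_sum, sum_add_distrib, sum_const, nsmul_eq_mul, h3]; ring
      _ ≤ 8 / b * (36 * ∑ y ∈ R, lowProf (u y)) :=
          mul_le_mul_of_nonneg_left hsq (by positivity)
      _ = 288 / b * ∑ y ∈ R, lowProf (u y) := by ring
      _ ≤ _ := by linarith

/-- The total crossing movement in one step. -/
lemma crossing_sum_le (s : Setting V E D lam D3 M) (hi : i < M) (hb : 0 < b) {ρm : ℝ}
    (hρ : ∀ R ∈ E, ∀ e ∈ R, Vale.Agent.P046.Full.rho E M R e i ≤ ρm) (hρ0 : 0 ≤ ρm) :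
    ∑ e ∈ V, crossing E M D b e i
      ≤ (100 * kdiss E M D i + 1152 / b * (dref D M i * hpot V E M D i)
          + 3 * ρm * (2 * fmass V E M i + 100 * hpot V E M D i)) / M
        + V.card * (5600 * D ^ 3 / M ^ 2) := by
  have hm := s.mild hi
  have hM := s.M_posR
  have hdp := dref_pos (M := M) s.D_pos i
  set u : α → ℝ := fun x => fdev E M D x i with hu
  set P : α → ℝ := fun e => ∑ R ∈ star E e,
    wR E M R i * (if b / 4 < |u e| then ∑ f ∈ R.erase e, |u f| else 0) with hP
  have hpt : ∀ e ∈ V, crossing E M D b e i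
      ≤ (P e + surv E M e i * selfTerm E M D e i) / M + 5600 * D ^ 3 / M ^ 2 := by
    intro e _
    have hs := hm.surv_pos e
    have hself := mul_nonneg hs.le (hm.selfTerm_nonneg e)
    have hD := s.D_pos
    by_cases h : b / 4 < |u e|
    · rw [crossing, if_pos h]
      have hP1 : surv E M e i * |dref D M i * fnbr E M D e i| ≤ P e := by
        rw [fnbr, mul_div_cancel₀ _ hdp.ne', hP]
        simp only [if_pos h]
        refine (mul_le_mul_of_nonneg_left (abs_sum_le_sum_abs _ _) hs.le).trans ?_
        rw [mul_sum]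
        refine sum_le_sum fun R _ => ?_
        rw [abs_mul, abs_of_pos (hm.rho_pos R e), ← mul_assoc, s.surv_rho hi R e, partner]
        exact mul_le_mul_of_nonneg_left (abs_sum_le_sum_abs _ _) (hm.w_pos R).le
      have h1 : |fdev E M D e (i + 1) - fdev E M D e i|
          ≤ (|dref D M i * fnbr E M D e i| + selfTerm E M D e i) / M
            + 700 * (2 * D) ^ 3 / M ^ 2 := by
        have hA : |(-(dref D M i * fnbr E M D e i) + selfTerm E M D e i) / (M : ℝ)|
            ≤ (|dref D M i * fnbr E M D e i| + selfTerm E M D e i) / M := by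
          rw [abs_div, abs_of_pos hM]
          refine div_le_div_of_nonneg_right ((abs_add_le _ _).trans ?_) hM.le
          rw [abs_neg, abs_of_nonneg (hm.selfTerm_nonneg e)]
        calc |fdev E M D e (i + 1) - fdev E M D e i|
            = |(fdev E M D e (i + 1) - fdev E M D e i
                - (-(dref D M i * fnbr E M D e i) + selfTerm E M D e i) / M)
              + (-(dref D M i * fnbr E M D e i) + selfTerm E M D e i) / M| := by congr 1; ring
          _ ≤ _ := (abs_add_le _ _).trans (by linarith [hm.fdev_succ e])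
      refine (mul_le_mul_of_nonneg_left h1 hs.le).trans ?_
      rw [mul_add, ← mul_div_assoc, mul_add]
      refine add_le_add (div_le_div_of_nonneg_right (by linarith) hM.le) ?_
      refine (mul_le_of_le_one_left (by positivity) (hm.surv_le_one e)).trans (le_of_eq ?_)
      ring
    · rw [crossing, if_neg h]
      have : 0 ≤ P e := sum_nonneg fun R _ => by simp [if_neg h]
      positivity
  refine (sum_le_sum hpt).trans ?_
  rw [sum_add_distrib, ← sum_div, sum_const, nsmul_eq_mul, sum_add_distrib]
  refine add_le_add (div_le_div_of_nonneg_right (add_le_add ?_ (s.sum_self_le hi hρ hρ0)) hM.le)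
    le_rfl
  simp only [hP]
  rw [sum_star_swap s.reg.lin]
  have h2 : ∀ R ∈ E,
      ∑ e ∈ R, wR E M R i * (if b / 4 < |u e| then ∑ f ∈ R.erase e, |u f| else 0)
        ≤ 100 * (wR E M R i * keyR E M D R i)
          + 288 / b * ∑ e ∈ R, wR E M R i * lowProf (u e) := by
    intro R hR
    rw [← mul_sum, ← mul_sum]
    refine (mul_le_mul_of_nonneg_left (s.pair_le hi hb hR) (hm.w_pos R).le).trans (le_of_eq ?_)
    simp only [hu]
    ring
  refine (sum_le_sum h2).trans ?_
  rw [sum_add_distrib, ← mul_sum, ← mul_sum, ← sum_star_swap s.reg.lin]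
  refine add_le_add le_rfl ?_
  have h3 : ∑ e ∈ V, ∑ R ∈ star E e, wR E M R i * lowProf (u e)
      ≤ 4 * (dref D M i * hpot V E M D i) := by
    rw [hpot, mul_sum, mul_sum]
    refine sum_le_sum fun e _ => ?_
    have e1 : ∑ R ∈ star E e, wR E M R i = surv E M e i * wdeg E M e i := by
      rw [wdeg, mul_sum]; exact sum_congr rfl fun R _ => (s.surv_rho hi R e).symm
    rw [← sum_mul, e1, s.wdeg_eq e]
    calc surv E M e i * (dref D M i * (1 + u e)) * lowProf (u e)
        = surv E M e i * dref D M i * ((1 + u e) * lowProf (u e)) := by ring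
      _ ≤ surv E M e i * dref D M i * (4 * prof (u e)) :=
          mul_le_mul_of_nonneg_left one_add_mul_lowProf (mul_nonneg (hm.surv_pos e).le hdp.le)
      _ = _ := by simp only [hu]; ring
  refine (mul_le_mul_of_nonneg_left h3 (by positivity)).trans (le_of_eq ?_)
  ring

/-- While the deviation is moderate, `surv / dref` does not decrease. -/
lemma surv_ratio (s : Setting V E D lam D3 M) {a : ℕ} {e : α} (hb : b ≤ 1 / 2) (hl : i ≤ M)
    (hai : a ≤ i) (hu : ∀ k, a ≤ k → k < i → |fdev E M D e k| ≤ b) :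
    surv E M e a * dref D M i ≤ surv E M e i * dref D M a := by
  induction hai with
  | refl => exact le_rfl
  | @step i hai ih =>
    have hi : i < M := hl
    have ih' := ih hi.le fun k h1 h2 => hu k h1 (h2.trans (Nat.lt_succ_self i))
    have hm := s.mild hi
    have hs := hm.surv_pos e
    have hd := dref_pos (M := M) s.D_pos i
    have hda := dref_pos (M := M) s.D_pos a
    have hd' := dref_pos (M := M) s.D_pos (i + 1)
    have hM := s.M_posR
    have hmul := dref_mul_succ (M := M) s.D_pos i
    set z := dref D M i / M with hz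
    have hz0 : 0 ≤ z := div_nonneg hd.le hM.le
    have hz1 : z ≤ 1 / 100 := by
      rw [hz, div_le_iff₀ hM]
      nlinarith [s.M_ge, s.one_le_D, dref_le (M := M) s.D_pos i]
    have hw : wdeg E M e i / M ≤ 3 / 2 * z := by
      rw [hz, ← mul_div_assoc]
      refine div_le_div_of_nonneg_right ?_ hM.le
      rw [s.wdeg_eq e, mul_comm (3 / 2 : ℝ)]
      exact mul_le_mul_of_nonneg_left
        (by linarith [(abs_le.1 (hu i hai (Nat.lt_succ_self i))).2]) hd.le
    have hf : 1 ≤ (1 - wdeg E M e i / M) * (1 + 2 * z) :=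
      le_trans (by nlinarith : (1:ℝ) ≤ (1 - 3 / 2 * z) * (1 + 2 * z))
        (mul_le_mul_of_nonneg_right (by linarith) (by linarith))
    have h1 := (hm.surv_succ_bounds e).1
    rw [← hmul] at ih'
    have h2 := mul_le_mul_of_nonneg_right h1
      (mul_nonneg hda.le (show (0:ℝ) ≤ 1 + 2 * z by linarith))
    have h3 : surv E M e i * dref D M a
        ≤ surv E M e i * (1 - wdeg E M e i / M) * (dref D M a * (1 + 2 * z)) := by
      have := mul_le_mul_of_nonneg_left hf (mul_nonneg hs.le hda.le)
      linarith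
    have h4 : surv E M e a * dref D M (i + 1) * (1 + 2 * z)
        ≤ surv E M e (i + 1) * dref D M a * (1 + 2 * z) := by
      linarith
    exact le_of_mul_le_mul_right h4 (by linarith)

end Setting

namespace Params

variable {V : Finset α} {E : Finset (Finset α)} {D lam D3 D1 : ℝ} {M i : ℕ}

lemma badThr_pos (p : Params V E D lam D3 D1 M) : 0 < badThr D := by
  have := p.set_.two_le_zm
  unfold badThr; positivity

lemma step_small (p : Params V E D lam D3 D1 M) :
    100 * (2 * D) ^ 2 / (M : ℝ) ≤ badThr D / 4 := by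
  have hs := p.set_
  have hD := hs.D_pos
  have h1 : zmax D ≤ 3 * D := by
    have := Real.log_le_sub_one_of_pos hD
    unfold zmax
    linarith [hs.one_le_D]
  have h2 : 0 < zmax D := by linarith [hs.two_le_zm]
  rw [badThr, div_div, div_le_div_iff₀ hs.M_posR (by positivity)]
  have h3 : D ^ 3 ≤ D ^ 9 := pow_le_pow_right₀ hs.one_le_D (by norm_num)
  calc 100 * (2 * D) ^ 2 * (10 * zmax D * 4) ≤ 100 * (2 * D) ^ 2 * (10 * (3 * D) * 4) := by
        gcongr
    _ = 48000 * D ^ 3 := by ring
    _ ≤ 1 * M := by linarith [hs.M_big, pow_pos hD 9]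

open Classical in
/-- A bad point moves a lot above a quarter of the threshold while it still carries mass. -/
lemma bad_point (p : Params V E D lam D3 D1 M) {e : α} (he : e ∈ badSet V E M D D3) :
    surv E M e (cutAt D M D3) * (badThr D / 2)
      ≤ 8 * D3 * ∑ l ∈ Ico (cutAt D M D3) M, crossing E M D (badThr D) e l := by
  obtain ⟨heV, hex⟩ := mem_filter.1 he
  have hs := p.set_
  obtain ⟨hτM, hτ, hτ2, -, -⟩ := hs.cut_spec le_rfl hs.D3_le_D
  obtain ⟨htτ, htM, htb⟩ := Nat.find_spec hex
  have hmin : ∀ k, k < Nat.find hex → cutAt D M D3 ≤ k → |fdev E M D e k| ≤ badThr D :=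
    fun k hk hk1 => le_of_not_gt fun h => Nat.find_min hex hk ⟨hk1, by omega, h⟩
  generalize Nat.find hex = t at htτ htM htb hmin
  set τ := cutAt D M D3
  set b := badThr D with hb
  have hb0 : 0 < b := p.badThr_pos
  have hb2 : b ≤ 1 / 2 := by
    rw [hb, badThr, div_le_iff₀ (by linarith [hs.two_le_zm])]
    linarith [hs.two_le_zm]
  have hwin : |fdev E M D e τ| ≤ b / 2 := by
    refine (hs.dev_le hτM.le hτ heV).trans ((hs.window_dev_sup hτ).trans ?_)
    rw [hb, badThr, div_div, le_div_iff₀ (by linarith [hs.two_le_zm])]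
    linarith [p.theta_ok]
  set φ : ℕ → ℝ := fun l => max (|fdev E M D e l| - b / 2) 0 with hφ
  have hstep : ∀ l ∈ Ico τ t, surv E M e τ * (φ (l + 1) - φ l)
      ≤ 8 * D3 * crossing E M D b e l := by
    intro l hl
    obtain ⟨hl1, hl2⟩ := mem_Ico.1 hl
    have hlM : l < M := by omega
    have hm := hs.mild hlM
    have hτ0 := ((hs.mild hτM).surv_pos e).le
    have hdiff := abs_sub_abs_le_abs_sub (fdev E M D e (l + 1)) (fdev E M D e l)
    unfold crossing
    split_ifs with h
    · have h1 : φ (l + 1) - φ l ≤ |fdev E M D e (l + 1) - fdev E M D e l| := by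
        have a1 := le_max_left (|fdev E M D e l| - b / 2) 0
        have a2 := le_max_right (|fdev E M D e l| - b / 2) 0
        rw [sub_le_iff_le_add]
        refine max_le ?_ ?_
        · simp only [hφ]; linarith
        · simp only [hφ]; linarith [abs_nonneg (fdev E M D e (l + 1) - fdev E M D e l)]
      have h2 := hs.surv_ratio hb2 hlM.le hl1 fun k hk1 hk2 => hmin k (by omega) hk1
      have h3 : surv E M e τ ≤ 8 * D3 * surv E M e l := by
        have h4 := mul_le_mul_of_nonneg_left hm.dr hτ0
        have h5 := mul_le_mul_of_nonneg_left hτ2 (hm.surv_pos e).le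
        linarith
      calc surv E M e τ * (φ (l + 1) - φ l)
          ≤ surv E M e τ * |fdev E M D e (l + 1) - fdev E M D e l| :=
            mul_le_mul_of_nonneg_left h1 hτ0
        _ ≤ 8 * D3 * surv E M e l * |fdev E M D e (l + 1) - fdev E M D e l| :=
            mul_le_mul_of_nonneg_right h3 (abs_nonneg _)
        _ = _ := by ring
    · have h1 : φ (l + 1) = 0 := by
        simp only [hφ]
        refine max_eq_right ?_
        have h6 := (hm.abs_fdev_diff e).trans p.step_small
        rw [← hb] at h6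
        linarith [le_of_not_gt h]
      rw [h1, mul_zero]
      exact mul_nonpos_of_nonneg_of_nonpos hτ0 (by simp [hφ])
  have hφτ : φ τ = 0 := max_eq_right (by linarith)
  have hφt : b / 2 ≤ φ t := le_max_of_le_left (by linarith)
  have htel : φ t - φ τ = ∑ l ∈ Ico τ t, (φ (l + 1) - φ l) := (sum_Ico_sub φ htτ).symm
  calc surv E M e τ * (b / 2) ≤ surv E M e τ * (φ t - φ τ) :=
        mul_le_mul_of_nonneg_left (by linarith) ((hs.mild hτM).surv_pos e).le
    _ ≤ ∑ l ∈ Ico τ t, 8 * D3 * crossing E M D b e l := by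
        rw [htel, mul_sum]; exact sum_le_sum hstep
    _ ≤ _ := by
        rw [← mul_sum]
        refine mul_le_mul_of_nonneg_left ?_ (by linarith [hs.D3_pos])
        exact sum_le_sum_of_subset_of_nonneg (Ico_subset_Ico_right htM.le) fun l hl _ =>
          crossing_nonneg E M D b e (mem_Ico.1 hl).2.le

/-- The total crossing movement after the window. -/
lemma crossing_total (p : Params V E D lam D3 D1 M) (hsep : 10000 * D3 ≤ D1) :
    ∑ e ∈ V, ∑ l ∈ Ico (cutAt D M D3) M, crossing E M D (badThr D) e l
      ≤ 25000 * zmax D ^ 2 * lyapSize D lam D1 * scale V D := by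
  rw [sum_comm]
  have hs := p.set_
  have hD := hs.D_pos
  have hM := hs.M_posR
  have hz2 := hs.two_le_zm
  obtain ⟨hτM, hτ, hτ2, hτge, -⟩ := hs.cut_spec le_rfl hs.D3_le_D
  obtain ⟨ha1M, ha1, -, -, -⟩ := p.cut1
  have haτ : cutAt D M D1 ≤ cutAt D M D3 := hτge _ ha1M.le (p.le_D1.trans ha1)
  set τ := cutAt D M D3
  set X := lyapSize D lam D1 * scale V D with hX
  set Y := scale V D / D1 with hY
  have hS := p.scale_nonneg
  have hD1 : 0 < D1 := by linarith [p.D1_big]
  have hX0 : 0 ≤ X := mul_nonneg (by unfold lyapSize; positivity) hS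
  have hY0 : 0 ≤ Y := div_nonneg hS hD1.le
  have hbpos := p.badThr_pos
  have hD31 : D3 ^ 2 / D ≤ 1 / D1 := by
    rw [div_le_div_iff₀ hD hD1, one_mul]
    refine le_trans ?_ p.cube
    calc D3 ^ 2 * D1 ≤ D1 ^ 2 * D1 := mul_le_mul_of_nonneg_right
          (pow_le_pow_left₀ hs.D3_pos.le p.le_D1 2) hD1.le
      _ = D1 ^ 3 := by ring
  have hpt : ∀ l ∈ Ico τ M, ∑ e ∈ V, crossing E M D (badThr D) e l
      ≤ 100 * (kdiss E M D l / M) + 23040 * zmax D * X * (dref D M l / M)
        + (144 * Y + 3600 * X) / M + 28 * (V.card * (200 * D ^ 3 / M ^ 2)) := by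
    intro l hl
    obtain ⟨hl1, hl2⟩ := mem_Ico.1 hl
    have hρ0 : 0 ≤ 3 * dref D M τ / D := by
      have := dref_pos (M := M) hD τ
      positivity
    refine (hs.crossing_sum_le hl2 hbpos
      (fun R hR e he => hs.rho_le hl2 hl1 hτ hR he) hρ0).trans ?_
    have hH : hpot V E M D l ≤ 2 * X := by
      have h1 := p.hpot_le (haτ.trans hl1) hl2.le
      have h2 : 1 / 2 ≤ √(dref D M l) := by
        rw [← Real.sqrt_sq (by norm_num : (0:ℝ) ≤ 1 / 2)]
        exact Real.sqrt_le_sqrt (by norm_num; exact (hs.mild hl2).dr)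
      have h3 := mul_le_mul_of_nonneg_right h2 (hs.hpot_nonneg hl2.le)
      rw [hX]
      linarith
    have hF : fmass V E M l ≤ 4 * D3 * scale V D := by
      refine (p.mass_le hsep hl2.le).trans ?_
      have h1 : √(dref D M l) ≤ 2 * D3 := by
        refine Real.sqrt_le_iff.2 ⟨by linarith [hs.D3_pos], ?_⟩
        nlinarith [dref_anti (M := M) hD hl1, hs.big]
      have := mul_le_mul_of_nonneg_left h1 (by positivity : 0 ≤ 2 * scale V D)
      linarith
    have hrho : 3 * dref D M τ / D ≤ 6 * D3 / D :=
      div_le_div_of_nonneg_right (by linarith) hD.le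
    have t1 : 3 * (3 * dref D M τ / D) * (2 * fmass V E M l + 100 * hpot V E M D l)
        ≤ 144 * Y + 3600 * X := by
      calc 3 * (3 * dref D M τ / D) * (2 * fmass V E M l + 100 * hpot V E M D l)
          ≤ 3 * (6 * D3 / D) * (2 * (4 * D3 * scale V D) + 100 * (2 * X)) := by
            refine mul_le_mul (by linarith) (by linarith)
              (by have := hs.fmass_nonneg hl2.le; have := hs.hpot_nonneg hl2.le; positivity)
              (by have := hs.D3_pos; positivity)
        _ = 144 * (D3 ^ 2 / D * scale V D) + 3600 * (D3 / D * X) := by ring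
        _ ≤ _ := by
            refine add_le_add (mul_le_mul_of_nonneg_left ?_ (by norm_num))
              (mul_le_mul_of_nonneg_left ?_ (by norm_num))
            · rw [hY]
              refine (mul_le_mul_of_nonneg_right hD31 hS).trans (le_of_eq ?_)
              ring
            · exact mul_le_of_le_one_left hX0 (by rw [div_le_one hD]; exact hs.D3_le_D)
    have t2 : 1152 / badThr D * (dref D M l * hpot V E M D l)
        ≤ 23040 * zmax D * X * dref D M l := by
      have := mul_le_mul_of_nonneg_left hH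
        (show 0 ≤ 11520 * zmax D * dref D M l by have := dref_pos (M := M) hD l; positivity)
      rw [badThr, div_div_eq_mul_div]
      linarith
    have e1 : (V.card : ℝ) * (5600 * D ^ 3 / M ^ 2) = 28 * (V.card * (200 * D ^ 3 / M ^ 2)) := by
      ring
    rw [e1]
    refine add_le_add ?_ le_rfl
    refine (div_le_div_of_nonneg_right
      (add_le_add (add_le_add le_rfl t2) t1) hM.le).trans (le_of_eq ?_)
    ring
  refine (sum_le_sum hpt).trans ?_
  rw [sum_add_distrib, sum_add_distrib, sum_add_distrib, ← mul_sum, ← mul_sum, ← mul_sum,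
    ← sum_div]
  have s1 : (∑ l ∈ Ico τ M, kdiss E M D l) / (M : ℝ) ≤ 4 * X := by
    refine le_trans (div_le_div_of_nonneg_right ?_ hM.le) (p.kdiss_le ha1M.le le_rfl)
    exact sum_le_sum_of_subset_of_nonneg (Ico_subset_Ico_left haτ) fun l hl _ =>
      hs.kdiss_nonneg (mem_Ico.1 hl).2
  have s2 := mul_le_mul_of_nonneg_left (p.sum_z_le hτM.le le_rfl)
    (show 0 ≤ 23040 * zmax D * X by positivity)
  have s3 : ∑ _l ∈ Ico τ M, (144 * Y + 3600 * X) / (M : ℝ) ≤ 144 * Y + 3600 * X := by
    rw [sum_const, Nat.card_Ico, nsmul_eq_mul, ← mul_div_assoc, div_le_iff₀ hM, mul_comm]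
    refine mul_le_mul_of_nonneg_left ?_ (by positivity)
    exact_mod_cast Nat.sub_le M τ
  have s4 : ∑ l ∈ Ico τ M, (V.card : ℝ) * (200 * D ^ 3 / M ^ 2) ≤ Y :=
    (p.err_le τ M le_rfl).trans (div_le_div_of_nonneg_left hS hD1 p.D1_le)
  have s5 : Y ≤ X := by
    rw [hX, hY, lyapSize, div_mul_eq_mul_div]
    refine div_le_div_of_nonneg_right (le_mul_of_one_le_left hS ?_) hD1.le
    nlinarith [hs.gmax_big]
  have s6 : 4172 * X ≤ 1043 * zmax D ^ 2 * X := by
    refine mul_le_mul_of_nonneg_right ?_ hX0
    nlinarith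
  have s7 : 0 ≤ zmax D ^ 2 * X := by positivity
  have e2 : 25000 * zmax D ^ 2 * lyapSize D lam D1 * scale V D = 25000 * zmax D ^ 2 * X := by
    rw [hX]; ring
  rw [e2]
  linarith

end Params

/-- The mass of the bad points is small. -/
theorem goalBad : GoalBad := by
  intro α _ V E D lam D3 D1 M p hsep
  classical
  have hs := p.set_
  have hz2 := hs.two_le_zm
  have hb := p.badThr_pos
  have h1 : (∑ e ∈ badSet V E M D D3, surv E M e (cutAt D M D3)) * (badThr D / 2)
      ≤ 8 * D3 * (25000 * zmax D ^ 2 * lyapSize D lam D1 * scale V D) := by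
    rw [sum_mul]
    refine (sum_le_sum fun e he => p.bad_point he).trans ?_
    rw [← mul_sum]
    refine mul_le_mul_of_nonneg_left (le_trans ?_ (p.crossing_total hsep))
      (by linarith [hs.D3_pos])
    exact sum_le_sum_of_subset_of_nonneg (fun e he => (mem_filter.1 he).1) fun e _ _ =>
      sum_nonneg fun l hl => crossing_nonneg E M D _ e (mem_Ico.1 hl).2.le
  rw [← le_div_iff₀ (by linarith)] at h1
  refine h1.trans ?_
  have h0 : 0 ≤ D3 * zmax D ^ 3 * gmax D lam ^ 2 / D1 * scale V D := by
    have := hs.D3_pos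
    have := p.D1_big
    have := p.scale_nonneg
    have : 0 < D1 := by linarith
    positivity
  have h2 : 0 ≤ (10 ^ 10 * zmax D - 160000000) := by linarith
  have e1 : 8 * D3 * (25000 * zmax D ^ 2 * lyapSize D lam D1 * scale V D) / (badThr D / 2)
      = 160000000 * (D3 * zmax D ^ 3 * gmax D lam ^ 2 / D1 * scale V D) := by
    unfold lyapSize badThr
    field_simp
    ring
  have e2 : badSize D lam D3 D1 * scale V D
      = 10 ^ 10 * zmax D * (D3 * zmax D ^ 3 * gmax D lam ^ 2 / D1 * scale V D) := by
    unfold badSize; ring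
  rw [e1, e2]
  have := mul_nonneg h2 h0
  linarith

end

end Vale.Agent.P046.Full
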