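import Vale.Agent.P046.Full.Defs

/-!
The tree recursion at full depth: fixed point equation and one step identities.
-/

namespace Vale.Agent.P046.Full

open Finset

noncomputable section

variable {α : Type*} [DecidableEq α] {E : Finset (Finset α)} {M : ℕ}

lemma bp_mem_unit (E : Finset (Finset α)) (M : ℕ) (base : Bool) :
    ∀ (j : ℕ) (X : Finset α) (e : α) (i : ℕ), i ≤ M → bp E M base j X e i ∈ Set.Icc (0:ℝ) 1 := by
  intro j
  induction j with
  | zero => intro X e i _; simp only [bp]; split_ifs <;> norm_num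
  | succ j ih =>
    intro X e i hi
    simp only [bp]
    have hfac : ∀ R ∈ (E.erase X).filter (fun R => e ∈ R),
        (1 - (∑ l ∈ range i, ∏ f ∈ R.erase e, bp E M base j R f l) / M) ∈ Set.Icc (0:ℝ) 1 := by
      intro R _
      have h1 : ∀ l ∈ range i, (∏ f ∈ R.erase e, bp E M base j R f l) ∈ Set.Icc (0:ℝ) 1 := by
        intro l hl
        have hl' : l ≤ M := le_trans (mem_range.1 hl).le hi
        exact ⟨prod_nonneg fun f _ => (ih R f l hl').1,
          prod_le_one (fun f _ => (ih R f l hl').1) fun f _ => (ih R f l hl').2⟩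
      have h2 : (∑ l ∈ range i, ∏ f ∈ R.erase e, bp E M base j R f l) ≤ (M : ℝ) := by
        calc _ ≤ ∑ _l ∈ range i, (1:ℝ) := sum_le_sum fun l hl => (h1 l hl).2
          _ = (i : ℝ) := by simp
          _ ≤ M := by exact_mod_cast hi
      have h3 : 0 ≤ (∑ l ∈ range i, ∏ f ∈ R.erase e, bp E M base j R f l) :=
        sum_nonneg fun l hl => (h1 l hl).1
      have h4 : (∑ l ∈ range i, ∏ f ∈ R.erase e, bp E M base j R f l) / (M : ℝ) ≤ 1 :=
        div_le_one_of_le₀ h2 (Nat.cast_nonneg M)
      constructor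
      · linarith
      · have : 0 ≤ (∑ l ∈ range i, ∏ f ∈ R.erase e, bp E M base j R f l) / (M : ℝ) := by positivity
        linarith
    exact ⟨prod_nonneg fun R hR => (hfac R hR).1,
      prod_le_one (fun R hR => (hfac R hR).1) fun R hR => (hfac R hR).2⟩

lemma bp_true_stable (E : Finset (Finset α)) (M : ℕ) :
    ∀ (i j : ℕ) (X : Finset α) (e : α), i ≤ j → bp E M true j X e i = bp E M true i X e i := by
  intro i
  induction i using Nat.strong_induction_on with
  | _ i ih =>
    intro j X e hij
    rcases j with _ | j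
    · rw [Nat.le_zero.1 hij]
    rcases i with _ | i
    · simp [bp]
    simp only [bp]
    refine prod_congr rfl fun R _ => ?_
    congr 2
    refine sum_congr rfl fun l hl => prod_congr rfl fun f _ => ?_
    have hl' := mem_range.1 hl
    rw [ih l hl' j R f (by omega), ih l hl' i R f (by omega)]

/-- The exact tree recursion. -/
def qf (E : Finset (Finset α)) (M : ℕ) (X : Finset α) (e : α) (i : ℕ) : ℝ :=
  bp E M true M X e i

/-- Probability that both partners of `e` in `R` are uncovered. -/
def piv (E : Finset (Finset α)) (M : ℕ) (R : Finset α) (e : α) (i : ℕ) : ℝ :=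
  ∏ f ∈ R.erase e, qf E M R f i

/-- Probability that `R` has covered `e` through that branch before time `i`. -/
def accum (E : Finset (Finset α)) (M : ℕ) (R : Finset α) (e : α) (i : ℕ) : ℝ :=
  (∑ l ∈ range i, piv E M R e l) / M

/-- The predicted survival probability. -/
def surv (E : Finset (Finset α)) (M : ℕ) (e : α) (i : ℕ) : ℝ := qf E M ∅ e i

lemma qf_mem_unit (E : Finset (Finset α)) (X : Finset α) (e : α) {i : ℕ} (hi : i ≤ M) :
    qf E M X e i ∈ Set.Icc (0:ℝ) 1 := bp_mem_unit E M true M X e i hi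

lemma piv_mem_unit (E : Finset (Finset α)) (R : Finset α) (e : α) {i : ℕ} (hi : i ≤ M) :
    piv E M R e i ∈ Set.Icc (0:ℝ) 1 :=
  ⟨prod_nonneg fun f _ => (qf_mem_unit E R f hi).1,
    prod_le_one (fun f _ => (qf_mem_unit E R f hi).1) fun f _ => (qf_mem_unit E R f hi).2⟩

lemma qf_eq (E : Finset (Finset α)) (X : Finset α) (e : α) {i : ℕ} (hi : i ≤ M) :
    qf E M X e i = ∏ R ∈ (E.erase X).filter (fun R => e ∈ R), (1 - accum E M R e i) := by
  have h : qf E M X e i = bp E M true (M + 1) X e i := by
    rw [qf, bp_true_stable E M i M X e hi, bp_true_stable E M i (M + 1) X e (by omega)]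
  rw [h]
  rfl

lemma accum_nonneg (E : Finset (Finset α)) (R : Finset α) (e : α) {i : ℕ} (hi : i ≤ M) :
    0 ≤ accum E M R e i :=
  div_nonneg (sum_nonneg fun l hl => (piv_mem_unit E R e (by
    have := mem_range.1 hl; omega)).1) (Nat.cast_nonneg M)

lemma accum_le_one (E : Finset (Finset α)) (R : Finset α) (e : α) {i : ℕ} (hi : i ≤ M) :
    accum E M R e i ≤ 1 := by
  refine div_le_one_of_le₀ ?_ (Nat.cast_nonneg M)
  calc ∑ l ∈ range i, piv E M R e l ≤ ∑ _l ∈ range i, (1:ℝ) :=
        sum_le_sum fun l hl => (piv_mem_unit E R e (by have := mem_range.1 hl; omega)).2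
    _ = (i : ℝ) := by simp
    _ ≤ M := by exact_mod_cast hi

lemma accum_succ (E : Finset (Finset α)) (R : Finset α) (e : α) (i : ℕ) :
    accum E M R e (i + 1) = accum E M R e i + piv E M R e i / M := by
  rw [accum, accum, sum_range_succ, add_div]

lemma accum_zero (E : Finset (Finset α)) (R : Finset α) (e : α) : accum E M R e 0 = 0 := by
  simp [accum]

/-- Removing one branch at `e`. -/
lemma surv_eq_mul (h : ∅ ∉ E) {R : Finset α} (hR : R ∈ E) {e : α} (he : e ∈ R) {i : ℕ}
    (hi : i ≤ M) :
    surv E M e i = qf E M R e i * (1 - accum E M R e i) := by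
  rw [surv, qf_eq E ∅ e hi, qf_eq E R e hi, erase_eq_of_notMem h, filter_erase,
    prod_erase_mul _ _ (mem_filter.2 ⟨hR, he⟩)]

lemma qf_zero (E : Finset (Finset α)) (X : Finset α) (e : α) : qf E M X e 0 = 1 := by
  rw [qf_eq E X e (Nat.zero_le M)]
  simp [accum_zero]

lemma surv_zero (E : Finset (Finset α)) (e : α) : surv E M e 0 = 1 := qf_zero E ∅ e

lemma qf_antitone (E : Finset (Finset α)) (X : Finset α) (e : α) {i : ℕ} (hi : i + 1 ≤ M) :
    qf E M X e (i + 1) ≤ qf E M X e i := by
  rw [qf_eq E X e hi, qf_eq E X e (by omega : i ≤ M)]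
  refine prod_le_prod (fun R _ => ?_) fun R _ => ?_
  · linarith [accum_le_one E R e hi]
  · rw [accum_succ]
    have : 0 ≤ piv E M R e i / M :=
      div_nonneg (piv_mem_unit E R e (by omega)).1 (Nat.cast_nonneg M)
    linarith

lemma qf_le_of_le (E : Finset (Finset α)) (X : Finset α) (e : α) {i l : ℕ} (hil : i ≤ l)
    (hl : l ≤ M) : qf E M X e l ≤ qf E M X e i := by
  induction hil with
  | refl => exact le_rfl
  | step _ ih => exact (qf_antitone E X e hl).trans (ih (by omega))

lemma piv_le_of_le (E : Finset (Finset α)) (R : Finset α) (e : α) {i l : ℕ} (hil : i ≤ l)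
    (hl : l ≤ M) : piv E M R e l ≤ piv E M R e i :=
  prod_le_prod (fun f _ => (qf_mem_unit E R f hl).1) fun f _ => qf_le_of_le E R f hil hl

end

end Vale.Agent.P046.Full
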