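import Vale.Agent.P046.Full.Flow.Step

/-!
The deterministic clock of the flow: the reference degree and its discrete integral.
-/

namespace Vale.Agent.P046.Full

open Finset

noncomputable section

/-- The discrete integral of the reference degree. -/
def zsum (D : ℝ) (M i : ℕ) : ℝ := ∑ l ∈ range i, dref D M l / M

/-- A logarithmic bound for `zsum`. -/
def zmax (D : ℝ) : ℝ := Real.log D + 2

open Classical in
/-- The last step at which the reference degree is at least `a`. -/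
def cutAt (D : ℝ) (M : ℕ) (a : ℝ) : ℕ := Nat.findGreatest (fun i => a ≤ dref D M i) M

variable {D : ℝ} {M : ℕ}

lemma dref_zero (D : ℝ) (M : ℕ) : dref D M 0 = D := by simp [dref]

lemma dref_le (hD : 0 < D) (i : ℕ) : dref D M i ≤ D := by
  unfold dref
  rw [div_le_iff₀ (by positivity)]
  have : 0 ≤ D * (2 * D * i / M) := by positivity
  linarith

lemma dref_anti (hD : 0 < D) {i l : ℕ} (h : i ≤ l) : dref D M l ≤ dref D M i := by
  have hil : (i : ℝ) ≤ l := by exact_mod_cast h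
  unfold dref
  apply div_le_div_of_nonneg_left hD.le (by positivity)
  gcongr

lemma inv_dref_eq (hD : 0 < D) (i : ℕ) :
    1 / dref D M i = 1 / D + 2 * (i / M) := by
  unfold dref
  rw [one_div_div]
  field_simp

lemma step_div_le (hD : 0 < D) (i : ℕ) : (i : ℝ) / M ≤ 1 / (2 * dref D M i) := by
  have h := inv_dref_eq (M := M) hD i
  have : 0 ≤ 1 / D := by positivity
  have e : 1 / (2 * dref D M i) = 1 / 2 * (1 / dref D M i) := by rw [one_div, one_div, mul_inv]; norm_num
  rw [e, h]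
  linarith

lemma dref_last (hD : 0 < D) (hM : 0 < M) : dref D M M = D / (1 + 2 * D) := by
  have : (M : ℝ) ≠ 0 := by exact_mod_cast hM.ne'
  unfold dref
  rw [mul_div_assoc, div_self this, mul_one]

lemma quarter_le_dref (hD : 1 / 2 ≤ D) {i : ℕ} (hM : 0 < M) (hi : i ≤ M) :
    1 / 4 ≤ dref D M i := by
  refine le_trans ?_ (dref_anti (by linarith) hi)
  rw [dref_last (by linarith) hM, le_div_iff₀ (by linarith)]
  linarith

lemma dref_last_lt (hD : 0 < D) (hM : 0 < M) : dref D M M < 1 / 2 := by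
  rw [dref_last hD hM, div_lt_iff₀ (by linarith)]
  linarith

lemma dref_mul_succ (hD : 0 < D) (i : ℕ) :
    dref D M (i + 1) * (1 + 2 * (dref D M i / M)) = dref D M i := by
  have h := dref_succ (M := M) hD i
  have a := (dref_pos (M := M) hD i).ne'
  have b := (dref_pos (M := M) hD (i + 1)).ne'
  calc dref D M (i + 1) * (1 + 2 * (dref D M i / M))
      = dref D M (i + 1) * (dref D M i * (1 / dref D M i + 2 / M)) := by field_simp
    _ = dref D M i := by rw [← h]; field_simp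

lemma zsum_zero (D : ℝ) (M : ℕ) : zsum D M 0 = 0 := by simp [zsum]

lemma zsum_succ (D : ℝ) (M i : ℕ) : zsum D M (i + 1) = zsum D M i + dref D M i / M := by
  rw [zsum, zsum, sum_range_succ]

lemma zsum_nonneg (hD : 0 < D) (i : ℕ) : 0 ≤ zsum D M i :=
  sum_nonneg fun l _ => div_nonneg (dref_pos hD l).le (Nat.cast_nonneg M)

lemma zsum_mono (hD : 0 < D) {i l : ℕ} (h : i ≤ l) : zsum D M i ≤ zsum D M l :=
  sum_le_sum_of_subset_of_nonneg (range_subset_range.2 h)
    fun k _ _ => div_nonneg (dref_pos hD k).le (Nat.cast_nonneg M)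

lemma zsum_sub_le (hD : 0 < D) (hM : 0 < M) {a : ℕ} :
    ∀ {b : ℕ}, a ≤ b → zsum D M b - zsum D M a
      ≤ (Real.log (dref D M a) - Real.log (dref D M b)) / 2
        + 2 * D ^ 2 * ((b : ℝ) - a) / M ^ 2 := by
  intro b hab
  induction hab with
  | refl => simp
  | @step b hab ih =>
    set z := dref D M b / M with hz
    have hM' : (0:ℝ) < M := by exact_mod_cast hM
    have hz0 : 0 ≤ z := div_nonneg (dref_pos hD b).le hM'.le
    have hz1 : z ≤ D / M := div_le_div_of_nonneg_right (dref_le hD b) hM'.le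
    have hlog : Real.log (dref D M (b + 1)) = Real.log (dref D M b) - Real.log (1 + 2 * z) := by
      have := congrArg Real.log (dref_mul_succ (M := M) hD b)
      rw [← hz, Real.log_mul (dref_pos hD _).ne' (by linarith)] at this
      linarith
    have h1 : 2 * z - 4 * z ^ 2 ≤ Real.log (1 + 2 * z) := by
      refine le_trans ?_ (Real.one_sub_inv_le_log_of_pos (by linarith : (0:ℝ) < 1 + 2 * z))
      rw [inv_eq_one_div, le_sub_iff_add_le, ← le_sub_iff_add_le', div_le_iff₀ (by linarith)]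
      nlinarith [pow_nonneg hz0 3]
    have h2 : z ^ 2 ≤ D ^ 2 / M ^ 2 := by rw [← div_pow]; exact pow_le_pow_left₀ hz0 hz1 2
    have e : 2 * D ^ 2 * ((↑(b + 1) : ℝ) - a) / (M:ℝ) ^ 2
        = 2 * D ^ 2 * ((b : ℝ) - a) / M ^ 2 + 2 * (D ^ 2 / M ^ 2) := by
      push_cast; ring
    rw [zsum_succ, hlog, e, ← hz]
    linarith

lemma zsum_le (hD : 1 ≤ D) (hM : 0 < M) (hbig : 4 * D ^ 2 ≤ M) {a b : ℕ} (hab : a ≤ b)
    (hb : b ≤ M) :
    zsum D M b - zsum D M a
      ≤ (Real.log (dref D M a) - Real.log (dref D M b)) / 2 + 1 / 2 := by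
  have h := zsum_sub_le (M := M) (by linarith : 0 < D) hM hab
  have hM' : (0:ℝ) < M := by exact_mod_cast hM
  have : 2 * D ^ 2 * ((b : ℝ) - a) / M ^ 2 ≤ 1 / 2 := by
    rw [div_le_iff₀ (by positivity)]
    have h1 : ((b : ℝ) - a) ≤ M := by
      have : (b : ℝ) ≤ M := by exact_mod_cast hb
      have : (0:ℝ) ≤ a := Nat.cast_nonneg a
      linarith
    nlinarith [mul_le_mul_of_nonneg_left h1 (by positivity : (0:ℝ) ≤ 2 * D ^ 2)]
  linarith

lemma log_quarter_ge : -2 ≤ Real.log (1 / 4) := by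
  have h : Real.log (1 / 4) = -(2 * Real.log 2) := by
    rw [show (1 / 4 : ℝ) = (2 ^ 2)⁻¹ by norm_num, Real.log_inv, Real.log_pow]
    norm_num
  rw [h]
  linarith [Real.log_two_lt_d9]

lemma zsum_le_zmax (hD : 1 ≤ D) (hM : 0 < M) (hbig : 4 * D ^ 2 ≤ M) {i : ℕ} (hi : i ≤ M) :
    zsum D M i ≤ zmax D := by
  have h := zsum_le hD hM hbig (Nat.zero_le i) hi
  rw [zsum_zero, dref_zero, sub_zero] at h
  have h1 : Real.log (1 / 4) ≤ Real.log (dref D M i) :=
    Real.log_le_log (by norm_num) (quarter_le_dref (by linarith) hM hi)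
  have h2 := log_quarter_ge
  have h3 := Real.log_nonneg hD
  unfold zmax
  linarith

lemma two_le_zmax (hD : 1 ≤ D) : 2 ≤ zmax D := by
  have := Real.log_nonneg hD
  unfold zmax
  linarith

lemma cutAt_spec (hD : 0 < D) (hM : 0 < M) {a : ℝ} (ha : 1 / 2 ≤ a) (haD : a ≤ D)
    (hbig : 2 * D ≤ M) :
    cutAt D M a < M ∧ a ≤ dref D M (cutAt D M a) ∧ dref D M (cutAt D M a) ≤ 2 * a ∧
      (∀ i, i ≤ M → a ≤ dref D M i → i ≤ cutAt D M a) ∧
      (∀ i, i ≤ cutAt D M a → a ≤ dref D M i) := by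
  classical
  have h0 : a ≤ dref D M 0 := by rw [dref_zero]; exact haD
  have h1 : a ≤ dref D M (cutAt D M a) :=
    Nat.findGreatest_spec (P := fun i => a ≤ dref D M i) (Nat.zero_le M) h0
  have hle : cutAt D M a ≤ M := Nat.findGreatest_le M
  have hlt : cutAt D M a < M := by
    refine lt_of_le_of_ne hle fun e => ?_
    rw [e] at h1
    linarith [dref_last_lt (M := M) hD hM]
  have h2 : ∀ i, i ≤ M → a ≤ dref D M i → i ≤ cutAt D M a := fun i hi hai =>
    Nat.le_findGreatest hi hai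
  refine ⟨hlt, h1, ?_, h2, fun i hi => h1.trans (dref_anti hD hi)⟩
  have h3 : dref D M (cutAt D M a + 1) < a := by
    refine lt_of_not_ge fun hh => ?_
    have := h2 _ hlt hh
    omega
  have h4 := dref_mul_succ (M := M) hD (cutAt D M a)
  have h5 : dref D M (cutAt D M a) / M ≤ 1 / 2 := by
    rw [div_le_iff₀ (by exact_mod_cast hM)]
    linarith [dref_le (M := M) hD (cutAt D M a)]
  have h6 := mul_le_mul_of_nonneg_left (show 1 + 2 * (dref D M (cutAt D M a) / M) ≤ 2 by linarith)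
    (dref_pos (M := M) hD (cutAt D M a + 1)).le
  linarith

lemma sqrt_succ_le {d d' z : ℝ} (h : d' * (1 + 2 * z) = d) (hd' : 0 ≤ d') (hz : 0 ≤ z)
    (hz1 : z ≤ 1 / 2) : √d' ≤ √d * (1 - z + 2 * z ^ 2) ∧ √d * (1 - z) ≤ √d' := by
  have hd : 0 ≤ d := h ▸ by positivity
  have hf : 0 ≤ 1 - z + 2 * z ^ 2 := by nlinarith
  have hg : 0 ≤ 1 - z := by linarith
  constructor
  · rw [← Real.sqrt_sq hf, ← Real.sqrt_mul hd]
    refine Real.sqrt_le_sqrt ?_
    rw [← h, mul_assoc]
    refine le_mul_of_one_le_right hd' ?_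
    nlinarith [mul_nonneg hz hz, mul_nonneg (mul_nonneg hz hz) hz,
      mul_nonneg (mul_nonneg hz hz) (mul_nonneg hz hz)]
  · rw [← Real.sqrt_sq hg, ← Real.sqrt_mul hd]
    refine Real.sqrt_le_sqrt ?_
    rw [← h, mul_assoc]
    refine mul_le_of_le_one_right hd' ?_
    nlinarith [mul_nonneg hz hz, mul_nonneg (mul_nonneg hz hz) hz]

end

end Vale.Agent.P046.Full
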