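import Vale.Agent.P046.Full.Flow.Step

/-!
First order expansions of the deviation and of the second order deviation.
-/

namespace Vale.Agent.P046.Full

open Finset

noncomputable section

variable {α : Type*} [DecidableEq α] {V : Finset α} {E : Finset (Finset α)} {M : ℕ} {D Δ : ℝ}
  {i : ℕ}

/-- The second order drift of `fnbr`. -/
def fnbrDrift (E : Finset (Finset α)) (M : ℕ) (D : ℝ) (e : α) (i : ℕ) : ℝ :=
  -∑ R ∈ star E e, rho E M R e i * partner E M D R e i ^ 2
    + (∑ R ∈ star E e, rho E M R e i * rho3 E M R i * partner E M D R e i) / dref D M i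
    - ∑ R ∈ star E e, rho E M R e i * ∑ f ∈ R.erase e, fnbr E M D f i
    + (∑ R ∈ star E e, rho E M R e i * ∑ f ∈ R.erase e, selfTerm E M D f i) / dref D M i

namespace Mild

lemma inv_dref_le (h : Mild V E M D Δ i) : 1 / dref D M i ≤ 4 := by
  rw [div_le_iff₀ (dref_pos h.D_pos i)]; linarith [h.dr]

lemma abs_fdev_le (h : Mild V E M D Δ i) (e : α) : |fdev E M D e i| ≤ 9 * Δ := by
  have h1 : 0 ≤ wdeg E M e i / dref D M i := div_nonneg (h.wdeg_nonneg e) (dref_pos h.D_pos i).le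
  have h2 : wdeg E M e i / dref D M i ≤ 8 * Δ := by
    rw [div_eq_mul_one_div]
    calc _ ≤ 2 * Δ * 4 := mul_le_mul (h.wdeg_le e) h.inv_dref_le
          (div_nonneg zero_le_one (dref_pos h.D_pos i).le) (by linarith [h.one_le])
      _ = _ := by ring
  unfold fdev
  rw [abs_le]
  have := h.one_le
  constructor <;> linarith

lemma sum_star_abs (h : Mild V E M D Δ i) (e : α) (F : Finset α → ℝ) {C : ℝ} (hC : 0 ≤ C)
    (hF : ∀ R ∈ E, e ∈ R → |F R| ≤ C) : |∑ R ∈ star E e, F R| ≤ Δ * C := by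
  calc |∑ R ∈ star E e, F R| ≤ ∑ R ∈ star E e, |F R| := abs_sum_le_sum_abs _ _
    _ ≤ ∑ _R ∈ star E e, C := sum_le_sum fun R hR => by
        obtain ⟨h1, h2⟩ := mem_filter.1 hR; exact hF R h1 h2
    _ = deg E e * C := by rw [sum_const, nsmul_eq_mul]; rfl
    _ ≤ Δ * C := mul_le_mul_of_nonneg_right (h.deg_le e) hC

lemma sum_erase_abs (h : Mild V E M D Δ i) {R : Finset α} (hR : R ∈ E) {e : α} (he : e ∈ R)
    (F : α → ℝ) {C : ℝ} (hF : ∀ f ∈ R.erase e, |F f| ≤ C) :
    |∑ f ∈ R.erase e, F f| ≤ 2 * C := by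
  calc |∑ f ∈ R.erase e, F f| ≤ ∑ f ∈ R.erase e, |F f| := abs_sum_le_sum_abs _ _
    _ ≤ ∑ _f ∈ R.erase e, C := sum_le_sum hF
    _ = 2 * C := by rw [sum_const, h.card_erase_two hR he, nsmul_eq_mul]; norm_num

lemma abs_partner_le (h : Mild V E M D Δ i) {R : Finset α} (hR : R ∈ E) {e : α} (he : e ∈ R) :
    |partner E M D R e i| ≤ 18 * Δ := by
  have := h.sum_erase_abs hR he (fun f => fdev E M D f i) fun f _ => h.abs_fdev_le f
  unfold partner; linarith

lemma abs_rho (h : Mild V E M D Δ i) {R : Finset α} (hR : R ∈ E) {e : α} (he : e ∈ R) :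
    |rho E M R e i| ≤ 2 := by
  rw [abs_of_pos (h.rho_pos R e)]; exact h.rho_le_two hR he

lemma abs_dref_mul_fnbr (h : Mild V E M D Δ i) (e : α) :
    |dref D M i * fnbr E M D e i| ≤ 36 * Δ ^ 2 := by
  rw [fnbr, mul_div_cancel₀ _ (dref_pos h.D_pos i).ne']
  refine (h.sum_star_abs e _ (C := 36 * Δ) (by linarith [h.one_le]) fun R hR he => ?_).trans
    (le_of_eq (by ring))
  rw [abs_mul]
  calc _ ≤ 2 * (18 * Δ) :=
        mul_le_mul (h.abs_rho hR he) (h.abs_partner_le hR he) (abs_nonneg _) (by norm_num)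
    _ = _ := by ring

lemma selfTerm_nonneg (h : Mild V E M D Δ i) (e : α) : 0 ≤ selfTerm E M D e i :=
  div_nonneg (sum_nonneg fun R _ => mul_nonneg (h.rho_pos R e).le (h.rho3_nonneg R))
    (dref_pos h.D_pos i).le

lemma selfTerm_le (h : Mild V E M D Δ i) (e : α) : selfTerm E M D e i ≤ 48 * Δ := by
  have h1 : |∑ R ∈ star E e, rho E M R e i * rho3 E M R i| ≤ Δ * 12 := by
    refine h.sum_star_abs e _ (by norm_num) fun R hR he => ?_
    rw [abs_mul, abs_of_nonneg (h.rho3_nonneg R)]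
    calc _ ≤ 2 * 6 := mul_le_mul (h.abs_rho hR he) (h.rho3_le hR) (h.rho3_nonneg R) (by norm_num)
      _ = 12 := by norm_num
  unfold selfTerm
  rw [div_eq_mul_one_div]
  calc _ ≤ Δ * 12 * 4 := mul_le_mul ((le_abs_self _).trans h1) h.inv_dref_le
        (div_nonneg zero_le_one (dref_pos h.D_pos i).le) (by linarith [h.one_le])
    _ = _ := by ring

/-- `-∑ rho z / D + 2 Y = -∑ rho U + self`. -/
lemma rate_identity (h : Mild V E M D Δ i) (e : α) :
    -(∑ R ∈ star E e, rho E M R e i * rateOf E M R e i) / dref D M i + 2 * wdeg E M e i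
      = -(dref D M i * fnbr E M D e i) + selfTerm E M D e i := by
  have hD := (dref_pos (M := M) h.D_pos i).ne'
  unfold fnbr selfTerm wdeg
  rw [mul_div_cancel₀ _ hD, neg_div, sum_div, sum_div, mul_sum, ← sum_neg_distrib,
    ← sum_neg_distrib, ← sum_add_distrib, ← sum_add_distrib]
  refine sum_congr rfl fun R hR => ?_
  obtain ⟨h1, h2⟩ := mem_filter.1 hR
  have e1 : ∑ f ∈ R.erase e, wdeg E M f i = dref D M i * (2 + partner E M D R e i) := by
    unfold partner fdev
    rw [sum_sub_distrib, ← sum_div, sum_const, h.card_erase_two h1 h2, nsmul_eq_mul]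
    field_simp
    ring
  rw [rateOf, e1]
  field_simp
  ring

lemma wdeg_succ (h : Mild V E M D Δ i) (e : α) :
    |wdeg E M e (i + 1) - (wdeg E M e i
      - (∑ R ∈ star E e, rho E M R e i * rateOf E M R e i) / M)| ≤ 120 * Δ ^ 3 / M ^ 2 := by
  have e1 : wdeg E M e (i + 1) - (wdeg E M e i
      - (∑ R ∈ star E e, rho E M R e i * rateOf E M R e i) / M)
      = ∑ R ∈ star E e, (rho E M R e (i + 1)
          - rho E M R e i * (1 - rateOf E M R e i / M)) := by
    unfold wdeg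
    rw [sum_sub_distrib, sum_div]
    have : ∑ R ∈ star E e, rho E M R e i * (1 - rateOf E M R e i / M)
        = ∑ R ∈ star E e, rho E M R e i - ∑ R ∈ star E e, rho E M R e i * rateOf E M R e i / M := by
      rw [← sum_sub_distrib]; exact sum_congr rfl fun R _ => by ring
    rw [this]
  rw [e1]
  refine (h.sum_star_abs e _ (C := 120 * (Δ / M) ^ 2) (by positivity) fun R hR he => ?_).trans
    (le_of_eq (by ring))
  refine (h.rho_succ hR he).trans ?_
  calc rho E M R e i * (60 * (Δ / M) ^ 2) ≤ 2 * (60 * (Δ / M) ^ 2) :=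
        mul_le_mul_of_nonneg_right (h.rho_le_two hR he) (by positivity)
    _ = _ := by ring

lemma abs_sum_rate (h : Mild V E M D Δ i) (e : α) :
    |∑ R ∈ star E e, rho E M R e i * rateOf E M R e i| ≤ 12 * Δ ^ 2 := by
  refine (h.sum_star_abs e _ (C := 12 * Δ) (by linarith [h.one_le]) fun R hR he => ?_).trans
    (le_of_eq (by ring))
  rw [abs_mul]
  calc _ ≤ 2 * (6 * Δ) :=
        mul_le_mul (h.abs_rho hR he) (h.abs_rate_le hR he) (abs_nonneg _) (by norm_num)
    _ = _ := by ring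

/-- Expansion of the deviation. -/
lemma fdev_succ (h : Mild V E M D Δ i) (e : α) :
    |fdev E M D e (i + 1) - fdev E M D e i
      - (-(dref D M i * fnbr E M D e i) + selfTerm E M D e i) / M| ≤ 700 * Δ ^ 3 / M ^ 2 := by
  have hM := h.M_pos
  rw [← h.rate_identity e]
  set Z := ∑ R ∈ star E e, rho E M R e i * rateOf E M R e i with hZ
  set w := wdeg E M e (i + 1) - (wdeg E M e i - Z / M) with hw
  have hb := h.wdeg_succ e
  rw [← hZ, ← hw] at hb
  have e1 : fdev E M D e (i + 1) - fdev E M D e i - (-Z / dref D M i + 2 * wdeg E M e i) / M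
      = w * (1 / dref D M i + 2 / M) - 2 * Z / M ^ 2 := by
    rw [← dref_succ h.D_pos, fdev, fdev, hw]
    have := dref_succ (M := M) h.D_pos i
    rw [div_eq_mul_one_div (wdeg E M e (i + 1)), this, mul_comm]
    field_simp [(dref_pos (M := M) h.D_pos i).ne']
    ring
  rw [e1]
  have h5 : 1 / dref D M i + 2 / (M : ℝ) ≤ 5 := by
    have : 2 / (M : ℝ) ≤ 1 := by rw [div_le_one hM]; nlinarith [h.big, h.one_le]
    linarith [h.inv_dref_le]
  have h6 : |w * (1 / dref D M i + 2 / M)| ≤ 120 * Δ ^ 3 / M ^ 2 * 5 := by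
    rw [abs_mul]
    refine mul_le_mul hb ?_ (abs_nonneg _) (by have := h.one_le; positivity)
    rw [abs_of_nonneg (by have := dref_pos (M := M) h.D_pos i; positivity)]; exact h5
  have h7 : |2 * Z / (M : ℝ) ^ 2| ≤ 24 * Δ ^ 3 / M ^ 2 := by
    rw [abs_div, abs_mul, abs_two, abs_of_pos (pow_pos hM 2)]
    refine div_le_div_of_nonneg_right ?_ (by positivity)
    have h8 : Δ ^ 2 ≤ Δ ^ 3 := pow_le_pow_right₀ h.one_le (by norm_num)
    linarith [h.abs_sum_rate e]
  refine (abs_sub _ _).trans ?_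
  have : 120 * Δ ^ 3 / (M:ℝ) ^ 2 * 5 + 24 * Δ ^ 3 / M ^ 2 ≤ 700 * Δ ^ 3 / M ^ 2 := by
    have := h.one_le
    have h0 : 0 ≤ Δ ^ 3 / (M:ℝ) ^ 2 := by positivity
    ring_nf at h0 ⊢; linarith
  linarith

lemma abs_fdev_diff (h : Mild V E M D Δ i) (e : α) :
    |fdev E M D e (i + 1) - fdev E M D e i| ≤ 100 * Δ ^ 2 / M := by
  have hM := h.M_pos
  have h1 : |(-(dref D M i * fnbr E M D e i) + selfTerm E M D e i) / (M : ℝ)|
      ≤ 84 * Δ ^ 2 / M := by
    rw [abs_div, abs_of_pos hM]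
    refine div_le_div_of_nonneg_right ?_ hM.le
    refine (abs_add_le _ _).trans ?_
    rw [abs_neg, abs_of_nonneg (h.selfTerm_nonneg e)]
    have h2 : Δ ≤ Δ ^ 2 := by nlinarith [h.one_le]
    linarith [h.abs_dref_mul_fnbr e, h.selfTerm_le e]
  have h3 : 700 * Δ ^ 3 / (M : ℝ) ^ 2 ≤ 16 * Δ ^ 2 / M := by
    rw [div_le_div_iff₀ (pow_pos hM 2) hM]
    have h4 : 700 * Δ ≤ 16 * (M : ℝ) := by nlinarith [h.big, h.one_le]
    have := mul_le_mul_of_nonneg_right h4 (by positivity : 0 ≤ Δ ^ 2 * (M : ℝ))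
    linarith
  have := h.fdev_succ e
  have e1 : 84 * Δ ^ 2 / (M : ℝ) + 16 * Δ ^ 2 / M = 100 * Δ ^ 2 / M := by ring
  calc |fdev E M D e (i + 1) - fdev E M D e i|
      = |(fdev E M D e (i + 1) - fdev E M D e i
          - (-(dref D M i * fnbr E M D e i) + selfTerm E M D e i) / M)
          + (-(dref D M i * fnbr E M D e i) + selfTerm E M D e i) / M| := by congr 1; ring
    _ ≤ _ := (abs_add_le _ _).trans (by linarith)

lemma abs_rho_diff (h : Mild V E M D Δ i) {R : Finset α} (hR : R ∈ E) {e : α} (he : e ∈ R) :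
    |rho E M R e (i + 1) - rho E M R e i| ≤ 14 * Δ / M := by
  have hM := h.M_pos
  have h1 := h.rho_succ hR he
  have h2 : rho E M R e i * (60 * (Δ / M) ^ 2) ≤ 2 * (Δ / M) := by
    have hy0 : 0 ≤ Δ / (M : ℝ) := div_nonneg (by linarith [h.one_le]) hM.le
    have hy : Δ / (M : ℝ) ≤ 1 / 100 := by
      rw [div_le_iff₀ hM]; nlinarith [h.big, h.one_le]
    calc _ ≤ 2 * (60 * (Δ / M) ^ 2) :=
          mul_le_mul_of_nonneg_right (h.rho_le_two hR he) (by positivity)
      _ ≤ _ := by nlinarith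
  have h3 : |rho E M R e i * (rateOf E M R e i / M)| ≤ 12 * Δ / M := by
    rw [abs_mul, abs_div, abs_of_pos hM]
    calc _ ≤ 2 * (6 * Δ / M) := mul_le_mul (h.abs_rho hR he)
          (div_le_div_of_nonneg_right (h.abs_rate_le hR he) hM.le) (by positivity) (by norm_num)
      _ = _ := by ring
  calc |rho E M R e (i + 1) - rho E M R e i|
      = |(rho E M R e (i + 1) - rho E M R e i * (1 - rateOf E M R e i / M))
          - rho E M R e i * (rateOf E M R e i / M)| := by congr 1; ring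
    _ ≤ 2 * (Δ / M) + 12 * Δ / M := (abs_sub _ _).trans (add_le_add (h1.trans h2) h3)
    _ = _ := by ring

/-- Expansion of the second order deviation. -/
lemma fnbr_succ (h : Mild V E M D Δ i) (e : α) :
    |fnbr E M D e (i + 1) - fnbr E M D e i - fnbrDrift E M D e i / M|
      ≤ 40000 * Δ ^ 4 / M ^ 2 := by
  have hM := h.M_pos
  have hD := dref_pos (M := M) h.D_pos i
  have h1 := h.one_le
  set a : Finset α → ℝ := fun R => rho E M R e i with ha
  set p : Finset α → ℝ := fun R => partner E M D R e i with hp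
  set z : Finset α → ℝ := fun R => rateOf E M R e i with hz
  set q : Finset α → ℝ := fun R =>
    ∑ f ∈ R.erase e, (-(dref D M i * fnbr E M D f i) + selfTerm E M D f i) with hq
  have edrift : fnbrDrift E M D e i = 2 * (∑ R ∈ star E e, a R * p R)
      + ((∑ R ∈ star E e, a R * (-z R) * p R) + ∑ R ∈ star E e, a R * q R) / dref D M i := by
    rw [← sum_add_distrib, fnbrDrift, mul_sum, sum_div, sum_div, sum_div, ← sum_neg_distrib,
      ← sum_add_distrib, ← sum_sub_distrib, ← sum_add_distrib, ← sum_add_distrib]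
    refine sum_congr rfl fun R hR => ?_
    obtain ⟨h1, h2⟩ := mem_filter.1 hR
    have e1 : ∑ f ∈ R.erase e, wdeg E M f i = dref D M i * (2 + p R) := by
      simp only [hp, partner, fdev]
      rw [sum_sub_distrib, ← sum_div, sum_const, h.card_erase_two h1 h2, nsmul_eq_mul]
      field_simp
      ring
    simp only [hq, hz, rateOf, e1, ha, hp, sum_add_distrib, sum_neg_distrib, ← mul_sum]
    field_simp
    ring
  set a' : Finset α → ℝ := fun R => rho E M R e (i + 1) with ha'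
  set p' : Finset α → ℝ := fun R => partner E M D R e (i + 1) with hp'
  set S := ∑ R ∈ star E e, (a' R * p' R - a R * p R) with hS
  set K := ∑ R ∈ star E e,
    (a' R * p' R - a R * p R - (a R * (-z R) * p R + a R * q R) / M) with hK
  have e2 : fnbr E M D e (i + 1) - fnbr E M D e i - fnbrDrift E M D e i / M
      = K / dref D M i + 2 * S / M := by
    rw [edrift, fnbr, fnbr, div_eq_mul_one_div _ (dref D M (i + 1)), dref_succ h.D_pos, hK, hS,
      sum_sub_distrib, sum_sub_distrib, ← sum_div, sum_add_distrib]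
    field_simp
    ring
  have hp1 : ∀ R ∈ E, e ∈ R → |p R| ≤ 18 * Δ := fun R hR he => h.abs_partner_le hR he
  have hda : ∀ R ∈ E, e ∈ R → |a' R - a R| ≤ 14 * Δ / M := fun R hR he => h.abs_rho_diff hR he
  have hdp : ∀ R ∈ E, e ∈ R → |p' R - p R| ≤ 200 * Δ ^ 2 / M := by
    intro R hR he
    simp only [hp, hp', partner]
    rw [← sum_sub_distrib]
    exact (h.sum_erase_abs hR he _ fun f _ => h.abs_fdev_diff f).trans (le_of_eq (by ring))
  have hS' : |S| ≤ 700 * Δ ^ 3 / M := by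
    refine (h.sum_star_abs e _ (C := 700 * Δ ^ 2 / M) (by positivity) fun R hR he => ?_).trans
      (le_of_eq (by ring))
    have e3 : a' R * p' R - a R * p R
        = (a' R - a R) * p R + a R * (p' R - p R) + (a' R - a R) * (p' R - p R) := by ring
    rw [e3]
    refine (abs_add_three _ _ _).trans ?_
    rw [abs_mul, abs_mul, abs_mul]
    have t1 := mul_le_mul (hda R hR he) (hp1 R hR he) (abs_nonneg _) (by positivity)
    have t2 := mul_le_mul (h.abs_rho hR he) (hdp R hR he) (abs_nonneg _) (by norm_num)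
    have t3 := mul_le_mul (hda R hR he) (hdp R hR he) (abs_nonneg _) (by positivity)
    have t4 : 14 * Δ / (M:ℝ) * (200 * Δ ^ 2 / M) ≤ 28 * Δ ^ 2 / M := by
      have : Δ / (M:ℝ) ≤ 1 / 100 := by rw [div_le_iff₀ hM]; nlinarith [h.big]
      calc 14 * Δ / (M:ℝ) * (200 * Δ ^ 2 / M) = 2800 * (Δ / M) * (Δ ^ 2 / M) := by ring
        _ ≤ 2800 * (1 / 100) * (Δ ^ 2 / M) := by gcongr
        _ = _ := by ring
    have t5 : 14 * Δ / (M:ℝ) * (18 * Δ) + 2 * (200 * Δ ^ 2 / M) + 28 * Δ ^ 2 / M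
        ≤ 700 * Δ ^ 2 / M := by
      have h0 : 0 ≤ Δ ^ 2 / (M:ℝ) := by positivity
      ring_nf at h0 ⊢; linarith
    linarith
  have hK' : |K| ≤ Δ * (9000 * Δ ^ 3 / M ^ 2) := by
    refine h.sum_star_abs e _ (by positivity) fun R hR he => ?_
    set ea := a' R - a R * (1 - z R / M) with hea
    set ep := p' R - p R - q R / M with hep
    have e3 : a' R * p' R - a R * p R - (a R * (-z R) * p R + a R * q R) / M
        = ea * p R + a R * ep + (a' R - a R) * (p' R - p R) := by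
      rw [hea, hep]; ring
    have t1 : |ea| ≤ 120 * Δ ^ 2 / M ^ 2 := by
      refine (h.rho_succ hR he).trans ?_
      calc rho E M R e i * (60 * (Δ / M) ^ 2) ≤ 2 * (60 * (Δ / M) ^ 2) :=
            mul_le_mul_of_nonneg_right (h.rho_le_two hR he) (by positivity)
        _ = _ := by ring
    have t2 : |ep| ≤ 1400 * Δ ^ 3 / M ^ 2 := by
      simp only [hep, hp, hp', hq, partner]
      rw [sum_div, ← sum_sub_distrib, ← sum_sub_distrib]
      exact (h.sum_erase_abs hR he _ fun f _ => h.fdev_succ f).trans (le_of_eq (by ring))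
    rw [e3]
    refine (abs_add_three _ _ _).trans ?_
    rw [abs_mul, abs_mul, abs_mul]
    have s1 := mul_le_mul t1 (hp1 R hR he) (abs_nonneg _) (by positivity)
    have s2 := mul_le_mul (h.abs_rho hR he) t2 (abs_nonneg _) (by norm_num)
    have s3 := mul_le_mul (hda R hR he) (hdp R hR he) (abs_nonneg _) (by positivity)
    have s5 : 120 * Δ ^ 2 / (M:ℝ) ^ 2 * (18 * Δ) + 2 * (1400 * Δ ^ 3 / M ^ 2)
        + 14 * Δ / M * (200 * Δ ^ 2 / M) ≤ 9000 * Δ ^ 3 / M ^ 2 := by
      have h0 : 0 ≤ Δ ^ 3 / (M:ℝ) ^ 2 := by positivity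
      ring_nf at h0 ⊢; linarith
    linarith
  rw [e2]
  refine (abs_add_le _ _).trans ?_
  rw [abs_div, abs_div, abs_mul, abs_two, abs_of_pos hD, abs_of_pos hM]
  have u1 : |K| / dref D M i ≤ Δ * (9000 * Δ ^ 3 / M ^ 2) * 4 := by
    rw [div_eq_mul_one_div]
    exact mul_le_mul hK' h.inv_dref_le (by positivity) (by positivity)
  have u2 : 2 * |S| / (M:ℝ) ≤ 1400 * Δ ^ 4 / M ^ 2 := by
    have h34 : Δ ^ 3 ≤ Δ ^ 4 := pow_le_pow_right₀ h1 (by norm_num)
    calc 2 * |S| / (M:ℝ) ≤ 2 * (700 * Δ ^ 3 / M) / M := by gcongr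
      _ = 1400 * Δ ^ 3 / M ^ 2 := by ring
      _ ≤ _ := by gcongr
  have u3 : Δ * (9000 * Δ ^ 3 / (M:ℝ) ^ 2) * 4 + 1400 * Δ ^ 4 / M ^ 2
      ≤ 40000 * Δ ^ 4 / M ^ 2 := by
    have h0 : 0 ≤ Δ ^ 4 / (M:ℝ) ^ 2 := by positivity
    ring_nf at h0 ⊢; linarith
  linarith

end Mild

end

end Vale.Agent.P046.Full
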