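import Vale.Agent.P046.Full.Flow.Mass

/-!
Interface between the flow analysis and the decay of the truncation gap.
-/

namespace Vale.Agent.P046.Full

open Finset

noncomputable section

variable {α : Type*} [DecidableEq α]

/-- The threshold above which a point counts as bad. -/
def badThr (D : ℝ) : ℝ := 1 / (10 * zmax D)

open Classical in
/-- The points whose deviation ever exceeds the threshold after the window. -/
def badSet (V : Finset α) (E : Finset (Finset α)) (M : ℕ) (D D3 : ℝ) : Finset α :=
  V.filter fun e => ∃ i, cutAt D M D3 ≤ i ∧ i < M ∧ badThr D < |fdev E M D e i|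

/-- The bound for the mass of the bad points at the end of the window. -/
def badSize (D lam D3 D1 : ℝ) : ℝ := 10 ^ 10 * D3 * zmax D ^ 4 * gmax D lam ^ 2 / D1

/-- The mass of the bad points is small. -/
def GoalBad : Prop :=
  ∀ (α : Type) [DecidableEq α] (V : Finset α) (E : Finset (Finset α)) (D lam D3 D1 : ℝ) (M : ℕ),
    Params V E D lam D3 D1 M → 10000 * D3 ≤ D1 →
    ∑ e ∈ badSet V E M D D3, surv E M e (cutAt D M D3) ≤ badSize D lam D3 D1 * scale V D

/-- The gap at logarithmic depth, in terms of the parameters. -/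
def GoalGapCore : Prop :=
  ∀ (α : Type) [DecidableEq α] (V : Finset α) (E : Finset (Finset α)) (D lam D3 D1 : ℝ) (M : ℕ),
    Params V E D lam D3 D1 M → 10000 * D3 ≤ D1 → ∀ j : ℕ, 100 * zmax D ≤ j →
    (∀ e ∈ V, bp E M false (2 * j) ∅ e M ≤ bp E M true M ∅ e M ∧
      bp E M true M ∅ e M ≤ bp E M true (2 * j) ∅ e M) ∧
    (∑ e ∈ V, (bp E M true (2 * j) ∅ e M - bp E M false (2 * j) ∅ e M))
      ≤ (10 ^ 8 * D3 ^ 6 * badSize D lam D3 D1 + 100 / D) * scale V D

/-- Away from the bad points the deviation is small at all times. -/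
lemma abs_fdev_le_badThr {V : Finset α} {E : Finset (Finset α)} {D lam D3 D1 : ℝ} {M i : ℕ}
    (p : Params V E D lam D3 D1 M) {e : α} (he : e ∈ V)
    (hg : i ≤ cutAt D M D3 ∨ e ∉ badSet V E M D D3) (hi : i < M) :
    |fdev E M D e i| ≤ badThr D := by
  classical
  have hwin : i ≤ cutAt D M D3 → |fdev E M D e i| ≤ badThr D := fun h => by
    have hs := p.set_
    have hd := (hs.cut_spec le_rfl hs.D3_le_D).2.2.2.2 i h
    refine (hs.dev_le hi.le hd he).trans ((hs.window_dev_sup hd).trans ?_)
    rw [badThr, le_div_iff₀ (by linarith [hs.two_le_zm])]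
    linarith [p.theta_ok]
  rcases hg with h | h
  · exact hwin h
  · rcases le_or_gt i (cutAt D M D3) with h' | h'
    · exact hwin h'
    · refine le_of_not_gt fun hb => h (mem_filter.2 ⟨he, i, h'.le, hi, hb⟩)

end

end Vale.Agent.P046.Full
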