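import Vale.Agent.P046.Full.Flow.Facts

/-!
Choice of the parameters, `GoalFlow`, and the reduction of `GoalGap` to its core.
-/

namespace Vale.Agent.P046.Full

open Finset

noncomputable section

/-- The basic small power of the degree. -/
def basePow (D : ℝ) : ℝ := D ^ ((1200 : ℝ)⁻¹)

lemma basePow_pow {D : ℝ} (hD : 0 ≤ D) : basePow D ^ 1200 = D := by
  have h := Real.rpow_inv_natCast_pow hD (show (1200 : ℕ) ≠ 0 by norm_num)
  unfold basePow
  exact_mod_cast h

lemma le_basePow {T D : ℝ} (hT : 0 ≤ T) (h : T ^ 1200 ≤ D) : T ≤ basePow D := by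
  refine le_of_pow_le_pow_left₀ (show (1200 : ℕ) ≠ 0 by norm_num) ?_
    (h.trans (le_of_eq (basePow_pow (le_trans (pow_nonneg hT _) h)).symm))
  exact Real.rpow_nonneg (le_trans (pow_nonneg hT _) h) _

lemma lam_le_basePow {D lam : ℝ} (h1 : 1 ≤ lam) (h : lam ^ 400 ≤ D) : lam ≤ basePow D ^ 3 := by
  have hD : 0 ≤ D := le_trans (by positivity) h
  refine le_of_pow_le_pow_left₀ (show (400 : ℕ) ≠ 0 by norm_num)
    (pow_nonneg (Real.rpow_nonneg hD _) 3) ?_
  rw [← pow_mul]
  exact h.trans (le_of_eq (basePow_pow hD).symm)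

lemma zmax_le_basePow {D : ℝ} (hy : 1 ≤ basePow D) (hD : 0 ≤ D) :
    zmax D ≤ 1202 * basePow D := by
  unfold zmax
  rw [← basePow_pow hD, Real.log_pow, basePow_pow hD]
  have := Real.log_le_sub_one_of_pos (lt_of_lt_of_le one_pos hy)
  push_cast
  linarith

variable {α : Type*} [DecidableEq α] {V : Finset α} {E : Finset (Finset α)} {D lam : ℝ}

/-- The bounds that the choice of the parameters gives. -/
lemma param_bounds (hreg : NearReg V E D lam) (hy : 10 ^ 12 ≤ basePow D) :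
    0 ≤ D ∧ 0 ≤ zmax D ∧ zmax D ≤ 1202 * basePow D ∧ lam ^ 2 ≤ basePow D ^ 6 ∧
      0 ≤ gmax D lam ∧ gmax D lam ≤ 168280 * basePow D ^ 7 := by
  have hD : 0 ≤ D := le_trans (pow_nonneg (by linarith [hreg.one_le_lam]) 400) hreg.lam_small
  have h1 : 1 ≤ basePow D := by linarith
  have hz := zmax_le_basePow h1 hD
  have hD1 : 1 ≤ D := by
    rw [← basePow_pow hD]; exact one_le_pow₀ h1
  have hz0 : 0 ≤ zmax D := by linarith [two_le_zmax hD1]
  have hl : lam ^ 2 ≤ basePow D ^ 6 := by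
    calc lam ^ 2 ≤ (basePow D ^ 3) ^ 2 :=
          pow_le_pow_left₀ (by linarith [hreg.one_le_lam])
            (lam_le_basePow hreg.one_le_lam hreg.lam_small) 2
      _ = basePow D ^ 6 := by rw [← pow_mul]
  refine ⟨hD, hz0, hz, hl, by unfold gmax; positivity, ?_⟩
  calc gmax D lam ≤ 140 * basePow D ^ 6 * (1202 * basePow D) := by
        unfold gmax; gcongr
    _ = _ := by ring

/-- The parameters. -/
lemma exists_params (hreg : NearReg V E D lam) (hy : 10 ^ 12 ≤ basePow D) {M : ℕ}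
    (hM : 10 ^ 8 * D ^ 9 ≤ M) :
    Params V E D lam (basePow D ^ 30) (basePow D ^ 400) M ∧
      10000 * basePow D ^ 30 ≤ basePow D ^ 400 := by
  obtain ⟨hD, hz0, hz, -, hg0, hg⟩ := param_bounds hreg hy
  have h1 : 1 ≤ basePow D := by linarith
  set y := basePow D with hydef
  refine ⟨⟨⟨hreg, ?_, ?_, ?_, hM⟩, pow_le_pow_right₀ h1 (by norm_num), ?_⟩, ?_⟩
  · exact le_trans (by linarith) (le_self_pow₀ h1 (show 30 ≠ 0 by norm_num))
  · rw [← pow_mul]
    exact (pow_le_pow_right₀ h1 (by norm_num)).trans (le_of_eq (basePow_pow hD))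
  · calc 1000 * (gmax D lam ^ 2 * zmax D)
        ≤ 1000 * ((168280 * y ^ 7) ^ 2 * (1202 * y)) := by gcongr
      _ ≤ (10 ^ 12) ^ 2 * y ^ 15 := by
          have : (1000 : ℝ) * (168280 ^ 2 * 1202) ≤ (10 ^ 12) ^ 2 := by norm_num
          have h := mul_le_mul_of_nonneg_right this (by positivity : (0:ℝ) ≤ y ^ 15)
          ring_nf at h ⊢
          linarith
      _ ≤ y ^ 2 * y ^ 15 := by gcongr
      _ = y ^ 17 := by ring
      _ ≤ y ^ 30 := pow_le_pow_right₀ h1 (by norm_num)
  · rw [← pow_mul]; exact le_of_eq (basePow_pow hD)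
  · calc 10000 * y ^ 30 ≤ y * y ^ 30 := by gcongr; linarith
      _ = y ^ 31 := by ring
      _ ≤ y ^ 400 := pow_le_pow_right₀ h1 (by norm_num)

lemma scale_eq (V : Finset α) (D : ℝ) : scale V D = (V.card : ℝ) / √D := rfl

/-- The tree recursion predicts `|V| / √(2 D)` uncovered points. -/
theorem goalFlow : GoalFlow := by
  intro ε hε
  set ε' := min ε 1 with hε'
  have hε0 : 0 < ε' := lt_min hε one_pos
  set T : ℝ := 10 ^ 20 / ε' ^ 2 + 10 ^ 12 with hT
  have hT0 : 0 ≤ T := by positivity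
  refine ⟨T ^ 1200, fun α _ V E D lam hD hreg => ?_⟩
  have hy : T ≤ basePow D := le_basePow hT0 hD
  clear hD
  have hy12 : 10 ^ 12 ≤ basePow D :=
    le_trans (le_add_of_nonneg_left (by positivity)) hy
  refine ⟨⌈10 ^ 8 * D ^ 9⌉₊, fun M hM => ?_⟩
  obtain ⟨p, -⟩ := exists_params (V := V) (E := E) hreg hy12
    (M := M) ((Nat.le_ceil _).trans (by exact_mod_cast hM))
  obtain ⟨hD0, hz0, hz, -, hg0, hg⟩ := param_bounds hreg hy12
  have hs := p.set_
  have h2z := hs.two_le_zm
  set y := basePow D with hydef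
  have h1 : 1 ≤ y := by linarith
  have hye : 10 ^ 20 ≤ ε' ^ 2 * y := by
    have h3 : 10 ^ 20 / ε' ^ 2 ≤ y := le_trans (le_add_of_nonneg_right (by norm_num)) hy
    rw [div_le_iff₀ (by positivity)] at h3
    linarith
  have hε1 : ε' ≤ 1 := min_le_right _ _
  have hε2 : ε' ^ 2 ≤ ε' := by rw [sq]; exact mul_le_of_le_one_left hε0.le hε1
  set θ := ε' / (32 * zmax D) with hθdef
  have hθ0 : 0 < θ := by have := hs.two_le_zm; positivity
  have hθ : 3 * gmax D lam / (2 * y ^ 30) ≤ θ := by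
    rw [hθdef, div_le_div_iff₀ (by positivity) (by linarith)]
    calc 3 * gmax D lam * (32 * zmax D) ≤ 3 * (168280 * y ^ 7) * (32 * (1202 * y)) := by gcongr
      _ ≤ 10 ^ 20 * y ^ 8 := by
          have h := mul_le_mul_of_nonneg_right
            (show (3:ℝ) * 168280 * (32 * 1202) ≤ 10 ^ 20 by norm_num)
            (by positivity : (0:ℝ) ≤ y ^ 8)
          ring_nf at h ⊢
          linarith
      _ ≤ ε' * y * y ^ 8 := by
          refine mul_le_mul_of_nonneg_right (hye.trans ?_) (by positivity)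
          exact mul_le_mul_of_nonneg_right hε2 (by linarith)
      _ = ε' * y ^ 9 := by ring
      _ ≤ ε' * (2 * y ^ 30) := by
          refine mul_le_mul_of_nonneg_left ?_ hε0.le
          linarith [pow_le_pow_right₀ h1 (show 9 ≤ 30 by norm_num), pow_nonneg (show 0 ≤ y by linarith) 30]
  have hθZ : θ * zmax D = ε' / 32 := by rw [hθdef]; field_simp
  have hθ1 : θ ≤ 1 := by
    rw [hθdef, div_le_one (by linarith)]; linarith
  have hM0 := hs.M_pos
  have hDp := hs.D_pos
  have hmc := p.mass_conserved hθ1 hθ (by rw [hθZ]; linarith) M le_rfl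
  have hA := p.scale_nonneg
  have hL : 300 * lyapSize D lam (y ^ 400) / θ ≤ ε' / 4 := by
    rw [hθdef, lyapSize, div_div_eq_mul_div, mul_div_assoc', div_mul_eq_mul_div, div_div,
      div_le_iff₀ (by positivity)]
    calc 300 * (40 * gmax D lam ^ 2) * (32 * zmax D)
        ≤ 300 * (40 * (168280 * y ^ 7) ^ 2) * (32 * (1202 * y)) := by gcongr
      _ ≤ (10 ^ 20) ^ 2 / 4 * y ^ 15 := by
          have h := mul_le_mul_of_nonneg_right
            (show (300:ℝ) * (40 * 168280 ^ 2) * (32 * 1202) ≤ (10 ^ 20) ^ 2 / 4 by norm_num)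
            (by positivity : (0:ℝ) ≤ y ^ 15)
          ring_nf at h ⊢
          linarith
      _ ≤ (ε' ^ 2 * y) ^ 2 / 4 * y ^ 15 := by gcongr
      _ = ε' ^ 4 / 4 * y ^ 17 := by ring
      _ ≤ ε' ^ 2 / 4 * y ^ 400 := by
          refine mul_le_mul ?_ (pow_le_pow_right₀ h1 (by norm_num)) (by positivity) (by positivity)
          have := pow_le_pow_of_le_one hε0.le hε1 (show 2 ≤ 4 by norm_num)
          linarith
      _ = _ := by ring
  have hbp : ∑ e ∈ V, bp E M true M ∅ e M = fmass V E M M := rfl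
  have hdM := dref_last (D := D) (M := M) hDp hM0
  set d := dref D M M with hdd
  have hd0 : 0 < d := dref_pos hDp M
  have hdhalf : |√d - 1 / √2| ≤ 1 / D := by
    have e1 : 1 / √2 = √(1 / 2) := by rw [Real.sqrt_div' _ two_pos.le, Real.sqrt_one]
    have h2 : d ≤ 1 / 2 := (dref_last_lt (M := M) hDp hM0).le
    have h3 : 1 / 2 - d ≤ 1 / (4 * D) := by
      rw [hdM, div_sub_div _ _ two_ne_zero (by linarith), div_le_div_iff₀ (by linarith) (by linarith)]
      linarith
    have h4 : √d ≤ √(1 / 2) := Real.sqrt_le_sqrt h2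
    have h5 : 1 / 2 ≤ √(1 / 2 : ℝ) := by
      rw [← Real.sqrt_sq (by norm_num : (0:ℝ) ≤ 1 / 2)]
      exact Real.sqrt_le_sqrt (by norm_num)
    rw [e1, abs_sub_comm, abs_of_nonneg (by linarith)]
    have h6 := mul_le_mul_of_nonneg_left h5 (sub_nonneg.2 h4)
    have h7 : (√(1 / 2) - √d) * √(1 / 2) ≤ 1 / 2 - d := by
      have a := Real.mul_self_sqrt (show (0:ℝ) ≤ 1 / 2 by norm_num)
      have b := Real.mul_self_sqrt hd0.le
      have c := mul_le_mul_of_nonneg_left h4 (Real.sqrt_nonneg d)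
      linarith
    have h8 : 1 / (4 * D) = 1 / D / 4 := by ring
    have : 0 ≤ 1 / D := by positivity
    linarith
  have hdle : √d ≤ 1 := Real.sqrt_le_one.2 (by linarith [dref_last_lt (M := M) hDp hM0])
  have hD' : 1 / D ≤ ε' / 4 := by
    rw [div_le_div_iff₀ hDp (by norm_num), one_mul]
    have h3 : 4 ≤ ε' * y := by
      have := mul_le_mul_of_nonneg_right hε2 (by linarith : (0:ℝ) ≤ y)
      linarith
    refine h3.trans (mul_le_mul_of_nonneg_left ?_ hε0.le)
    rw [← basePow_pow hD0]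
    exact le_self_pow₀ h1 (by norm_num)
  rw [hbp]
  have e2 : (V.card : ℝ) / √(2 * D) = scale V D * (1 / √2) := by
    rw [scale_eq, Real.sqrt_mul two_pos.le]; ring
  set A := fmass V E M M / √d with hA'
  have e3 : fmass V E M M = A * √d := by
    rw [hA', div_mul_cancel₀ _ (Real.sqrt_pos.2 hd0).ne']
  rw [e2, e3, ← scale_eq]
  have e4 : A * √d - scale V D * (1 / √2) = (A - scale V D) * √d + scale V D * (√d - 1 / √2) := by
    ring
  rw [e4]
  refine (abs_add_le _ _).trans ?_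
  rw [abs_mul, abs_mul, abs_of_nonneg hA, abs_of_nonneg (Real.sqrt_nonneg d)]
  have b1 := mul_le_mul hmc hdle (Real.sqrt_nonneg d) (le_trans (abs_nonneg _) hmc)
  have b2 := mul_le_mul_of_nonneg_left (hdhalf.trans hD') hA
  have b3 : 8 * θ * zmax D + 300 * lyapSize D lam (y ^ 400) / θ ≤ ε' / 2 := by
    rw [mul_assoc, hθZ]; linarith
  have b4 := mul_le_mul_of_nonneg_right b3 hA
  have b5 := mul_le_mul_of_nonneg_right (min_le_left ε 1) hA
  have b6 : 0 ≤ ε' * scale V D := mul_nonneg hε0.le hA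
  linarith

/-- The gap closes at logarithmic depth. -/
theorem goalGap_of_core (core : GoalGapCore) : GoalGap := by
  intro ε hε
  set ε' := min ε 1 with hε'
  have hε0 : 0 < ε' := lt_min hε one_pos
  set T : ℝ := 10 ^ 50 / ε' + 10 ^ 12 with hT
  have hT0 : 0 ≤ T := by positivity
  refine ⟨200, T ^ 1200, by norm_num, fun α _ V E D lam hD hreg j hj => ?_⟩
  have hy : T ≤ basePow D := le_basePow hT0 hD
  clear hD
  have hy12 : 10 ^ 12 ≤ basePow D :=
    le_trans (le_add_of_nonneg_left (by positivity)) hy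
  refine ⟨⌈10 ^ 8 * D ^ 9⌉₊, fun M hM => ?_⟩
  obtain ⟨p, hsep⟩ := exists_params (V := V) (E := E) hreg hy12
    (M := M) ((Nat.le_ceil _).trans (by exact_mod_cast hM))
  obtain ⟨hD0, hz0, hz, -, hg0, hg⟩ := param_bounds hreg hy12
  have hs := p.set_
  set y := basePow D with hydef
  have h1 : 1 ≤ y := by linarith
  have hye : 10 ^ 50 ≤ ε' * y := by
    have h3 : 10 ^ 50 / ε' ≤ y := le_trans (le_add_of_nonneg_right (by norm_num)) hy
    rw [div_le_iff₀ hε0] at h3
    linarith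
  have hlog : 2 ≤ Real.log D := by
    have h2 : Real.log y ≥ Real.log (10 ^ 12) := Real.log_le_log (by norm_num) hy12
    have h3 : Real.log (2 : ℝ) ≤ Real.log (10 ^ 12) := Real.log_le_log (by norm_num) (by norm_num)
    have h4 : Real.log D = (1200 : ℕ) * Real.log y := by rw [← Real.log_pow, basePow_pow hD0]
    rw [h4]
    push_cast
    linarith [Real.log_two_gt_d9]
  have hjz : 100 * zmax D ≤ j := by unfold zmax; linarith
  obtain ⟨hsand, hsum⟩ := core α V E D lam (y ^ 30) (y ^ 400) M p hsep j hjz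
  have hA := p.scale_nonneg
  have hsmall : 10 ^ 8 * (y ^ 30) ^ 6 * badSize D lam (y ^ 30) (y ^ 400) + 100 / D ≤ ε := by
    have h2 : 10 ^ 8 * (y ^ 30) ^ 6 * badSize D lam (y ^ 30) (y ^ 400)
        ≤ 10 ^ 8 * (y ^ 30) ^ 6
          * (10 ^ 10 * y ^ 30 * (1202 * y) ^ 4 * (168280 * y ^ 7) ^ 2 / y ^ 400) := by
      unfold badSize; gcongr
    have h3 : 10 ^ 8 * (y ^ 30) ^ 6
          * (10 ^ 10 * y ^ 30 * (1202 * y) ^ 4 * (168280 * y ^ 7) ^ 2 / y ^ 400)
        = (10 ^ 8 * 10 ^ 10 * 1202 ^ 4 * 168280 ^ 2) * (y ^ 228 / y ^ 400) := by ring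
    have h4 : y ^ 228 / y ^ 400 ≤ 1 / y := by
      rw [div_le_div_iff₀ (by positivity) (by linarith), one_mul, ← pow_succ]
      exact pow_le_pow_right₀ h1 (by norm_num)
    have h5 : 10 ^ 50 / y ≤ ε' := by rw [div_le_iff₀ (by linarith)]; exact hye
    have h6 : 100 / D ≤ 100 / y := by
      refine div_le_div_of_nonneg_left (by norm_num) (by linarith) ?_
      rw [← basePow_pow hD0]
      exact le_self_pow₀ h1 (by norm_num)
    have h7 := mul_le_mul
      (show (10 ^ 8 * 10 ^ 10 * 1202 ^ 4 * 168280 ^ 2 : ℝ) ≤ 10 ^ 50 / 2 by norm_num) h4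
      (by positivity) (by norm_num)
    have h8 : (100:ℝ) / y ≤ 10 ^ 50 / 2 / y :=
      div_le_div_of_nonneg_right (by norm_num) (by linarith)
    have h9 : (10 ^ 50 / 2 : ℝ) * (1 / y) + 10 ^ 50 / 2 / y = 10 ^ 50 / y := by ring
    linarith [min_le_left ε 1]
  have hfin := hsum.trans (mul_le_mul_of_nonneg_right hsmall hA)
  constructor
  · rw [sum_congr rfl fun e he => abs_of_nonneg (by linarith [(hsand e he).1, (hsand e he).2])]
    exact hfin
  · rw [← sum_sub_distrib]
    refine (abs_sum_le_sum_abs _ _).trans (le_trans (sum_le_sum fun e he => ?_) hfin)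
    rw [abs_of_nonneg (by linarith [(hsand e he).2])]
    linarith [(hsand e he).1]

end

end Vale.Agent.P046.Full
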