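import Vale.Agent.P046.Full.Flow.Final
import Vale.Agent.P046.Full.Gap.Propagate

/-!
The truncation gap at logarithmic depth.

Inside the window the widths decay like `(9 z)^k / k!`, which caps them afterwards. The averaged
widths then obey a linear Volterra inequality whose only source is the weighted profile, which the Lyapunov functional controls.
-/

namespace Vale.Agent.P046.Full

open Finset

noncomputable section

/-! ### Scalar facts -/

lemma succ_pow_ge {a b : ℝ} (ha : 0 ≤ a) (hb : 0 ≤ b) (n : ℕ) :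
    a ^ (n + 1) + (n + 1) * a ^ n * b ≤ (a + b) ^ (n + 1) := by
  induction n with
  | zero => simp
  | succ n ih =>
    calc a ^ (n + 1 + 1) + ((↑(n + 1) : ℝ) + 1) * a ^ (n + 1) * b
        ≤ (a ^ (n + 1) + (n + 1) * a ^ n * b) * (a + b) := by
          have : 0 ≤ ((n : ℝ) + 1) * a ^ n * b * b := by positivity
          push_cast
          linear_combination this
      _ ≤ (a + b) ^ (n + 1) * (a + b) := mul_le_mul_of_nonneg_right ih (by linarith)
      _ = _ := (pow_succ _ _).symm

lemma pow_fact_decay {x : ℝ} {m : ℕ} (hx : 0 ≤ x) (hm : 6 * x ≤ m) :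
    x ^ m / m.factorial ≤ (1 / 2) ^ m := by
  rcases Nat.eq_zero_or_pos m with rfl | hm0
  · simp
  have hm' : (0 : ℝ) < m := by exact_mod_cast hm0
  have h1 : (m : ℝ) ^ m / m.factorial ≤ (Real.exp 1) ^ m := by
    rw [← Real.exp_nat_mul, mul_one]
    exact Real.pow_div_factorial_le_exp _ hm'.le m
  calc x ^ m / m.factorial = (x / m) ^ m * ((m : ℝ) ^ m / m.factorial) := by
        rw [div_pow, ← mul_div_assoc, div_mul_cancel₀ _ (pow_ne_zero _ hm'.ne')]
    _ ≤ (1 / 6) ^ m * (Real.exp 1) ^ m := by
        refine mul_le_mul (pow_le_pow_left₀ (by positivity) ?_ m) h1 (by positivity) (by positivity)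
        rw [div_le_iff₀ hm']; linarith
    _ ≤ (1 / 2) ^ m := by
        rw [← mul_pow]
        refine pow_le_pow_left₀ (by positivity) ?_ m
        linarith [Real.exp_one_lt_three]

lemma half_pow_le {D : ℝ} (hD : 1 ≤ D) {n m : ℕ} (hm : 2 * (n : ℝ) * zmax D ≤ m) :
    (1 / 2 : ℝ) ^ m ≤ 1 / D ^ n := by
  have hD0 : 0 < D := by linarith
  have hlog : Real.log D ≤ zmax D := by unfold zmax; linarith
  rw [← Real.log_le_log_iff (by positivity) (by positivity), Real.log_pow, one_div, one_div,
    Real.log_inv, Real.log_inv, Real.log_pow, mul_neg, neg_le_neg_iff]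
  have h1 : (m : ℝ) * (1 / 2) ≤ m * Real.log 2 :=
    mul_le_mul_of_nonneg_left (by linarith [Real.log_two_gt_d9]) (Nat.cast_nonneg' _)
  have h2 : (n : ℝ) * Real.log D ≤ n * zmax D := mul_le_mul_of_nonneg_left hlog (Nat.cast_nonneg' _)
  linarith

lemma volterra_pow {D c : ℝ} (hD : 0 < D) (hc : 0 ≤ c) (M k : ℕ) : ∀ i : ℕ,
    ∑ l ∈ range i, c * (dref D M l / M) * ((c * zsum D M l) ^ k / k.factorial)
      ≤ (c * zsum D M i) ^ (k + 1) / (k + 1).factorial := by
  intro i
  induction i with
  | zero => simp [zsum_zero]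
  | succ i ih =>
    rw [sum_range_succ]
    have hz : 0 ≤ dref D M i / M := div_nonneg (dref_pos hD i).le (Nat.cast_nonneg' _)
    have h := succ_pow_ge (mul_nonneg hc (zsum_nonneg (M := M) hD i)) (mul_nonneg hc hz) k
    rw [← mul_add, ← zsum_succ] at h
    have hk : (0 : ℝ) < k.factorial := by exact_mod_cast k.factorial_pos
    calc _ ≤ (c * zsum D M i) ^ (k + 1) / (k + 1).factorial
          + c * (dref D M i / M) * ((c * zsum D M i) ^ k / k.factorial) := add_le_add ih le_rfl
      _ = ((c * zsum D M i) ^ (k + 1) + (k + 1) * (c * zsum D M i) ^ k * (c * (dref D M i / M)))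
          / (k + 1).factorial := by
        rw [Nat.factorial_succ]; push_cast; field_simp
      _ ≤ _ := div_le_div_of_nonneg_right h (by positivity)

/-- The amplification of a source switched on after step `a`. -/
def amp (D : ℝ) (M a i : ℕ) : ℝ :=
  if a < i then Real.exp (3 * (zsum D M i - zsum D M a)) else 0

lemma volterra_amp {D : ℝ} (hD : 0 < D) (M a : ℕ) : ∀ i : ℕ,
    ∑ l ∈ range i, 3 * (dref D M l / M) * amp D M a l
      ≤ if a < i then Real.exp (3 * (zsum D M i - zsum D M a)) - 1 else 0 := by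
  intro i
  induction i with
  | zero => simp
  | succ i ih =>
    rw [sum_range_succ]
    have hz : 0 ≤ dref D M i / M := div_nonneg (dref_pos hD i).le (Nat.cast_nonneg' _)
    have hstep : ∀ x : ℝ, Real.exp x + 3 * (dref D M i / M) * Real.exp x
        ≤ Real.exp (x + 3 * (dref D M i / M)) := by
      intro x
      rw [Real.exp_add]
      nlinarith [Real.add_one_le_exp (3 * (dref D M i / M)), Real.exp_pos x]
    unfold amp at *
    rcases lt_trichotomy a i with h | rfl | h
    · rw [if_pos h] at ih ⊢
      rw [if_pos (by omega), zsum_succ]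
      have := hstep (3 * (zsum D M i - zsum D M a))
      rw [show 3 * (zsum D M i + dref D M i / M - zsum D M a)
        = 3 * (zsum D M i - zsum D M a) + 3 * (dref D M i / M) by ring]
      linarith
    · rw [if_neg (lt_irrefl _)] at ih ⊢
      rw [if_pos (by omega), zsum_succ, add_sub_cancel_left]
      linarith [Real.one_le_exp (by positivity : 0 ≤ 3 * (dref D M a / M))]
    · rw [if_neg (by omega)] at ih ⊢
      rw [if_neg (by omega)]
      linarith

variable {α : Type*} [DecidableEq α] {V : Finset α} {E : Finset (Finset α)} {D lam D3 D1 : ℝ}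
  {M i : ℕ}

/-- The widths of the hyperedges at `f`. -/
def psi (E : Finset (Finset α)) (M k : ℕ) (f : α) (l : ℕ) : ℝ :=
  ∑ Q ∈ star E f, width E M k Q f l

/-- The averaged width. -/
def gapMass (V : Finset α) (E : Finset (Finset α)) (M k i : ℕ) : ℝ :=
  ∑ e ∈ V, surv E M e i * psi E M k e i

lemma nb_subset_star (X : Finset α) (e : α) : nb E X e ⊆ star E e :=
  filter_subset_filter _ (erase_subset _ _)

lemma exX_le_one (X R : Finset α) (e : α) {l : ℕ} (hl : l ≤ M) : exX E M X R e l ≤ 1 :=
  prod_le_one (fun Q _ => by linarith [accum_le_one (M := M) E Q e hl])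
    fun Q _ => by linarith [accum_nonneg (M := M) E Q e hl]

lemma psi_nonneg (k : ℕ) (f : α) {l : ℕ} (hl : l ≤ M) : 0 ≤ psi E M k f l :=
  sum_nonneg fun Q _ => width_nonneg k Q f hl

namespace Setting

lemma acc_small (s : Setting V E D lam D3 M) (hi : i ≤ M) {R : Finset α} (hR : R ∈ E) {e : α}
    (he : e ∈ R) : accum E M R e i ≤ 1 / 100 :=
  (s.acc_le hi hR he).trans s.eta_small

lemma qf_le_surv (s : Setting V E D lam D3 M) (hi : i ≤ M) {R : Finset α} (hR : R ∈ E) {e : α}
    (he : e ∈ R) : qf E M R e i ≤ 51 / 50 * surv E M e i := by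
  have h := surv_eq_mul (empty_notMem s.reg.lin) hR he hi
  have ha := s.acc_small hi hR he
  have hq := (qf_mem_unit (M := M) E R e hi).1
  rw [h]
  nlinarith

lemma exX_le (s : Setting V E D lam D3 M) (hi : i ≤ M) {R Q : Finset α} {f : α}
    (hQ : Q ∈ nb E R f) : exX E M R Q f i ≤ 51 / 50 * qf E M R f i := by
  obtain ⟨h1, h2⟩ := mem_filter.1 hQ
  have ha := s.acc_small hi (mem_of_mem_erase h1) h2
  have h0 := exX_nonneg (E := E) (M := M) R Q f hi
  have h : qf E M R f i = (1 - accum E M Q f i) * exX E M R Q f i := by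
    rw [qf_eq E R f hi]
    exact (mul_prod_erase _ _ hQ).symm
  rw [h]
  nlinarith

lemma nb_card (s : Setting V E D lam D3 M) (X : Finset α) (e : α) :
    ((nb E X e).card : ℝ) ≤ 2 * D := by
  refine le_trans ?_ (s.deg_le e)
  exact_mod_cast card_le_card (nb_subset_star X e)

lemma piv_window (s : Setting V E D lam D3 M) (hi : i ≤ cutAt D M D3) {R : Finset α} (hR : R ∈ E)
    {e : α} (he : e ∈ R) : piv E M R e i ≤ 2 * dref D M i / D := by
  obtain ⟨hlt, -, -, -, -⟩ := s.cut_spec le_rfl s.D3_le_D
  exact (piv_le_rho (s.mild (by omega)) hR he).trans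
    (s.rho_le_of_win (by omega) (s.window i hi) hR he)

/-- Inside the window the widths decay factorially. -/
lemma width_window (s : Setting V E D lam D3 M) : ∀ k : ℕ, ∀ R ∈ E, ∀ e ∈ R,
    ∀ i ≤ cutAt D M D3, width E M k R e i ≤ (9 * zsum D M i) ^ k / k.factorial := by
  obtain ⟨hlt, -, -, -, -⟩ := s.cut_spec le_rfl s.D3_le_D
  have hD := s.D_pos
  intro k
  induction k with
  | zero =>
    intro R _ e _ i hi
    simpa using width_le_one (E := E) (M := M) 0 R e (show i ≤ M by omega)
  | succ k ih =>
    intro R hR e he i hi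
    refine (width_step s.reg.lin k hR he i (by omega)).trans
      (le_trans ?_ (volterra_pow hD (by norm_num : (0:ℝ) ≤ 9) M k i))
    unfold gapOp
    rw [sum_div]
    refine sum_le_sum fun l hl => ?_
    have hl' := mem_range.1 hl
    have hlM : l ≤ M := by omega
    set B := (9 * zsum D M l) ^ k / k.factorial with hB
    have hB0 : 0 ≤ B := by have := zsum_nonneg (M := M) hD l; positivity
    rw [show 9 * (dref D M l / (M : ℝ)) * B = 9 * dref D M l * B / M by ring]
    refine div_le_div_of_nonneg_right ?_ (Nat.cast_nonneg' _)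
    have hterm : ∀ f ∈ R.erase e, (∏ g ∈ (R.erase e).erase f, qf E M R g l)
        * ∑ Q ∈ nb E R f, exX E M R Q f l * width E M k Q f l ≤ 9 / 2 * dref D M l * B := by
      intro f hf
      have h1 : ∑ Q ∈ nb E R f, exX E M R Q f l * width E M k Q f l
          ≤ 2 * D * (51 / 50 * qf E M R f l * B) := by
        have hc : 0 ≤ 51 / 50 * qf E M R f l * B := by
          have := (qf_mem_unit (M := M) E R f hlM).1; positivity
        calc _ ≤ ∑ Q ∈ nb E R f, 51 / 50 * qf E M R f l * B := sum_le_sum fun Q hQ => by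
              obtain ⟨h2, h3⟩ := mem_filter.1 hQ
              exact mul_le_mul (s.exX_le hlM hQ) (ih Q (mem_of_mem_erase h2) f h3 l (by omega))
                (width_nonneg k Q f hlM) (by have := (qf_mem_unit (M := M) E R f hlM).1; positivity)
          _ ≤ _ := by
              rw [sum_const, nsmul_eq_mul]
              exact mul_le_mul_of_nonneg_right (s.nb_card R f) hc
      refine (mul_le_mul_of_nonneg_left h1
        (prod_nonneg fun g _ => (qf_mem_unit (M := M) E R g hlM).1)).trans ?_
      have hp : (∏ g ∈ (R.erase e).erase f, qf E M R g l) * qf E M R f l = piv E M R e l :=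
        prod_erase_mul _ _ hf
      have h2 := s.piv_window (show l ≤ cutAt D M D3 by omega) hR he
      rw [le_div_iff₀ hD] at h2
      calc (∏ g ∈ (R.erase e).erase f, qf E M R g l) * (2 * D * (51 / 50 * qf E M R f l * B))
          = 51 / 25 * B * (piv E M R e l * D) := by rw [← hp]; ring
        _ ≤ 51 / 25 * B * (2 * dref D M l) := mul_le_mul_of_nonneg_left h2 (by positivity)
        _ ≤ _ := by
            have : 0 ≤ dref D M l * B := mul_nonneg (dref_pos hD l).le hB0
            linarith
    refine (sum_le_sum hterm).trans (le_of_eq ?_)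
    rw [sum_const, card_erase_of_mem he, s.reg.lin.three R hR, nsmul_eq_mul]
    ring

/-- After the window the deep widths are capped by the rates at the end of the window. -/
lemma width_tail (s : Setting V E D lam D3 M) {k : ℕ} (hk : 54 * zmax D + 2 ≤ k) {R : Finset α}
    (hR : R ∈ E) {e : α} (he : e ∈ R) (hi : cutAt D M D3 ≤ i) (hiM : i ≤ M) :
    width E M k R e i ≤ 7 * D3 / D := by
  obtain ⟨hlt, -, hτ2, -, -⟩ := s.cut_spec le_rfl s.D3_le_D
  set τ := cutAt D M D3
  have hD := s.D_pos
  have hz := s.two_le_zm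
  obtain ⟨k', rfl⟩ : ∃ k', k = k' + 1 := by
    refine ⟨k - 1, (Nat.succ_pred_eq_of_pos ?_).symm⟩
    have : (0 : ℝ) < k := by linarith
    exact_mod_cast this
  push_cast at hk
  have hdecay : ∀ l ≤ τ, (9 * zsum D M l) ^ k' / k'.factorial ≤ 1 / D ^ 3 := fun l hl => by
    refine (pow_fact_decay (by have := zsum_nonneg (M := M) hD l; positivity) ?_).trans
      (half_pow_le s.one_le_D (by push_cast; linarith))
    linarith [s.zsum_le (show l ≤ M by omega)]
  have hup : ∀ f, bp E M (bb (k' + 1)) (k' + 1) R f τ ≤ qf E M R f τ + 1 / D := by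
    intro f
    have h1 := gap_root (E := E) k' R f τ hlt.le
    have h2 := (sandwich (E := E) (k' + 1) R f τ hlt.le).1
    have h3 : (∑ l ∈ range τ, ∑ Q ∈ nb E R f, exX E M R Q f l * width E M k' Q f l) / M
        ≤ 2 * D * (1 / D ^ 3) := by
      rw [div_le_iff₀ s.M_posR]
      calc _ ≤ ∑ l ∈ range τ, 2 * D * (1 / D ^ 3) := sum_le_sum fun l hl => by
            have hl' := mem_range.1 hl
            calc _ ≤ ∑ Q ∈ nb E R f, 1 / D ^ 3 := sum_le_sum fun Q hQ => by
                  obtain ⟨h4, h5⟩ := mem_filter.1 hQ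
                  refine (mul_le_of_le_one_left (width_nonneg k' Q f (by omega))
                    (exX_le_one R Q f (by omega))).trans ?_
                  exact (s.width_window k' Q (mem_of_mem_erase h4) f h5 l hl'.le).trans
                    (hdecay l hl'.le)
              _ ≤ _ := by
                  rw [sum_const, nsmul_eq_mul]
                  exact mul_le_mul_of_nonneg_right (s.nb_card R f) (by positivity)
        _ ≤ _ := by
            rw [sum_const, card_range, nsmul_eq_mul, mul_comm]
            exact mul_le_mul_of_nonneg_left (by exact_mod_cast hlt.le) (by positivity)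
    have h4 : 2 * D * (1 / D ^ 3) ≤ 1 / D := by
      rw [mul_one_div, div_le_div_iff₀ (by positivity) hD]
      nlinarith [mul_le_mul_of_nonneg_left (show (2:ℝ) ≤ D by linarith [s.D_big]) (sq_nonneg D)]
    linarith
  refine (width_le_pr (k' + 1) R e hiM).trans ?_
  have hmono : pr E M (bb (k' + 1)) (k' + 1) R e i ≤ ∏ f ∈ R.erase e, (qf E M R f τ + 1 / D) :=
    prod_le_prod (fun f _ => (bp_mem_unit E M _ _ R f i hiM).1)
      fun f _ => (bp_le_of_le _ _ R f hi hiM).trans (hup f)
  refine hmono.trans ?_
  obtain ⟨f, g, hfg, hset⟩ := card_eq_two.1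
    (by rw [card_erase_of_mem he, s.reg.lin.three R hR] : (R.erase e).card = 2)
  have hp := s.piv_window (le_refl τ) hR he
  rw [piv, hset, prod_pair hfg] at hp
  rw [hset, prod_pair hfg]
  have hf := qf_mem_unit (M := M) E R f hlt.le
  have hg := qf_mem_unit (M := M) E R g hlt.le
  have hD1 : 1 / D ≤ 1 := by rw [div_le_one hD]; exact s.one_le_D
  have hD0 : 0 ≤ 1 / D := by positivity
  have h5 : 2 * dref D M τ / D ≤ 4 * D3 / D := div_le_div_of_nonneg_right (by linarith) hD.le
  have h6 : 7 * D3 / D = 4 * D3 / D + 3 * (D3 * (1 / D)) := by ring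
  have h7 : 1 / D ≤ D3 * (1 / D) := le_mul_of_one_le_left hD0 (by linarith [s.big])
  nlinarith [hf.1, hf.2, hg.1, hg.2]

lemma psi_tail (s : Setting V E D lam D3 M) {k : ℕ} (hk : 54 * zmax D + 2 ≤ k) (f : α)
    (hi : cutAt D M D3 ≤ i) (hiM : i ≤ M) : psi E M k f i ≤ 14 * D3 := by
  have hD := s.D_pos
  calc psi E M k f i ≤ ∑ _Q ∈ star E f, 7 * D3 / D := sum_le_sum fun Q hQ => by
        obtain ⟨h1, h2⟩ := mem_filter.1 hQ
        exact s.width_tail hk h1 h2 hi hiM
    _ ≤ 2 * D * (7 * D3 / D) := by
        rw [sum_const, nsmul_eq_mul]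
        exact mul_le_mul_of_nonneg_right (s.deg_le f) (by have := s.D3_pos; positivity)
    _ = _ := by field_simp; ring

lemma wdeg_tail (s : Setting V E D lam D3 M) (f : α) (hi : cutAt D M D3 ≤ i) (hiM : i < M) :
    wdeg E M f i ≤ 12 * D3 := by
  obtain ⟨-, hτ, hτ2, -, -⟩ := s.cut_spec le_rfl s.D3_le_D
  have hD := s.D_pos
  calc wdeg E M f i ≤ ∑ _Q ∈ star E f, 6 * D3 / D := sum_le_sum fun Q hQ => by
        obtain ⟨h1, h2⟩ := mem_filter.1 hQ
        exact (s.rho_le hiM hi hτ h1 h2).trans (div_le_div_of_nonneg_right (by linarith) hD.le)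
    _ ≤ 2 * D * (6 * D3 / D) := by
        rw [sum_const, nsmul_eq_mul]
        exact mul_le_mul_of_nonneg_right (s.deg_le f) (by have := s.D3_pos; positivity)
    _ = _ := by field_simp; ring

lemma gapMass_zero (s : Setting V E D lam D3 M) (k : ℕ) (hi : i ≤ M) :
    gapMass V E M k i ≤ 2 * D * V.card := by
  calc gapMass V E M k i ≤ ∑ _e ∈ V, 2 * D := sum_le_sum fun e _ => by
        refine (mul_le_of_le_one_left (psi_nonneg k e hi) (qf_mem_unit E ∅ e hi).2).trans ?_
        calc psi E M k e i ≤ ∑ _Q ∈ star E e, (1 : ℝ) :=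
              sum_le_sum fun Q _ => width_le_one k Q e hi
          _ ≤ 2 * D := by simp only [sum_const, nsmul_eq_mul, mul_one]; exact s.deg_le e
    _ = _ := by rw [sum_const, nsmul_eq_mul]; ring

/-- One step of depth for the averaged width. -/
lemma gapMass_step (s : Setting V E D lam D3 M) (k : ℕ) (hi : i ≤ M) :
    gapMass V E M (k + 1) i
      ≤ (∑ l ∈ range i, 51 / 25 * ∑ f ∈ V, surv E M f l * wdeg E M f l * psi E M k f l) / M := by
  have hM : (0 : ℝ) ≤ M := Nat.cast_nonneg' _
  have h1 : gapMass V E M (k + 1) i ≤ ∑ e ∈ V, ∑ R ∈ star E e,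
      (∑ l ∈ range i, ∑ f ∈ R.erase e, 51 / 50 * (wR E M R l * psi E M k f l)) / M := by
    refine sum_le_sum fun e _ => ?_
    rw [psi, mul_sum]
    refine sum_le_sum fun R hR => ?_
    obtain ⟨hR1, he⟩ := mem_filter.1 hR
    refine (mul_le_mul_of_nonneg_left (width_step s.reg.lin k hR1 he i hi)
      (qf_mem_unit E ∅ e hi).1).trans ?_
    rw [gapOp, mul_div_assoc', mul_sum]
    refine div_le_div_of_nonneg_right (sum_le_sum fun l hl => ?_) hM
    rw [mul_sum]
    refine sum_le_sum fun f hf => ?_
    have hl' := mem_range.1 hl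
    have hlM : l ≤ M := by omega
    have hqe : surv E M e i ≤ qf E M R e l := by
      refine (qf_le_of_le E ∅ e hl'.le hi).trans ?_
      change surv E M e l ≤ _
      rw [surv_eq_mul (empty_notMem s.reg.lin) hR1 he hlM]
      exact mul_le_of_le_one_right (qf_mem_unit E R e hlM).1
        (by linarith [accum_nonneg (M := M) E R e hlM])
    have hsum : ∑ Q ∈ nb E R f, exX E M R Q f l * width E M k Q f l
        ≤ 51 / 50 * qf E M R f l * psi E M k f l := by
      rw [psi, mul_sum]
      refine (sum_le_sum fun Q hQ => mul_le_mul_of_nonneg_right (s.exX_le hlM hQ)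
        (width_nonneg k Q f hlM)).trans ?_
      exact sum_le_sum_of_subset_of_nonneg (nb_subset_star R f) fun Q _ _ =>
        mul_nonneg (by have := (qf_mem_unit (M := M) E R f hlM).1; positivity)
          (width_nonneg k Q f hlM)
    have hw : qf E M R e l * ((∏ g ∈ (R.erase e).erase f, qf E M R g l) * qf E M R f l)
        = wR E M R l := by
      rw [prod_erase_mul _ _ hf]
      exact mul_prod_erase R (fun x => qf E M R x l) he
    have hg0 : 0 ≤ ∏ g ∈ (R.erase e).erase f, qf E M R g l :=
      prod_nonneg fun g _ => (qf_mem_unit (M := M) E R g hlM).1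
    calc surv E M e i * ((∏ g ∈ (R.erase e).erase f, qf E M R g l)
          * ∑ Q ∈ nb E R f, exX E M R Q f l * width E M k Q f l)
        ≤ qf E M R e l * ((∏ g ∈ (R.erase e).erase f, qf E M R g l)
          * (51 / 50 * qf E M R f l * psi E M k f l)) :=
          mul_le_mul hqe (mul_le_mul_of_nonneg_left hsum hg0)
            (mul_nonneg hg0 (sum_nonneg fun Q _ =>
              mul_nonneg (exX_nonneg R Q f hlM) (width_nonneg k Q f hlM)))
            (qf_mem_unit E R e hlM).1
      _ = _ := by rw [← hw]; ring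
  refine h1.trans (le_of_eq ?_)
  simp only [← sum_div]
  congr 1
  rw [sum_star_swap s.reg.lin (fun e R =>
    ∑ l ∈ range i, ∑ f ∈ R.erase e, 51 / 50 * (wR E M R l * psi E M k f l))]
  rw [sum_congr rfl fun R _ => sum_comm, sum_comm]
  refine sum_congr rfl fun l hl => ?_
  have hlM : l < M := (mem_range.1 hl).trans_le hi
  rw [show ∑ f ∈ V, surv E M f l * wdeg E M f l * psi E M k f l
      = ∑ f ∈ V, ∑ R ∈ star E f, wR E M R l * psi E M k f l from sum_congr rfl fun f _ => by
        rw [wdeg, mul_sum, sum_mul]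
        exact sum_congr rfl fun R _ => by rw [s.surv_rho hlM R f],
    sum_star_swap s.reg.lin (fun f R => wR E M R l * psi E M k f l), mul_sum]
  refine sum_congr rfl fun R hR => ?_
  rw [sum_comm' (t' := R) (s' := fun f => R.erase f)
    (fun e f => by simp only [mem_erase]; tauto), mul_sum]
  refine sum_congr rfl fun f hf => ?_
  rw [sum_const, card_erase_of_mem hf, s.reg.lin.three R hR, nsmul_eq_mul]
  ring

end Setting

namespace Params

/-- The weighted second moment, split by the profile. -/
lemma weighted_le (p : Params V E D lam D3 D1 M) {k : ℕ} (hk : 54 * zmax D + 2 ≤ k) (hi : i < M) :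
    51 / 25 * ∑ f ∈ V, surv E M f i * wdeg E M f i * psi E M k f i
      ≤ 3 * dref D M i * gapMass V E M k i
        + if cutAt D M D3 < i then 1800 * D3 ^ 2 * (lyapSize D lam D1 * scale V D) else 0 := by
  have hs := p.set_
  obtain ⟨hlt, hτ, hτ2, -, hge⟩ := hs.cut_spec le_rfl hs.D3_le_D
  have hd := dref_pos (M := M) hs.D_pos i
  have h0 : ∀ f, 0 ≤ surv E M f i * psi E M k f i := fun f =>
    mul_nonneg (qf_mem_unit E ∅ f hi.le).1 (psi_nonneg k f hi.le)
  have hmass : 0 ≤ gapMass V E M k i := sum_nonneg fun f _ => h0 f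
  by_cases h : cutAt D M D3 < i
  · rw [if_pos h]
    have hpt : ∀ f ∈ V, surv E M f i * wdeg E M f i * psi E M k f i
        ≤ 7 / 5 * dref D M i * (surv E M f i * psi E M k f i)
          + 434 * D3 * dref D M i * (surv E M f i * prof (fdev E M D f i)) := by
      intro f _
      set u := fdev E M D f i with hu
      have h1 : 1 + u ≤ 7 / 5 + 31 * prof u := by
        have h0' := prof_nonneg u
        rcases le_or_gt u (2 / 5) with h' | h'
        · linarith
        · rw [prof_of_pos (by linarith)]
          have := core_nonneg u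
          have h2 : (1 + u) ≤ 31 * (2 / 5 * u ^ 2 / (1 + u)) := by
            rw [mul_div_assoc', le_div_iff₀ (by linarith)]
            nlinarith
          linarith
      have hψ := hs.psi_tail hk f h.le hi.le
      have hP := (qf_mem_unit (M := M) E ∅ f hi.le).1
      change 0 ≤ surv E M f i at hP
      have hprof := prof_nonneg u
      have h3 := mul_le_mul_of_nonneg_left hψ
        (mul_nonneg (mul_nonneg hd.le hP) hprof)
      rw [hs.wdeg_eq f, ← hu]
      calc surv E M f i * (dref D M i * (1 + u)) * psi E M k f i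
          = dref D M i * (1 + u) * (surv E M f i * psi E M k f i) := by ring
        _ ≤ dref D M i * (7 / 5 + 31 * prof u) * (surv E M f i * psi E M k f i) :=
            mul_le_mul_of_nonneg_right (mul_le_mul_of_nonneg_left h1 hd.le) (h0 f)
        _ ≤ _ := by linarith
    have h1 := sum_le_sum hpt
    rw [sum_add_distrib, ← mul_sum, ← mul_sum] at h1
    change _ ≤ 7 / 5 * dref D M i * gapMass V E M k i
      + 434 * D3 * dref D M i * hpot V E M D i at h1
    have hcut : cutAt D M D1 ≤ cutAt D M D3 := by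
      obtain ⟨h2, h3, -, -, -⟩ := p.cut1
      exact (hs.cut_spec le_rfl hs.D3_le_D).2.2.2.1 _ h2.le (p.le_D1.trans h3)
    have hH := p.hpot_le (hcut.trans h.le) hi.le
    have hsd : √(dref D M i) ≤ 2 * D3 := by
      refine (Real.sqrt_le_sqrt ((dref_anti hs.D_pos h.le).trans hτ2)).trans ?_
      rw [Real.sqrt_le_left (by linarith [hs.D3_pos])]
      nlinarith [hs.big]
    have hdH : dref D M i * hpot V E M D i ≤ 2 * D3 * (lyapSize D lam D1 * scale V D) := by
      calc dref D M i * hpot V E M D i
          = √(dref D M i) * (√(dref D M i) * hpot V E M D i) := by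
            rw [← mul_assoc, Real.mul_self_sqrt hd.le]
        _ ≤ _ := mul_le_mul hsd hH (mul_nonneg (Real.sqrt_nonneg _) (hs.hpot_nonneg hi.le))
            (by linarith [hs.D3_pos])
    have h5 := mul_le_mul_of_nonneg_left hdH (by linarith [hs.D3_pos] : (0:ℝ) ≤ 434 * D3)
    have h4 : 0 ≤ dref D M i * gapMass V E M k i := mul_nonneg hd.le hmass
    have hβ : 0 ≤ D3 ^ 2 * (lyapSize D lam D1 * scale V D) :=
      mul_nonneg (sq_nonneg _)
        (le_trans (mul_nonneg (Real.sqrt_nonneg _) (hs.hpot_nonneg hi.le)) hH)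
    linarith
  · rw [if_neg h, add_zero]
    have hpt : ∀ f ∈ V, surv E M f i * wdeg E M f i * psi E M k f i
        ≤ 7 / 5 * dref D M i * (surv E M f i * psi E M k f i) := by
      intro f hf
      have hd3 := hge i (not_lt.1 h)
      have h1 := (abs_le.1 ((hs.dev_le hi.le hd3 hf).trans
        ((hs.window_dev_sup hd3).trans hs.small_dev))).2
      rw [hs.wdeg_eq f]
      calc surv E M f i * (dref D M i * (1 + fdev E M D f i)) * psi E M k f i
          = dref D M i * (1 + fdev E M D f i) * (surv E M f i * psi E M k f i) := by ring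
        _ ≤ dref D M i * (7 / 5) * (surv E M f i * psi E M k f i) :=
            mul_le_mul_of_nonneg_right (mul_le_mul_of_nonneg_left (by linarith) hd.le) (h0 f)
        _ = _ := by ring
    have h1 := (sum_le_sum hpt).trans_eq (mul_sum _ _ _).symm
    change _ ≤ 7 / 5 * dref D M i * gapMass V E M k i at h1
    have h4 : 0 ≤ dref D M i * gapMass V E M k i := mul_nonneg hd.le hmass
    linarith

lemma lyapSize_nonneg (p : Params V E D lam D3 D1 M) : 0 ≤ lyapSize D lam D1 := by
  have := p.D1_big
  unfold lyapSize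
  positivity

lemma lyapSize_le_badSize (p : Params V E D lam D3 D1 M) :
    lyapSize D lam D1 ≤ badSize D lam D3 D1 := by
  have hs := p.set_
  unfold lyapSize badSize
  refine div_le_div_of_nonneg_right (mul_le_mul_of_nonneg_right ?_ (sq_nonneg _))
    (by linarith [p.D1_big])
  have h1 : (1 : ℝ) ≤ zmax D ^ 4 := one_le_pow₀ (by linarith [hs.two_le_zm])
  have h2 : (1 : ℝ) ≤ D3 * zmax D ^ 4 := one_le_mul_of_one_le_of_one_le (by linarith [hs.big]) h1
  linarith

/-- The averaged width at depth `k₀ + m`. -/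
lemma gapMass_le (p : Params V E D lam D3 D1 M) {k₀ : ℕ} (hk : 54 * zmax D + 2 ≤ k₀) :
    ∀ m : ℕ, ∀ i ≤ M, gapMass V E M (k₀ + m) i
      ≤ 2 * D * V.card * ((3 * zsum D M i) ^ m / m.factorial)
        + 1800 * D3 ^ 2 * (lyapSize D lam D1 * scale V D) * amp D M (cutAt D M D3) i := by
  have hs := p.set_
  set β := lyapSize D lam D1 * scale V D with hβdef
  have hβ0 : 0 ≤ β := mul_nonneg p.lyapSize_nonneg p.scale_nonneg
  have hD := hs.D_pos
  intro m
  induction m with
  | zero =>
    intro i hi
    have : 0 ≤ 1800 * D3 ^ 2 * β * amp D M (cutAt D M D3) i := by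
      unfold amp; split_ifs <;> positivity
    simpa using le_add_of_le_of_nonneg (hs.gapMass_zero k₀ hi) this
  | succ m ih =>
    intro i hi
    have hk' : 54 * zmax D + 2 ≤ ((k₀ + m : ℕ) : ℝ) := by
      push_cast; linarith [(Nat.cast_nonneg' m : (0:ℝ) ≤ m)]
    set τ := cutAt D M D3
    set S := 1800 * D3 ^ 2 * β with hS
    have hS0 : 0 ≤ S := by rw [hS]; positivity
    set A := 2 * D * (V.card : ℝ) with hA
    refine (hs.gapMass_step (k₀ + m) hi).trans ?_
    rw [sum_div]
    calc ∑ l ∈ range i,
          51 / 25 * (∑ f ∈ V, surv E M f l * wdeg E M f l * psi E M (k₀ + m) f l) / M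
        ≤ ∑ l ∈ range i, (A * (3 * (dref D M l / M) * ((3 * zsum D M l) ^ m / m.factorial))
            + (S * (3 * (dref D M l / M) * amp D M τ l) + (if τ < l then S / M else 0))) := by
          refine sum_le_sum fun l hl => ?_
          have hlM : l < M := (mem_range.1 hl).trans_le hi
          have h1 := p.weighted_le hk' hlM
          have h2 := mul_le_mul_of_nonneg_left (ih l hlM.le)
            (by have := dref_pos (M := M) hD l; positivity : 0 ≤ 3 * dref D M l)
          refine (div_le_div_of_nonneg_right (h1.trans (add_le_add h2 le_rfl))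
            (Nat.cast_nonneg' _)).trans (le_of_eq ?_)
          rw [← hβdef, ← hS, add_div]
          split_ifs <;> ring
      _ ≤ A * ((3 * zsum D M i) ^ (m + 1) / (m + 1).factorial) + S * amp D M τ i := by
          rw [sum_add_distrib, sum_add_distrib, ← mul_sum, ← mul_sum]
          refine add_le_add (mul_le_mul_of_nonneg_left (volterra_pow hD (by norm_num) M m i)
            (by rw [hA]; positivity)) ?_
          have h1 := mul_le_mul_of_nonneg_left (volterra_amp hD M τ i) hS0
          by_cases h : τ < i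
          · rw [if_pos h] at h1
            have h2 : ∑ l ∈ range i, (if τ < l then S / (M : ℝ) else 0) ≤ S := by
              calc _ ≤ ∑ l ∈ range i, S / (M : ℝ) := sum_le_sum fun l _ => by
                    split_ifs
                    · exact le_rfl
                    · positivity
                _ ≤ (M : ℝ) * (S / M) := by
                    rw [sum_const, card_range, nsmul_eq_mul]
                    exact mul_le_mul_of_nonneg_right (by exact_mod_cast hi) (by positivity)
                _ = S := by field_simp [hs.M_posR.ne']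
            rw [amp, if_pos h]
            linarith
          · rw [if_neg h] at h1
            have h2 : ∑ l ∈ range i, (if τ < l then S / (M : ℝ) else 0) = 0 :=
              sum_eq_zero fun l hl => if_neg (by have := mem_range.1 hl; omega)
            rw [amp, if_neg h]
            linarith

lemma amp_le (p : Params V E D lam D3 D1 M) (hi : i ≤ M) :
    amp D M (cutAt D M D3) i ≤ 972 * D3 ^ 2 := by
  have hs := p.set_
  have hD := hs.D_pos
  obtain ⟨hlt, hτ, hτ2, -, -⟩ := hs.cut_spec le_rfl hs.D3_le_D
  have hD3 := hs.big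
  unfold amp
  split_ifs with h
  swap
  · positivity
  have h1 := zsum_le (M := M) hs.one_le_D hs.M_pos (by nlinarith [hs.M_ge]) hlt.le le_rfl
  have h2 := zsum_mono (M := M) hD hi
  have h3 : Real.log (dref D M (cutAt D M D3)) ≤ Real.log (2 * D3) :=
    Real.log_le_log (dref_pos hD _) hτ2
  have h4 : Real.log (1 / 4) ≤ Real.log (dref D M M) :=
    Real.log_le_log (by norm_num) (quarter_le_dref (by linarith [hs.one_le_D]) hs.M_pos le_rfl)
  have h5 := log_quarter_ge
  have h6 : 0 ≤ Real.log (2 * D3) := Real.log_nonneg (by linarith)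
  calc Real.exp (3 * (zsum D M i - zsum D M (cutAt D M D3)))
      ≤ Real.exp (2 * Real.log (2 * D3) + 5) := Real.exp_le_exp.2 (by linarith)
    _ = (2 * D3) ^ 2 * (Real.exp 1) ^ 5 := by
        rw [Real.exp_add, ← Real.log_rpow (by linarith), Real.exp_log (by positivity),
          show (2:ℝ) = ((2:ℕ):ℝ) by norm_num, Real.rpow_natCast, ← Real.exp_nat_mul]
        norm_num
    _ ≤ (2 * D3) ^ 2 * 3 ^ 5 := by
        refine mul_le_mul_of_nonneg_left (pow_le_pow_left₀ (Real.exp_pos 1).le
          Real.exp_one_lt_three.le 5) (by positivity)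
    _ = _ := by ring

end Params

/-- The gap at logarithmic depth. -/
theorem goalGapCore : GoalGapCore := by
  intro α _ V E D lam D3 D1 M p hsep j hj
  have hs := p.set_
  have hz := hs.two_le_zm
  have hD := hs.D_pos
  refine ⟨fun e _ => ?_, ?_⟩
  · have h := sandwich (E := E) (2 * j) ∅ e M le_rfl
    simp only [bb_two, Bool.not_true] at h
    exact h
  set k₀ := ⌈54 * zmax D + 2⌉₊ with hk₀
  have hk₀1 : 54 * zmax D + 2 ≤ (k₀ : ℝ) := Nat.le_ceil _
  have hk₀2 : (k₀ : ℝ) ≤ 54 * zmax D + 3 := by
    linarith [Nat.ceil_lt_add_one (by linarith : (0:ℝ) ≤ 54 * zmax D + 2)]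
  obtain ⟨k, hk⟩ : ∃ k, 2 * j = k + 1 := by
    refine ⟨2 * j - 1, ?_⟩
    have : (0 : ℝ) < j := by linarith
    have : 0 < j := by exact_mod_cast this
    omega
  have hk' : 2 * (j : ℝ) = k + 1 := by exact_mod_cast hk
  obtain ⟨m, rfl⟩ : ∃ m, k = k₀ + m := by
    refine Nat.exists_eq_add_of_le ?_
    have : (k₀ : ℝ) ≤ k := by linarith
    exact_mod_cast this
  push_cast at hk'
  set β := lyapSize D lam D1 * scale V D with hβd
  have hβ0 : 0 ≤ β := mul_nonneg p.lyapSize_nonneg p.scale_nonneg
  have hm : 18 * zmax D ≤ (m : ℝ) := by linarith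
  have hdecay : ∀ l ≤ M, (3 * zsum D M l) ^ m / m.factorial ≤ 1 / D ^ 4 := fun l hl =>
    (pow_fact_decay (by have := zsum_nonneg (M := M) hD l; positivity)
      (by linarith [hs.zsum_le hl])).trans (half_pow_le hs.one_le_D (by push_cast; linarith))
  set S := 1800 * D3 ^ 2 * β * (972 * D3 ^ 2) with hS
  have hΨ : ∀ l ≤ M, gapMass V E M (k₀ + m) l ≤ 2 * D * V.card * (1 / D ^ 4) + S := fun l hl =>
    (p.gapMass_le hk₀1 m l hl).trans
      (add_le_add (mul_le_mul_of_nonneg_left (hdecay l hl) (by positivity))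
        (mul_le_mul_of_nonneg_left (p.amp_le hl) (by positivity)))
  have hpoint : ∀ e ∈ V, bp E M true (2 * j) ∅ e M - bp E M false (2 * j) ∅ e M
      ≤ (∑ l ∈ range M, 51 / 50 * (surv E M e l * psi E M (k₀ + m) e l)) / M := by
    intro e _
    have h := gap_root (E := E) (k₀ + m) ∅ e M le_rfl
    rw [← hk, bb_two j] at h
    refine h.trans (div_le_div_of_nonneg_right (sum_le_sum fun l hl => ?_) (Nat.cast_nonneg' _))
    have hlM : l ≤ M := (mem_range.1 hl).le
    rw [psi, mul_sum, mul_sum]
    have hnb : nb E ∅ e = star E e := by rw [nb, erase_eq_of_notMem (empty_notMem hs.reg.lin)]; rfl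
    rw [hnb]
    refine sum_le_sum fun R hR => ?_
    obtain ⟨hR1, he⟩ := mem_filter.1 hR
    have hx : exX E M ∅ R e l = qf E M R e l := by
      rw [exX, qf_eq E R e hlM, hnb, star, ← filter_erase]
    rw [hx, ← mul_assoc]
    exact mul_le_mul_of_nonneg_right (hs.qf_le_surv hlM hR1 he) (width_nonneg _ R e hlM)
  calc ∑ e ∈ V, (bp E M true (2 * j) ∅ e M - bp E M false (2 * j) ∅ e M)
      ≤ ∑ e ∈ V, (∑ l ∈ range M, 51 / 50 * (surv E M e l * psi E M (k₀ + m) e l)) / M :=
        sum_le_sum hpoint
    _ = (∑ l ∈ range M, 51 / 50 * gapMass V E M (k₀ + m) l) / M := by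
        rw [← sum_div, sum_comm]
        congr 1
        exact sum_congr rfl fun l _ => by rw [gapMass, mul_sum]
    _ ≤ 51 / 50 * (2 * D * V.card * (1 / D ^ 4) + S) := by
        rw [div_le_iff₀ hs.M_posR]
        refine (sum_le_sum fun l hl => mul_le_mul_of_nonneg_left (hΨ l (mem_range.1 hl).le)
          (by norm_num : (0:ℝ) ≤ 51 / 50)).trans (le_of_eq ?_)
        rw [sum_const, card_range, nsmul_eq_mul]; ring
    _ ≤ _ := by
        have h1 : 51 / 50 * (2 * D * (V.card : ℝ) * (1 / D ^ 4)) ≤ 100 / D * scale V D := by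
          have hsd : √D ≤ D ^ 2 := by
            calc √D ≤ √(D * D) := Real.sqrt_le_sqrt (le_mul_of_one_le_right hD.le hs.one_le_D)
              _ = D := Real.sqrt_mul_self hD.le
              _ ≤ D ^ 2 := by nlinarith [hs.one_le_D]
          have e1 : 51 / 50 * (2 * D * (V.card : ℝ) * (1 / D ^ 4))
              = 51 / 25 * (V.card / (D ^ 2 * D)) := by field_simp; ring
          have e2 : 100 / D * scale V D = 100 * (V.card / (√D * D)) := by
            unfold scale; field_simp
          rw [e1, e2]
          refine mul_le_mul (by norm_num) (div_le_div_of_nonneg_left (Nat.cast_nonneg' _)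
            (mul_pos (Real.sqrt_pos.2 hD) hD) (mul_le_mul_of_nonneg_right hsd hD.le))
            (by positivity) (by norm_num)
        have h2 : 51 / 50 * S ≤ 10 ^ 8 * D3 ^ 6 * β := by
          have h4 : D3 ^ 4 ≤ D3 ^ 6 := pow_le_pow_right₀ (by linarith [hs.big]) (by norm_num)
          calc 51 / 50 * S = (51 / 50 * 1800 * 972) * (D3 ^ 4 * β) := by rw [hS]; ring
            _ ≤ 10 ^ 8 * (D3 ^ 6 * β) := mul_le_mul (by norm_num)
                (mul_le_mul_of_nonneg_right h4 hβ0) (by positivity) (by norm_num)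
            _ = _ := by ring
        have h3 : 10 ^ 8 * D3 ^ 6 * β
            ≤ 10 ^ 8 * D3 ^ 6 * (badSize D lam D3 D1 * scale V D) := by
          rw [hβd]
          exact mul_le_mul_of_nonneg_left
            (mul_le_mul_of_nonneg_right p.lyapSize_le_badSize p.scale_nonneg) (by positivity)
        linarith

/-- The gap closes at logarithmic depth. -/
theorem goalGap : GoalGap := goalGap_of_core goalGapCore

end

end Vale.Agent.P046.Full
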