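import Vale.Agent.P046.Full.Flow.Expand
import Vale.Agent.P046.Full.Flow.Clock

/-!
Sup norm control of the flow down to a small power of the initial degree.
-/

namespace Vale.Agent.P046.Full

open Finset

noncomputable section

variable {α : Type*} [DecidableEq α]

/-- The size of the second order deviation. -/
def gmax (D lam : ℝ) : ℝ := 140 * lam ^ 2 * zmax D

/-- The hypotheses of the flow analysis. -/
structure Setting (V : Finset α) (E : Finset (Finset α)) (D lam D3 : ℝ) (M : ℕ) : Prop where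
  reg : NearReg V E D lam
  big : 1000 ≤ D3
  sq_le : D3 ^ 2 ≤ D
  gm : 1000 * (gmax D lam ^ 2 * zmax D) ≤ D3
  M_big : 10 ^ 8 * D ^ 9 ≤ M

/-- The invariant of the window. -/
structure Win (V : Finset α) (E : Finset (Finset α)) (D lam D3 : ℝ) (M i : ℕ) : Prop where
  acc : ∀ R ∈ E, ∀ e ∈ R, accum E M R e i ≤ 2 * zsum D M i / D
  rho : ∀ R ∈ E, ∀ e ∈ R,
    rho E M R e i * D ≤ (1 + 16 * gmax D lam / D3 * zsum D M i) * dref D M i
  dev : ∀ e ∈ V, |fdev E M D e i| ≤ lam / √D + gmax D lam * (i / M)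
  nbr : ∀ e ∈ V, |fnbr E M D e i| * dref D M i ≤ lam + 130 * lam ^ 2 * zsum D M i

namespace Setting

variable {V : Finset α} {E : Finset (Finset α)} {D lam D3 : ℝ} {M i : ℕ}

lemma D3_pos (s : Setting V E D lam D3 M) : 0 < D3 := by linarith [s.big]

lemma D_big (s : Setting V E D lam D3 M) : 10 ^ 6 ≤ D := by
  nlinarith [s.sq_le, s.big]

lemma D3_le_D (s : Setting V E D lam D3 M) : D3 ≤ D := by
  nlinarith [s.sq_le, s.big]

lemma one_le_D (s : Setting V E D lam D3 M) : 1 ≤ D := by linarith [s.D_big]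

lemma D_pos (s : Setting V E D lam D3 M) : 0 < D := by linarith [s.D_big]

lemma M_ge (s : Setting V E D lam D3 M) : 10 ^ 8 * D ^ 2 ≤ M :=
  le_trans (mul_le_mul_of_nonneg_left (pow_le_pow_right₀ s.one_le_D (by norm_num)) (by norm_num))
    s.M_big

lemma M_pos (s : Setting V E D lam D3 M) : 0 < M := by
  have : (0:ℝ) < M := lt_of_lt_of_le (by have := s.D_pos; positivity) s.M_big
  exact_mod_cast this

lemma M_posR (s : Setting V E D lam D3 M) : (0:ℝ) < M := by exact_mod_cast s.M_pos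

lemma two_le_zm (s : Setting V E D lam D3 M) : 2 ≤ zmax D := two_le_zmax s.one_le_D

lemma one_le_sq_lam (s : Setting V E D lam D3 M) : 1 ≤ lam ^ 2 :=
  one_le_pow₀ s.reg.one_le_lam

lemma gmax_big (s : Setting V E D lam D3 M) : 280 ≤ gmax D lam := by
  unfold gmax
  nlinarith [s.two_le_zm, s.one_le_sq_lam]

lemma lam_le_gmax (s : Setting V E D lam D3 M) : lam ≤ gmax D lam := by
  unfold gmax
  nlinarith [s.two_le_zm, s.reg.one_le_lam, s.one_le_sq_lam]

lemma zsum_le (s : Setting V E D lam D3 M) (hi : i ≤ M) : zsum D M i ≤ zmax D :=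
  zsum_le_zmax s.one_le_D s.M_pos (by nlinarith [s.M_ge]) hi

lemma gz_le (s : Setting V E D lam D3 M) : 280000 * (gmax D lam * zmax D) ≤ D3 := by
  have h := s.gm
  have : 280 * (gmax D lam * zmax D) ≤ gmax D lam ^ 2 * zmax D := by
    nlinarith [mul_le_mul_of_nonneg_right s.gmax_big
      (mul_nonneg (by linarith [s.gmax_big] : 0 ≤ gmax D lam) (by linarith [s.two_le_zm] : 0 ≤ zmax D))]
  linarith

lemma zm_le (s : Setting V E D lam D3 M) : 1000 * zmax D ≤ D3 := by
  nlinarith [s.gz_le, s.gmax_big, s.two_le_zm]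

lemma gsq_le (s : Setting V E D lam D3 M) : 2000 * gmax D lam ^ 2 ≤ D3 := by
  nlinarith [s.gm, s.two_le_zm, sq_nonneg (gmax D lam)]

lemma lam_div_le (s : Setting V E D lam D3 M) : lam / √D ≤ gmax D lam / D3 := by
  have h : D3 ≤ √D := by
    rw [← Real.sqrt_sq s.D3_pos.le]; exact Real.sqrt_le_sqrt s.sq_le
  exact div_le_div₀ (by linarith [s.gmax_big]) s.lam_le_gmax s.D3_pos h

lemma small_dev (s : Setting V E D lam D3 M) : 3 * gmax D lam / (2 * D3) ≤ 1 / 1000 := by
  rw [div_le_iff₀ (by linarith [s.D3_pos])]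
  nlinarith [s.gz_le, s.two_le_zm, s.gmax_big]

lemma deg_le (s : Setting V E D lam D3 M) (e : α) : (deg E e : ℝ) ≤ 2 * D := by
  by_cases he : e ∈ V
  · have h := (abs_le.1 (s.reg.dev_le e he)).2
    unfold dev at h
    have h2 : lam / √D ≤ 1 := by
      refine s.lam_div_le.trans ?_
      rw [div_le_one s.D3_pos]
      nlinarith [s.gz_le, s.two_le_zm, s.gmax_big]
    have := (div_le_iff₀ s.D_pos).1 (show (deg E e : ℝ) / D ≤ 2 by linarith)
    linarith
  · have : deg E e = 0 := by
      refine card_eq_zero.2 (filter_eq_empty_iff.2 fun R hR heR => he (s.reg.lin.sub R hR heR))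
    rw [this]
    have := s.D_pos
    push_cast
    linarith

lemma mild_of_acc (s : Setting V E D lam D3 M) (hi : i < M)
    (hacc : ∀ R ∈ E, ∀ e ∈ R, accum E M R e i ≤ 1 / 4) : Mild V E M D (2 * D) i where
  lin := s.reg.lin
  lt := hi
  acc := hacc
  deg_le := s.deg_le
  one_le := by linarith [s.one_le_D]
  big := by nlinarith [s.M_ge]
  half_le := by linarith [s.one_le_D]
  dr := quarter_le_dref (by linarith [s.one_le_D]) s.M_pos hi.le

lemma win_acc_small (s : Setting V E D lam D3 M) (hi : i ≤ M) :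
    2 * zsum D M i / D ≤ 1 / 4 := by
  rw [div_le_iff₀ s.D_pos]
  linarith [s.zsum_le hi, s.zm_le, s.D3_le_D, s.D_pos]

lemma win_zero (s : Setting V E D lam D3 M) : Win V E D lam D3 M 0 := by
  have hrho : ∀ R : Finset α, ∀ e, Vale.Agent.P046.Full.rho E M R e 0 = 1 := fun R e => by
    simp [Vale.Agent.P046.Full.rho, wR, qf_zero, surv_zero]
  have hdev : ∀ e, fdev E M D e 0 = dev E D e := fun e => by
    simp [fdev, wdeg, hrho, dref_zero, dev, star, deg]
  constructor
  · intro R hR e he; simp [accum_zero, zsum_zero]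
  · intro R hR e he; simp [hrho, zsum_zero, dref_zero]
  · intro e he
    rw [hdev]
    simpa using s.reg.dev_le e he
  · intro e he
    have : fnbr E M D e 0 = nbrDev E D e := by
      simp [fnbr, nbrDev, hrho, dref_zero, partner, hdev, star]
    rw [this, zsum_zero, dref_zero]
    have h := s.reg.nbr_le e he
    rw [le_div_iff₀ s.D_pos] at h
    linarith

lemma zsum_small (s : Setting V E D lam D3 M) (hi : i ≤ M) :
    16 * gmax D lam / D3 * zsum D M i ≤ 1 := by
  rw [div_mul_eq_mul_div, div_le_one s.D3_pos]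
  have := mul_le_mul_of_nonneg_left (s.zsum_le hi) (by linarith [s.gmax_big] : 0 ≤ gmax D lam)
  have := mul_nonneg (by linarith [s.gmax_big] : 0 ≤ gmax D lam)
    (by linarith [s.two_le_zm] : 0 ≤ zmax D)
  linarith [s.gz_le]

lemma rho_le_of_win (s : Setting V E D lam D3 M) (hi : i ≤ M) (w : Win V E D lam D3 M i)
    {R : Finset α} (hR : R ∈ E) {e : α} (he : e ∈ R) :
    Vale.Agent.P046.Full.rho E M R e i ≤ 2 * dref D M i / D := by
  rw [le_div_iff₀ s.D_pos]
  refine (w.rho R hR e he).trans (mul_le_mul_of_nonneg_right ?_ (dref_pos s.D_pos i).le)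
  linarith [s.zsum_small hi]

lemma dev_le_of_win (s : Setting V E D lam D3 M) (w : Win V E D lam D3 M i) {e : α} (he : e ∈ V) :
    |fdev E M D e i| ≤ lam / √D + gmax D lam / (2 * dref D M i) := by
  refine (w.dev e he).trans ?_
  have := mul_le_mul_of_nonneg_left (step_div_le (M := M) s.D_pos i)
    (by linarith [s.gmax_big] : 0 ≤ gmax D lam)
  rw [mul_one_div] at this
  linarith

lemma win_mild (s : Setting V E D lam D3 M) (hi : i < M) (w : Win V E D lam D3 M i) :
    Mild V E M D (2 * D) i :=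
  s.mild_of_acc hi fun R hR e he => (w.acc R hR e he).trans (s.win_acc_small hi.le)

lemma window_dev_sup (s : Setting V E D lam D3 M) (hd : D3 ≤ dref D M i) :
    lam / √D + gmax D lam / (2 * dref D M i) ≤ 3 * gmax D lam / (2 * D3) := by
  have hgm := s.gmax_big
  have h1 := s.lam_div_le
  have h2 : gmax D lam / (2 * dref D M i) ≤ gmax D lam / (2 * D3) :=
    div_le_div_of_nonneg_left (by linarith) (by linarith [s.D3_pos]) (by linarith)
  have : 3 * gmax D lam / (2 * D3) = gmax D lam / D3 + gmax D lam / (2 * D3) := by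
    field_simp; ring
  linarith

lemma window_G_le (s : Setting V E D lam D3 M) (hi : i ≤ M) :
    0 ≤ lam + 130 * lam ^ 2 * zsum D M i ∧
      lam + 130 * lam ^ 2 * zsum D M i + 13 ≤ gmax D lam := by
  have h2 := mul_le_mul_of_nonneg_left (s.zsum_le hi) (by positivity : 0 ≤ 130 * lam ^ 2)
  have h3 : 2 * lam ^ 2 ≤ lam ^ 2 * zmax D := by nlinarith [s.two_le_zm, sq_nonneg lam]
  have h4 : lam ≤ lam ^ 2 := by nlinarith [s.reg.one_le_lam]
  have h5 := zsum_nonneg (M := M) s.D_pos i
  have h6 := s.reg.one_le_lam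
  refine ⟨by positivity, ?_⟩
  unfold gmax
  linarith [s.one_le_sq_lam]

lemma piv_le_rho {V : Finset α} {Δ : ℝ} (hm : Mild V E M D Δ i) {R : Finset α} (hR : R ∈ E)
    {e : α} (he : e ∈ R) : piv E M R e i ≤ Vale.Agent.P046.Full.rho E M R e i := by
  rw [hm.rho_eq hR he, le_div_iff₀ (by linarith [hm.acc R hR e he])]
  nlinarith [(piv_mem_unit (M := M) E R e hm.lt.le).1, accum_nonneg (M := M) E R e hm.lt.le]

lemma rho3_le_of_win (s : Setting V E D lam D3 M) (hi : i ≤ M) (w : Win V E D lam D3 M i)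
    {R : Finset α} (hR : R ∈ E) : rho3 E M R i ≤ 6 * dref D M i / D := by
  calc rho3 E M R i ≤ ∑ _f ∈ R, 2 * dref D M i / D :=
        sum_le_sum fun f hf => s.rho_le_of_win hi w hR hf
    _ = 6 * dref D M i / D := by rw [sum_const, s.reg.lin.three R hR, nsmul_eq_mul]; ring

lemma wdeg_eq (s : Setting V E D lam D3 M) (f : α) :
    wdeg E M f i = dref D M i * (1 + fdev E M D f i) := by
  have := (dref_pos (M := M) s.D_pos i).ne'
  unfold fdev
  field_simp
  ring

lemma self_le_of_win (s : Setting V E D lam D3 M) (hi : i < M) (hd : D3 ≤ dref D M i)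
    (w : Win V E D lam D3 M i) {f : α} (hf : f ∈ V) :
    selfTerm E M D f i ≤ 12 * dref D M i / D := by
  have hm := s.win_mild hi w
  have hdp := dref_pos (M := M) s.D_pos i
  have hD := s.D_pos
  have hY : wdeg E M f i ≤ dref D M i * 2 := by
    rw [s.wdeg_eq f]
    refine mul_le_mul_of_nonneg_left ?_ hdp.le
    linarith [(abs_le.1 (s.dev_le_of_win w hf)).2, s.window_dev_sup hd, s.small_dev]
  unfold selfTerm
  rw [div_le_iff₀ hdp]
  calc ∑ R ∈ star E f, Vale.Agent.P046.Full.rho E M R f i * rho3 E M R i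
      ≤ ∑ R ∈ star E f, Vale.Agent.P046.Full.rho E M R f i * (6 * dref D M i / D) :=
        sum_le_sum fun R hR => mul_le_mul_of_nonneg_left
          (s.rho3_le_of_win hi.le w (mem_filter.1 hR).1) (hm.rho_pos R f).le
    _ = wdeg E M f i * (6 * dref D M i / D) := by rw [wdeg, sum_mul]
    _ ≤ dref D M i * 2 * (6 * dref D M i / D) := mul_le_mul_of_nonneg_right hY (by positivity)
    _ = _ := by ring

lemma small_sq_le (s : Setting V E D lam D3 M) (hi : i ≤ M) {C : ℝ} (hC : 4 * C ≤ M) :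
    C / (M : ℝ) ^ 2 ≤ dref D M i / M := by
  have hM := s.M_posR
  have hq := quarter_le_dref (M := M) (by linarith [s.one_le_D] : 1 / 2 ≤ D) s.M_pos hi
  rw [sq, ← div_div]
  refine div_le_div_of_nonneg_right ?_ hM.le
  rw [div_le_iff₀ hM]
  linarith [mul_le_mul_of_nonneg_right hq hM.le]

lemma win_acc_step (s : Setting V E D lam D3 M) (hi : i < M)
    (w : Win V E D lam D3 M i) {R : Finset α} (hR : R ∈ E) {e : α} (he : e ∈ R) :
    accum E M R e (i + 1) ≤ 2 * zsum D M (i + 1) / D := by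
  have hp := (piv_le_rho (s.win_mild hi w) hR he).trans (s.rho_le_of_win hi.le w hR he)
  have h1 : piv E M R e i / M ≤ 2 * dref D M i / D / M :=
    div_le_div_of_nonneg_right hp s.M_posR.le
  have e1 : 2 * (zsum D M i + dref D M i / M) / D
      = 2 * zsum D M i / D + 2 * dref D M i / D / M := by ring
  rw [accum_succ, zsum_succ, e1]
  linarith [w.acc R hR e he]

lemma win_rate (s : Setting V E D lam D3 M) (hi : i < M) (hd : D3 ≤ dref D M i)
    (w : Win V E D lam D3 M i) {R : Finset α} (hR : R ∈ E) {e : α} (he : e ∈ R) :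
    -(Mild.rateOf E M R e i / M) + 60 * (2 * D / M) ^ 2
      ≤ -2 * (dref D M i / M) + 4 * gmax D lam / D3 * (dref D M i / M) := by
  have hm := s.win_mild hi w
  have hM := s.M_posR
  have hD := s.D_pos
  have hdp := dref_pos (M := M) hD i
  set d := dref D M i with hdd
  set U := 3 * gmax D lam / (2 * D3) with hU
  have h1 : 2 * d * (1 - U) - 6 * d / D ≤ Mild.rateOf E M R e i := by
    have h2 : 2 * (d * (1 - U)) ≤ ∑ f ∈ R.erase e, wdeg E M f i := by
      calc 2 * (d * (1 - U)) = ∑ _f ∈ R.erase e, d * (1 - U) := by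
            rw [sum_const, hm.card_erase_two hR he, nsmul_eq_mul]; norm_num
        _ ≤ _ := sum_le_sum fun f hf => by
            rw [s.wdeg_eq f]
            refine mul_le_mul_of_nonneg_left ?_ hdp.le
            have := (abs_le.1 (s.dev_le_of_win w
              (s.reg.lin.sub R hR (mem_of_mem_erase hf)))).1
            linarith [s.window_dev_sup hd]
    have := s.rho3_le_of_win hi.le w hR
    unfold Mild.rateOf
    linarith
  have h3 : 60 * (2 * D / (M:ℝ)) ^ 2 ≤ d / M * (1 / D) := by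
    have h4 := s.small_sq_le (C := 240 * D ^ 3) hi.le (by
      have h : D ^ 3 ≤ D ^ 9 := pow_le_pow_right₀ s.one_le_D (by norm_num)
      linarith [s.M_big, pow_pos hD 3])
    calc 60 * (2 * D / (M:ℝ)) ^ 2 = 240 * D ^ 3 / M ^ 2 * (1 / D) := by field_simp; ring
      _ ≤ _ := mul_le_mul_of_nonneg_right h4 (by positivity)
  have h5 : 2 * U + 7 / D ≤ 4 * gmax D lam / D3 := by
    have h6 : 7 / D ≤ gmax D lam / D3 :=
      div_le_div₀ (by linarith [s.gmax_big]) (by linarith [s.gmax_big]) s.D3_pos s.D3_le_D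
    have h7 : 2 * U + gmax D lam / D3 = 4 * gmax D lam / D3 := by
      rw [hU]; field_simp; ring
    linarith
  have hz0 : 0 ≤ d / M := by positivity
  have h9 := mul_le_mul_of_nonneg_left h5 hz0
  have h10 : (2 * d * (1 - U) - 6 * d / D) / M ≤ Mild.rateOf E M R e i / M :=
    div_le_div_of_nonneg_right h1 hM.le
  ring_nf at h3 h9 h10 ⊢
  linarith

lemma win_rho_step (s : Setting V E D lam D3 M) (hi : i < M) (hd : D3 ≤ dref D M i)
    (w : Win V E D lam D3 M i) {R : Finset α} (hR : R ∈ E) {e : α} (he : e ∈ R) :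
    Vale.Agent.P046.Full.rho E M R e (i + 1) * D
      ≤ (1 + 16 * gmax D lam / D3 * zsum D M (i + 1)) * dref D M (i + 1) := by
  have hm := s.win_mild hi w
  have hrate := s.win_rate hi hd w hR he
  have hD := s.D_pos
  have hdp := dref_pos (M := M) hD i
  have hd'p := dref_pos (M := M) hD (i + 1)
  have hd' := dref_mul_succ (M := M) hD i
  have hz0 : 0 ≤ dref D M i / M := div_nonneg hdp.le s.M_posR.le
  have hz4 : dref D M i / M ≤ 1 / 4 := by
    rw [div_le_iff₀ s.M_posR]
    nlinarith [dref_le (M := M) hD i, s.M_ge, s.one_le_D]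
  set κ := 4 * gmax D lam / D3 with hκ
  set X := 1 + 16 * gmax D lam / D3 * zsum D M i with hX
  set z := dref D M i / M with hz
  have hrp := hm.rho_pos R e
  have h1 : Vale.Agent.P046.Full.rho E M R e (i + 1)
      ≤ Vale.Agent.P046.Full.rho E M R e i * (1 - 2 * z + κ * z) := by
    have h := (abs_le.1 (hm.rho_succ hR he)).2
    have h' := mul_le_mul_of_nonneg_left hrate hrp.le
    ring_nf at h h' ⊢
    linarith
  have hκ0 : 0 ≤ κ := by have := s.D3_pos; have := s.gmax_big; positivity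
  have hX2 : X ≤ 2 := by linarith [s.zsum_small hi.le]
  have hX0 : 0 ≤ X := by
    have := zsum_nonneg (M := M) hD i; have := s.D3_pos; have := s.gmax_big; positivity
  have hκz := mul_nonneg hκ0 hz0
  have hf0 : 0 ≤ 1 - 2 * z + κ * z := by linarith
  have h2 : Vale.Agent.P046.Full.rho E M R e (i + 1) * D
      ≤ X * dref D M i * (1 - 2 * z + κ * z) := by
    calc _ ≤ Vale.Agent.P046.Full.rho E M R e i * (1 - 2 * z + κ * z) * D :=
          mul_le_mul_of_nonneg_right h1 hD.le
      _ = Vale.Agent.P046.Full.rho E M R e i * D * (1 - 2 * z + κ * z) := by ring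
      _ ≤ _ := mul_le_mul_of_nonneg_right (w.rho R hR e he) hf0
  have h3 : (1 + 2 * z) * (1 - 2 * z + κ * z) ≤ 1 + 2 * (κ * z) := by
    have := mul_le_mul_of_nonneg_left hz4 hκz
    nlinarith [mul_nonneg hz0 hz0]
  have h4 : X * dref D M i * (1 - 2 * z + κ * z) ≤ (X + 4 * (κ * z)) * dref D M (i + 1) := by
    calc X * dref D M i * (1 - 2 * z + κ * z)
        = dref D M (i + 1) * (X * ((1 + 2 * z) * (1 - 2 * z + κ * z))) := by rw [← hd']; ring
      _ ≤ dref D M (i + 1) * (X * (1 + 2 * (κ * z))) :=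
          mul_le_mul_of_nonneg_left (mul_le_mul_of_nonneg_left h3 hX0) hd'p.le
      _ ≤ _ := by
          have := mul_le_mul_of_nonneg_left (mul_le_mul_of_nonneg_right hX2 hκz) hd'p.le
          linarith
  have h5 : 1 + 16 * gmax D lam / D3 * zsum D M (i + 1) = X + 4 * (κ * z) := by
    rw [zsum_succ, hX, hκ]; ring
  rw [h5]
  linarith

lemma win_dev_step (s : Setting V E D lam D3 M) (hi : i < M) (hd : D3 ≤ dref D M i)
    (w : Win V E D lam D3 M i) {e : α} (he : e ∈ V) :
    |fdev E M D e (i + 1)| ≤ lam / √D + gmax D lam * (((i + 1 : ℕ) : ℝ) / M) := by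
  have hm := s.win_mild hi w
  have hD := s.D_pos
  have hM := s.M_posR
  have hdp := dref_pos (M := M) hD i
  have hself : selfTerm E M D e i ≤ 12 := by
    refine (s.self_le_of_win hi hd w he).trans ?_
    rw [div_le_iff₀ hD]; linarith [dref_le (M := M) hD i]
  have h1 := hm.fdev_succ e
  have hnb : |dref D M i * fnbr E M D e i| ≤ lam + 130 * lam ^ 2 * zsum D M i := by
    rw [abs_mul, abs_of_pos hdp, mul_comm]; exact w.nbr e he
  have hG' := (s.window_G_le hi.le).2
  have he2 : 700 * (2 * D) ^ 3 / (M:ℝ) ^ 2 ≤ 1 / M := by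
    rw [div_le_div_iff₀ (by positivity) hM, one_mul, sq]
    refine mul_le_mul_of_nonneg_right ?_ hM.le
    have : D ^ 3 ≤ D ^ 9 := pow_le_pow_right₀ s.one_le_D (by norm_num)
    linarith [s.M_big, pow_pos hD 3, (show (2 * D) ^ 3 = 8 * D ^ 3 by ring)]
  set S := (-(dref D M i * fnbr E M D e i) + selfTerm E M D e i) / (M:ℝ) with hS
  have h5 : |S| ≤ (gmax D lam - 1) / M := by
    rw [hS, abs_div, abs_of_pos hM]
    refine div_le_div_of_nonneg_right ((abs_add_le _ _).trans ?_) hM.le
    rw [abs_neg, abs_of_nonneg (hm.selfTerm_nonneg e)]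
    linarith
  have h6 := abs_add_three (fdev E M D e (i + 1) - fdev E M D e i - S) (fdev E M D e i) S
  have e1 : fdev E M D e (i + 1) - fdev E M D e i - S + fdev E M D e i + S
      = fdev E M D e (i + 1) := by ring
  rw [e1] at h6
  have h7 : (gmax D lam - 1) / (M:ℝ) + 1 / M = gmax D lam / M := by ring
  have h8 : gmax D lam * (((i + 1 : ℕ) : ℝ) / M) = gmax D lam * (i / M) + gmax D lam / M := by
    push_cast; ring
  rw [h8]
  linarith [w.dev e he]

lemma win_drift (s : Setting V E D lam D3 M) (hi : i < M) (hd : D3 ≤ dref D M i)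
    (w : Win V E D lam D3 M i) {e : α} (he : e ∈ V) :
    |fnbrDrift E M D e i| * dref D M i
      ≤ dref D M i * (8 * (dref D M i * (lam / √D + gmax D lam / (2 * dref D M i)) ^ 2) + 72
        + 2 * (1 + (lam / √D + gmax D lam / (2 * dref D M i)))
          * (lam + 130 * lam ^ 2 * zsum D M i)) := by
  have hm := s.win_mild hi w
  have hD := s.D_pos
  have hdp := dref_pos (M := M) hD i
  set d := dref D M i with hdd
  set U := lam / √D + gmax D lam / (2 * d) with hU
  set G := lam + 130 * lam ^ 2 * zsum D M i with hG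
  have hG0 : 0 ≤ G := (s.window_G_le hi.le).1
  have hU0 : 0 ≤ U := by
    have := s.reg.one_le_lam; have := s.gmax_big; positivity
  have hU1 : U ≤ 1 := by linarith [s.window_dev_sup hd, s.small_dev]
  have hsub : ∀ R ∈ E, ∀ f ∈ R, f ∈ V := fun R hR f hf => s.reg.lin.sub R hR hf
  have hp : ∀ R ∈ star E e, |partner E M D R e i| ≤ 2 * U := fun R hR => by
    obtain ⟨h1, h2⟩ := mem_filter.1 hR
    exact hm.sum_erase_abs h1 h2 _ fun f hf =>
      s.dev_le_of_win w (hsub R h1 f (mem_of_mem_erase hf))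
  have hYu : wdeg E M e i ≤ d * (1 + U) := by
    rw [s.wdeg_eq e]
    exact mul_le_mul_of_nonneg_left
      (by linarith [(abs_le.1 (s.dev_le_of_win w he)).2]) hdp.le
  have hY' : wdeg E M e i ≤ d * 2 :=
    hYu.trans (mul_le_mul_of_nonneg_left (by linarith) hdp.le)
  set Y := wdeg E M e i with hYdef
  have hY0 : 0 ≤ Y := hm.wdeg_nonneg e
  have hstar : ∀ (F : Finset α → ℝ) (C : ℝ), (∀ R ∈ star E e, |F R| ≤ C) →
      |∑ R ∈ star E e, Vale.Agent.P046.Full.rho E M R e i * F R| ≤ Y * C := by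
    intro F C hF
    refine (abs_sum_le_sum_abs _ _).trans ?_
    rw [hYdef, wdeg, sum_mul]
    refine sum_le_sum fun R hR => ?_
    rw [abs_mul, abs_of_pos (hm.rho_pos R e)]
    exact mul_le_mul_of_nonneg_left (hF R hR) (hm.rho_pos R e).le
  have hdD : d / D ≤ 1 := (div_le_one hD).2 (dref_le hD i)
  have T1 : |∑ R ∈ star E e, Vale.Agent.P046.Full.rho E M R e i * partner E M D R e i ^ 2|
      ≤ Y * (4 * U ^ 2) := hstar _ _ fun R hR => by
    rw [abs_pow]
    calc |partner E M D R e i| ^ 2 ≤ (2 * U) ^ 2 := pow_le_pow_left₀ (abs_nonneg _) (hp R hR) 2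
      _ = _ := by ring
  have T2 : |∑ R ∈ star E e, Vale.Agent.P046.Full.rho E M R e i * rho3 E M R i
      * partner E M D R e i| ≤ Y * 12 := by
    simp only [mul_assoc]
    refine hstar _ _ fun R hR => ?_
    rw [abs_mul, abs_of_nonneg (hm.rho3_nonneg R)]
    calc rho3 E M R i * |partner E M D R e i| ≤ 6 * (2 * 1) := by
          refine mul_le_mul ?_ ((hp R hR).trans (by linarith)) (abs_nonneg _) (by norm_num)
          refine (s.rho3_le_of_win hi.le w (mem_filter.1 hR).1).trans ?_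
          rw [← hdd, mul_div_assoc]; linarith
      _ = _ := by norm_num
  have T3 : |∑ R ∈ star E e, Vale.Agent.P046.Full.rho E M R e i
      * ∑ f ∈ R.erase e, fnbr E M D f i| ≤ Y * (2 * (G / d)) := hstar _ _ fun R hR => by
    obtain ⟨h1, h2⟩ := mem_filter.1 hR
    exact hm.sum_erase_abs h1 h2 _ fun f hf => by
      rw [le_div_iff₀ hdp]; exact w.nbr f (hsub R h1 f (mem_of_mem_erase hf))
  have T4 : |∑ R ∈ star E e, Vale.Agent.P046.Full.rho E M R e i
      * ∑ f ∈ R.erase e, selfTerm E M D f i| ≤ Y * 24 := hstar _ _ fun R hR => by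
    obtain ⟨h1, h2⟩ := mem_filter.1 hR
    refine (hm.sum_erase_abs h1 h2 _ (C := 12) fun f hf => ?_).trans (by norm_num)
    rw [abs_of_nonneg (hm.selfTerm_nonneg f)]
    refine (s.self_le_of_win hi hd w (hsub R h1 f (mem_of_mem_erase hf))).trans ?_
    rw [← hdd, mul_div_assoc]; linarith
  unfold fnbrDrift
  rw [← hdd]
  have hab : ∀ a b c x : ℝ, |(-a + b - c + x)| ≤ |a| + |b| + |c| + |x| := fun a b c x => by
    refine (abs_add_le _ _).trans (add_le_add ((abs_sub _ _).trans (add_le_add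
      ((abs_add_le _ _).trans ?_) le_rfl)) le_rfl)
    rw [abs_neg]
  refine (mul_le_mul_of_nonneg_right (hab _ _ _ _) hdp.le).trans ?_
  rw [abs_div, abs_div, abs_of_pos hdp, add_mul, add_mul, add_mul, div_mul_cancel₀ _ hdp.ne',
    div_mul_cancel₀ _ hdp.ne']
  have a1 := mul_le_mul_of_nonneg_right T1 hdp.le
  have a3 := mul_le_mul_of_nonneg_right T3 hdp.le
  have e3 : Y * (2 * (G / d)) * d = 2 * (Y * G) := by field_simp
  have b1 : Y * (4 * U ^ 2) * d ≤ d * 2 * (4 * U ^ 2) * d :=
    mul_le_mul_of_nonneg_right (mul_le_mul_of_nonneg_right hY' (by positivity)) hdp.le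
  have b3 : Y * G ≤ d * (1 + U) * G := mul_le_mul_of_nonneg_right hYu hG0
  ring_nf at a1 a3 e3 b1 b3 T2 T4 hY' ⊢
  linarith

lemma win_window_sq (s : Setting V E D lam D3 M) (hd : D3 ≤ dref D M i) :
    dref D M i * (lam / √D + gmax D lam / (2 * dref D M i)) ^ 2 ≤ 2 * lam ^ 2 + 1 := by
  have hD := s.D_pos
  have hdp := dref_pos (M := M) hD i
  set d := dref D M i
  set a := lam / √D with ha
  set b := gmax D lam / (2 * d) with hb
  have h2 : (a + b) ^ 2 ≤ 2 * a ^ 2 + 2 * b ^ 2 := by linarith [sq_nonneg (a - b),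
    (show (a + b) ^ 2 = 2 * a ^ 2 + 2 * b ^ 2 - (a - b) ^ 2 by ring)]
  have h3 : d * a ^ 2 ≤ lam ^ 2 := by
    rw [ha, div_pow, Real.sq_sqrt hD.le, mul_div_assoc', div_le_iff₀ hD, mul_comm]
    exact mul_le_mul_of_nonneg_left (dref_le hD i) (sq_nonneg lam)
  have h4 : d * b ^ 2 ≤ 1 / 2 := by
    have h5 : gmax D lam ^ 2 ≤ d := by linarith [s.gsq_le, sq_nonneg (gmax D lam)]
    have e : d * b ^ 2 = gmax D lam ^ 2 / (4 * d) := by rw [hb]; field_simp; ring
    rw [e, div_le_iff₀ (by linarith)]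
    linarith
  linarith [mul_le_mul_of_nonneg_left h2 hdp.le]

lemma win_window_UG (s : Setting V E D lam D3 M) (hi : i < M) (hd : D3 ≤ dref D M i) :
    (lam / √D + gmax D lam / (2 * dref D M i)) * (lam + 130 * lam ^ 2 * zsum D M i) ≤ 1 := by
  obtain ⟨hG0, hG⟩ := s.window_G_le hi.le
  calc _ ≤ 3 * gmax D lam / (2 * D3) * gmax D lam :=
        mul_le_mul (s.window_dev_sup hd) (by linarith) hG0
          (by have := s.D3_pos; have := s.gmax_big; positivity)
    _ ≤ 1 := by
        rw [div_mul_eq_mul_div, div_le_one (by linarith [s.D3_pos])]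
        linarith [s.gsq_le, sq_nonneg (gmax D lam), (show 3 * gmax D lam * gmax D lam
          = 3 * gmax D lam ^ 2 by ring)]

lemma win_nbr_step (s : Setting V E D lam D3 M) (hi : i < M) (hd : D3 ≤ dref D M i)
    (w : Win V E D lam D3 M i) {e : α} (he : e ∈ V) :
    |fnbr E M D e (i + 1)| * dref D M (i + 1) ≤ lam + 130 * lam ^ 2 * zsum D M (i + 1) := by
  have hm := s.win_mild hi w
  have hD := s.D_pos
  have hM := s.M_posR
  have hdp := dref_pos (M := M) hD i
  have hd' := dref_mul_succ (M := M) hD i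
  have hdrift := s.win_drift hi hd w he
  have hU2 := s.win_window_sq hd
  have hUG := s.win_window_UG hi hd
  have hexp := hm.fnbr_succ e
  have c := w.nbr e he
  set d := dref D M i with hdd
  set U := lam / √D + gmax D lam / (2 * d) with hU
  set G := lam + 130 * lam ^ 2 * zsum D M i with hG
  set z := d / M with hz
  have hz0 : 0 ≤ z := by positivity
  have herr : 40000 * (2 * D) ^ 4 / (M:ℝ) ^ 2 * d ≤ z := by
    calc 40000 * (2 * D) ^ 4 / (M:ℝ) ^ 2 * d ≤ 40000 * (2 * D) ^ 4 / (M:ℝ) ^ 2 * D :=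
          mul_le_mul_of_nonneg_left (dref_le hD i) (by positivity)
      _ = 640000 * D ^ 5 / M ^ 2 := by ring
      _ ≤ z := s.small_sq_le hi.le (by
        have : D ^ 5 ≤ D ^ 9 := pow_le_pow_right₀ s.one_le_D (by norm_num)
        linarith [s.M_big, pow_pos hD 5])
  set r' := fnbr E M D e (i + 1) with hr'
  set δ := fnbrDrift E M D e i / (M:ℝ) with hδ
  have h1 := abs_add_three (r' - fnbr E M D e i - δ) (fnbr E M D e i) δ
  have e1 : r' - fnbr E M D e i - δ + fnbr E M D e i + δ = r' := by ring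
  rw [e1] at h1
  have b : |δ| * d ≤ z * (8 * (d * U ^ 2) + 72 + 2 * (1 + U) * G) := by
    rw [hδ, abs_div, abs_of_pos hM, div_mul_eq_mul_div, hz, div_mul_eq_mul_div]
    exact div_le_div_of_nonneg_right hdrift hM.le
  have a := mul_le_mul_of_nonneg_right (h1.trans (add_le_add (add_le_add hexp le_rfl) le_rfl))
    hdp.le
  rw [add_mul, add_mul] at a
  have h2 : |r'| * d ≤ G + z * (8 * (d * U ^ 2) + 72 + 2 * G + 2 * (U * G)) + z := by
    have e2 : z * (8 * (d * U ^ 2) + 72 + 2 * (1 + U) * G)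
        = z * (8 * (d * U ^ 2) + 72 + 2 * G + 2 * (U * G)) := by ring
    linarith
  have hlam1 := s.one_le_sq_lam
  have h3 : |r'| * d ≤ (G + 130 * lam ^ 2 * z) * (1 + 2 * z) := by
    have hb : z * (8 * (d * U ^ 2) + 72 + 2 * (U * G) + 1) ≤ z * (130 * lam ^ 2) :=
      mul_le_mul_of_nonneg_left (by linarith) hz0
    have hc : 0 ≤ 260 * lam ^ 2 * (z * z) := by positivity
    ring_nf at h2 hb hc ⊢
    linarith
  have h4 : lam + 130 * lam ^ 2 * zsum D M (i + 1) = G + 130 * lam ^ 2 * z := by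
    rw [zsum_succ, hG]; ring
  rw [h4]
  refine le_of_mul_le_mul_right ?_ (by linarith : (0:ℝ) < 1 + 2 * z)
  rw [mul_assoc, hd']
  exact h3

lemma win_step (s : Setting V E D lam D3 M) (hi : i < M) (hd : D3 ≤ dref D M i)
    (w : Win V E D lam D3 M i) : Win V E D lam D3 M (i + 1) where
  acc _ hR _ he := s.win_acc_step hi w hR he
  rho _ hR _ he := s.win_rho_step hi hd w hR he
  dev _ he := s.win_dev_step hi hd w he
  nbr _ he := s.win_nbr_step hi hd w he

lemma window (s : Setting V E D lam D3 M) :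
    ∀ i ≤ cutAt D M D3, Win V E D lam D3 M i := by
  intro i
  obtain ⟨hlt, -, -, -, hge⟩ := cutAt_spec (a := D3) s.D_pos s.M_pos (by linarith [s.big])
    s.D3_le_D (by nlinarith [s.M_ge, s.one_le_D])
  induction i with
  | zero => exact fun _ => s.win_zero
  | succ i ih =>
    intro hi
    exact s.win_step (by omega) (hge i (by omega)) (ih (by omega))

lemma cut_spec (s : Setting V E D lam D3 M) {a : ℝ} (ha : D3 ≤ a) (haD : a ≤ D) :
    cutAt D M a < M ∧ a ≤ dref D M (cutAt D M a) ∧ dref D M (cutAt D M a) ≤ 2 * a ∧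
      (∀ i, i ≤ M → a ≤ dref D M i → i ≤ cutAt D M a) ∧
      (∀ i, i ≤ cutAt D M a → a ≤ dref D M i) :=
  cutAt_spec s.D_pos s.M_pos (by linarith [s.big]) haD (by nlinarith [s.M_ge, s.one_le_D])

lemma win_of_ge (s : Setting V E D lam D3 M) (hi : i ≤ M) (hd : D3 ≤ dref D M i) :
    Win V E D lam D3 M i :=
  s.window i ((s.cut_spec le_rfl s.D3_le_D).2.2.2.1 i hi hd)

lemma acc_le (s : Setting V E D lam D3 M) (hi : i ≤ M) {R : Finset α} (hR : R ∈ E) {e : α}
    (he : e ∈ R) : accum E M R e i ≤ 5 * D3 / D := by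
  obtain ⟨hlt, hτ, hτ2, -, -⟩ := s.cut_spec le_rfl s.D3_le_D
  set τ := cutAt D M D3
  have hD := s.D_pos
  have key : ∀ l ≤ τ, accum E M R e l ≤ D3 / D := fun l hl => by
    refine ((s.window l hl).acc R hR e he).trans (div_le_div_of_nonneg_right ?_ hD.le)
    linarith [s.zsum_le (show l ≤ M by omega), s.zm_le, s.D3_pos]
  rcases le_or_gt i τ with h | h
  · refine (key i h).trans (div_le_div_of_nonneg_right ?_ hD.le)
    linarith [s.D3_pos]
  · have hsplit : accum E M R e i
        = accum E M R e τ + (∑ l ∈ Ico τ i, piv E M R e l) / M := by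
      rw [accum, accum, ← add_div, sum_range_add_sum_Ico _ h.le]
    have hm := s.mild_of_acc hlt fun R hR e he =>
      ((s.window τ le_rfl).acc R hR e he).trans (s.win_acc_small hlt.le)
    have hp : piv E M R e τ ≤ 4 * D3 / D := by
      refine (piv_le_rho hm hR he).trans ((s.rho_le_of_win hlt.le (s.window τ le_rfl) hR he).trans ?_)
      exact div_le_div_of_nonneg_right (by linarith) hD.le
    have h2 : (∑ l ∈ Ico τ i, piv E M R e l) / M ≤ 4 * D3 / D := by
      rw [div_le_iff₀ s.M_posR]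
      calc ∑ l ∈ Ico τ i, piv E M R e l ≤ ∑ _l ∈ Ico τ i, 4 * D3 / D :=
            sum_le_sum fun l hl => by
              obtain ⟨h3, h4⟩ := mem_Ico.1 hl
              exact (piv_le_of_le E R e h3 (by omega)).trans hp
        _ = ((i - τ : ℕ) : ℝ) * (4 * D3 / D) := by rw [sum_const, Nat.card_Ico, nsmul_eq_mul]
        _ ≤ (M : ℝ) * (4 * D3 / D) := by
            refine mul_le_mul_of_nonneg_right ?_ (by have := s.D3_pos; positivity)
            exact_mod_cast (show i - τ ≤ M by omega)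
        _ = _ := by ring
    have h3 : D3 / D + 4 * D3 / D = 5 * D3 / D := by ring
    linarith [key τ le_rfl]

lemma eta_small (s : Setting V E D lam D3 M) : 5 * D3 / D ≤ 1 / 100 := by
  rw [div_le_iff₀ s.D_pos]
  nlinarith [s.sq_le, s.big]

lemma mild (s : Setting V E D lam D3 M) (hi : i < M) : Mild V E M D (2 * D) i :=
  s.mild_of_acc hi fun R hR e he => (s.acc_le hi.le hR he).trans (by linarith [s.eta_small])

/-- Rates at later times are controlled by the reference at an earlier time of the window. -/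
lemma rho_le (s : Setting V E D lam D3 M) (hi : i < M) {a : ℕ} (ha : a ≤ i)
    (hd : D3 ≤ dref D M a) {R : Finset α} (hR : R ∈ E) {e : α} (he : e ∈ R) :
    Vale.Agent.P046.Full.rho E M R e i ≤ 3 * dref D M a / D := by
  have ham : a ≤ M := by omega
  have h1 := (piv_le_rho (s.mild (by omega : a < M)) hR he).trans
    (s.rho_le_of_win ham (s.win_of_ge ham hd) hR he)
  have h2 := piv_le_of_le (M := M) E R e ha hi.le
  have h3 := s.acc_le hi.le hR he
  have h5 := s.eta_small
  rw [(s.mild hi).rho_eq hR he, div_le_iff₀ (by linarith)]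
  have h0 : 0 ≤ dref D M a / D := div_nonneg (dref_pos s.D_pos a).le s.D_pos.le
  have h6 : 3 * dref D M a / D * (1 - accum E M R e i)
      = 2 * dref D M a / D + dref D M a / D * (1 - 3 * accum E M R e i) := by ring
  rw [h6]
  nlinarith

/-- The deviation in the window. -/
lemma dev_le (s : Setting V E D lam D3 M) (hi : i ≤ M) (hd : D3 ≤ dref D M i) {e : α}
    (he : e ∈ V) : |fdev E M D e i| ≤ lam / √D + gmax D lam / (2 * dref D M i) :=
  s.dev_le_of_win (s.win_of_ge hi hd) he

end Setting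

end

end Vale.Agent.P046.Full
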