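import Vale.Agent.P046.Ineq
import Vale.Agent.P046.Profile
import Vale.Agent.P046.Full.Flow.Window

/-!
The Lyapunov functional of the flow and the conservation of `mass / √d`.
-/

namespace Vale.Agent.P046.Full

open Finset

noncomputable section

variable {α : Type*} [DecidableEq α]

/-- Expected number of uncovered points. -/
def fmass (V : Finset α) (E : Finset (Finset α)) (M i : ℕ) : ℝ := ∑ e ∈ V, surv E M e i

/-- Weighted sum of the profile. -/
def hpot (V : Finset α) (E : Finset (Finset α)) (M : ℕ) (D : ℝ) (i : ℕ) : ℝ :=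
  ∑ e ∈ V, surv E M e i * prof (fdev E M D e i)

/-- The dissipation at one hyperedge. -/
def keyR (E : Finset (Finset α)) (M : ℕ) (D : ℝ) (R : Finset α) (i : ℕ) : ℝ :=
  ∑ x ∈ R, diss (fdev E M D x i)
    + (∑ x ∈ R, fdev E M D x i) * ∑ x ∈ R, profDeriv (fdev E M D x i)

/-- The total dissipation. -/
def kdiss (E : Finset (Finset α)) (M : ℕ) (D : ℝ) (i : ℕ) : ℝ :=
  ∑ R ∈ E, wR E M R i * keyR E M D R i

lemma sum_star_swap {V : Finset α} {E : Finset (Finset α)} (h : Lin V E)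
    (F : α → Finset α → ℝ) :
    ∑ e ∈ V, ∑ R ∈ star E e, F e R = ∑ R ∈ E, ∑ e ∈ R, F e R := by
  refine sum_comm' fun e R => ?_
  simp only [star, mem_filter]
  constructor
  · rintro ⟨-, h2, h3⟩; exact ⟨h3, h2⟩
  · rintro ⟨h1, h2⟩; exact ⟨h.sub R h2 h1, h2, h1⟩

lemma affine_growth {x c z : ℕ → ℝ} {θ C : ℝ} {a b : ℕ} (hθ : 0 ≤ θ) (hxa : 0 ≤ x a)
    (hz : ∀ l, 0 ≤ z l) (hc : ∀ l, 0 ≤ c l) (hC : ∑ l ∈ Ico a b, c l ≤ C)
    (hZ : θ * ∑ l ∈ Ico a b, z l ≤ 1 / 4)
    (step : ∀ l ∈ Ico a b, |x (l + 1) - x l| ≤ θ * z l * x l + c l) :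
    ∀ i, a ≤ i → i ≤ b →
      |x i - x a| ≤ θ * (∑ l ∈ Ico a i, z l) * (2 * x a + 2 * C) + ∑ l ∈ Ico a i, c l := by
  have hC0 : 0 ≤ C := le_trans (sum_nonneg fun l _ => hc l) hC
  intro i hi
  induction hi with
  | refl => simp
  | @step i hi ih =>
    intro hib
    have hmem : i ∈ Ico a b := mem_Ico.2 ⟨hi, by omega⟩
    have h1 := ih (by omega)
    have hsub : Ico a i ⊆ Ico a b := Ico_subset_Ico_right (by omega)
    have hz1 : θ * ∑ l ∈ Ico a i, z l ≤ 1 / 4 :=
      le_trans (mul_le_mul_of_nonneg_left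
        (sum_le_sum_of_subset_of_nonneg hsub fun l _ _ => hz l) hθ) hZ
    have hc1 : ∑ l ∈ Ico a i, c l ≤ C :=
      le_trans (sum_le_sum_of_subset_of_nonneg hsub fun l _ _ => hc l) hC
    have h2 := mul_le_mul_of_nonneg_right hz1 (by positivity : (0:ℝ) ≤ 2 * x a + 2 * C)
    have hxi : x i ≤ 2 * x a + 2 * C := by linarith [(abs_le.1 h1).2]
    have h3 := step i hmem
    have h4 := mul_le_mul_of_nonneg_left hxi (mul_nonneg hθ (hz i))
    have h5 : |x (i + 1) - x a| ≤ |x (i + 1) - x i| + |x i - x a| := abs_sub_le _ _ _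
    rw [sum_Ico_succ_top hi, sum_Ico_succ_top hi]
    linarith

namespace Setting

variable {V : Finset α} {E : Finset (Finset α)} {D lam D3 : ℝ} {M i : ℕ}

lemma fdev_gt (s : Setting V E D lam D3 M) (hi : i < M) {R : Finset α} (hR : R ∈ E) {e : α}
    (he : e ∈ R) : -1 < fdev E M D e i := by
  have hm := s.mild hi
  have h1 : 0 < wdeg E M e i :=
    sum_pos (fun R _ => hm.rho_pos R e) ⟨R, mem_filter.2 ⟨hR, he⟩⟩
  have := div_pos h1 (dref_pos (M := M) s.D_pos i)
  unfold fdev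
  linarith

lemma fdev_ge (s : Setting V E D lam D3 M) (hi : i < M) (e : α) : -1 ≤ fdev E M D e i := by
  have := div_nonneg ((s.mild hi).wdeg_nonneg e) (dref_pos (M := M) s.D_pos i).le
  unfold fdev
  linarith

lemma keyR_nonneg (s : Setting V E D lam D3 M) (hi : i < M) {R : Finset α} (hR : R ∈ E) :
    0 ≤ keyR E M D R i := by
  obtain ⟨x, y, z, hxy, hxz, hyz, rfl⟩ := card_eq_three.1 (s.reg.lin.three R hR)
  have hx := s.fdev_gt hi hR (e := x) (by simp)
  have hy := s.fdev_gt hi hR (e := y) (by simp)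
  have hz := s.fdev_gt hi hR (e := z) (by simp)
  have h := key_ineq hx hy hz
  unfold keyR
  rw [sum_insert (by simp [hxy, hxz]), sum_pair hyz, sum_insert (by simp [hxy, hxz]), sum_pair hyz,
    sum_insert (by simp [hxy, hxz]), sum_pair hyz]
  simp only [← add_assoc]
  exact h

lemma kdiss_nonneg (s : Setting V E D lam D3 M) (hi : i < M) : 0 ≤ kdiss E M D i :=
  sum_nonneg fun R hR => mul_nonneg ((s.mild hi).w_pos R).le (s.keyR_nonneg hi hR)

lemma surv_rho (s : Setting V E D lam D3 M) (hi : i < M) (R : Finset α) (e : α) :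
    surv E M e i * Vale.Agent.P046.Full.rho E M R e i = wR E M R i := by
  rw [Vale.Agent.P046.Full.rho, mul_div_cancel₀ _ ((s.mild hi).surv_pos e).ne']

/-- The first order drift of the potential. -/
lemma drift_main (s : Setting V E D lam D3 M) (hi : i < M) :
    ∑ e ∈ V, (-(surv E M e i * wdeg E M e i * prof (fdev E M D e i))
        - surv E M e i * profDeriv (fdev E M D e i) * (dref D M i * fnbr E M D e i))
      ≤ dref D M i * hpot V E M D i - kdiss E M D i := by
  have hm := s.mild hi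
  have hdp := dref_pos (M := M) s.D_pos i
  set u : α → ℝ := fun e => fdev E M D e i with hu
  set q : α → ℝ := fun e => prof (u e) * (2 + u e) / (1 + u e) with hq
  have h1 : ∀ e, surv E M e i * profDeriv (u e) * (dref D M i * fnbr E M D e i)
      = ∑ R ∈ star E e, wR E M R i * (profDeriv (u e) * ∑ f ∈ R.erase e, u f) := fun e => by
    rw [fnbr, mul_div_cancel₀ _ hdp.ne', mul_sum]
    refine sum_congr rfl fun R _ => ?_
    rw [← s.surv_rho hi R e, partner]
    ring
  have h2 : ∀ R ∈ E, ∑ e ∈ R, wR E M R i * (profDeriv (u e) * ∑ f ∈ R.erase e, u f)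
      = wR E M R i * keyR E M D R i - ∑ e ∈ R, wR E M R i * q e := by
    intro R _
    have e1 : ∀ e ∈ R, wR E M R i * (profDeriv (u e) * ∑ f ∈ R.erase e, u f)
        = wR E M R i * ((∑ f ∈ R, u f) * profDeriv (u e) + diss (u e)) - wR E M R i * q e := by
      intro e he
      rw [← add_sum_erase R _ he]
      simp only [hq, diss]
      ring
    rw [sum_congr rfl e1, sum_sub_distrib, ← mul_sum, sum_add_distrib, ← mul_sum]
    simp only [keyR, hu]
    ring
  have h3 : ∑ e ∈ V, ∑ R ∈ star E e, wR E M R i * q e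
      = ∑ e ∈ V, surv E M e i * wdeg E M e i * q e := by
    refine sum_congr rfl fun e _ => ?_
    rw [wdeg, mul_sum, sum_mul]
    exact sum_congr rfl fun R _ => by rw [s.surv_rho hi R e]
  rw [sum_sub_distrib, sum_congr rfl fun e _ => h1 e, sum_star_swap s.reg.lin,
    sum_congr rfl h2, sum_sub_distrib, ← sum_star_swap s.reg.lin, h3]
  change _ - (kdiss E M D i - _) ≤ _
  have h4 : ∑ e ∈ V, (-(surv E M e i * wdeg E M e i * prof (u e))
      + surv E M e i * wdeg E M e i * q e) ≤ dref D M i * hpot V E M D i := by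
    rw [hpot, mul_sum]
    refine sum_le_sum fun e _ => ?_
    have hf := mul_nonneg (mul_nonneg hdp.le (hm.surv_pos e).le) (prof_nonneg (u e))
    simp only [hq, hu]
    rw [s.wdeg_eq e]
    by_cases h : 1 + fdev E M D e i = 0
    · rw [h]
      simp only [mul_zero, zero_mul, div_zero, neg_zero, add_zero]
      simp only [hu] at hf
      linarith
    · refine le_of_eq ?_
      field_simp
      ring
  rw [sum_add_distrib] at h4
  linarith

lemma sum_self_le (s : Setting V E D lam D3 M) (hi : i < M) {ρm : ℝ}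
    (hρ : ∀ R ∈ E, ∀ e ∈ R, Vale.Agent.P046.Full.rho E M R e i ≤ ρm) (hρ0 : 0 ≤ ρm) :
    ∑ e ∈ V, surv E M e i * selfTerm E M D e i
      ≤ 3 * ρm * (2 * fmass V E M i + 100 * hpot V E M D i) := by
  have hm := s.mild hi
  have hdp := dref_pos (M := M) s.D_pos i
  rw [fmass, hpot, mul_sum, mul_sum, ← sum_add_distrib, mul_sum]
  refine sum_le_sum fun e _ => ?_
  have h1 : selfTerm E M D e i ≤ 3 * ρm * (1 + fdev E M D e i) := by
    unfold selfTerm
    rw [div_le_iff₀ hdp]
    calc ∑ R ∈ star E e, Vale.Agent.P046.Full.rho E M R e i * rho3 E M R i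
        ≤ ∑ R ∈ star E e, Vale.Agent.P046.Full.rho E M R e i * (3 * ρm) := by
          refine sum_le_sum fun R hR => mul_le_mul_of_nonneg_left ?_ (hm.rho_pos R e).le
          obtain ⟨h1, -⟩ := mem_filter.1 hR
          calc rho3 E M R i ≤ ∑ _f ∈ R, ρm := sum_le_sum fun f hf => hρ R h1 f hf
            _ = 3 * ρm := by rw [sum_const, s.reg.lin.three R h1, nsmul_eq_mul]; norm_num
      _ = wdeg E M e i * (3 * ρm) := by rw [wdeg, sum_mul]
      _ = _ := by rw [s.wdeg_eq e]; ring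
  have h2 : 1 + fdev E M D e i ≤ 2 + 100 * prof (fdev E M D e i) := by
    have := abs_le_prof (s.fdev_ge hi e) one_pos le_rfl
    rw [div_one] at this
    linarith [le_abs_self (fdev E M D e i)]
  have hp := (hm.surv_pos e).le
  calc surv E M e i * selfTerm E M D e i
      ≤ surv E M e i * (3 * ρm * (2 + 100 * prof (fdev E M D e i))) :=
        mul_le_mul_of_nonneg_left (h1.trans (mul_le_mul_of_nonneg_left h2 (by positivity))) hp
    _ = _ := by ring

lemma hpot_point (s : Setting V E D lam D3 M) (hi : i < M) (e : α) :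
    surv E M e (i + 1) * prof (fdev E M D e (i + 1))
      ≤ surv E M e i * prof (fdev E M D e i)
        + (-(surv E M e i * wdeg E M e i * prof (fdev E M D e i))
          - surv E M e i * profDeriv (fdev E M D e i) * (dref D M i * fnbr E M D e i)
          + 24 * (surv E M e i * selfTerm E M D e i)) / M
        + 8 * 10 ^ 8 * D ^ 4 / M ^ 2 := by
  have hm := s.mild hi
  have hM := s.M_posR
  have hΔ : 1 ≤ 2 * D := hm.one_le
  set Δ := 2 * D with hΔd
  set P := surv E M e i with hP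
  set u := fdev E M D e i with hu
  set v := fdev E M D e (i + 1) with hv
  set L1 := (-(dref D M i * fnbr E M D e i) + selfTerm E M D e i) / (M:ℝ) with hL1
  set a := wdeg E M e i / (M:ℝ) with ha
  set b := (2 * Δ / (M:ℝ)) ^ 2 with hb
  have hP0 : 0 ≤ P := (hm.surv_pos e).le
  have hP1 : P ≤ 1 := hm.surv_le_one e
  obtain ⟨-, hsucc, -⟩ := hm.surv_succ_bounds e
  rw [← hP, ← ha, ← hb] at hsucc
  have hδ : |v - u| ≤ 100 * Δ ^ 2 / M := hm.abs_fdev_diff e
  have hL : |v - u - L1| ≤ 700 * Δ ^ 3 / M ^ 2 := hm.fdev_succ e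
  have ha0 : 0 ≤ a := div_nonneg (hm.wdeg_nonneg e) hM.le
  have ha1 : a ≤ 2 * Δ / M := div_le_div_of_nonneg_right (hm.wdeg_le e) hM.le
  have hb0 : 0 ≤ b := sq_nonneg _
  have hbig := hm.big
  have hd1 : 100 * Δ ^ 2 / (M:ℝ) ≤ 1 := by rw [div_le_one hM]; exact hbig
  have ha2 : a ≤ 1 := by
    refine ha1.trans ?_
    rw [div_le_one hM]
    nlinarith
  have hf : prof u ≤ 21 * Δ := by
    have h1 := prof_le_lin u (s.fdev_ge hi e)
    have h2 := (abs_le.1 (hm.abs_fdev_le e)).2
    rw [← hu] at h2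
    linarith
  have hg := abs_profDeriv_le u
  have hf0 := prof_nonneg u
  have ht := prof_taylor u v
  have hv0 := prof_nonneg v
  have hsq : (v - u) ^ 2 ≤ (100 * Δ ^ 2 / M) ^ 2 := by
    rw [← sq_abs]; exact pow_le_pow_left₀ (abs_nonneg _) hδ 2
  have hsq1 : (v - u) ^ 2 ≤ 1 := hsq.trans (pow_le_one₀ (by positivity) hd1)
  have hgd : |profDeriv u * (v - u)| ≤ 24 * (100 * Δ ^ 2 / M) := by
    rw [abs_mul]; exact mul_le_mul hg hδ (abs_nonneg _) (by norm_num)
  have hgL : profDeriv u * (v - u) ≤ profDeriv u * L1 + 24 * (700 * Δ ^ 3 / M ^ 2) := by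
    have : |profDeriv u * (v - u - L1)| ≤ 24 * (700 * Δ ^ 3 / M ^ 2) := by
      rw [abs_mul]; exact mul_le_mul hg hL (abs_nonneg _) (by norm_num)
    have := (abs_le.1 this).2
    linarith
  have hF : 0 ≤ 1 - a + b := by linarith
  have step1 : surv E M e (i + 1) * prof v ≤ P * ((1 - a + b)
      * (prof u + profDeriv u * (v - u) + 4000 * (v - u) ^ 2)) := by
    calc surv E M e (i + 1) * prof v ≤ P * (1 - a + b) * prof v :=
          mul_le_mul_of_nonneg_right hsucc hv0
      _ ≤ P * (1 - a + b) * (prof u + profDeriv u * (v - u) + 4000 * (v - u) ^ 2) :=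
          mul_le_mul_of_nonneg_left ht (mul_nonneg hP0 hF)
      _ = _ := by ring
  have hX : prof u + profDeriv u * (v - u) + 4000 * (v - u) ^ 2 ≤ 4100 * Δ := by
    have := (abs_le.1 hgd).2
    nlinarith
  have hbX : b * (prof u + profDeriv u * (v - u) + 4000 * (v - u) ^ 2)
      ≤ (2 * Δ / M) ^ 2 * (4100 * Δ) := mul_le_mul_of_nonneg_left hX hb0
  have hag : -(a * (profDeriv u * (v - u))) ≤ 2 * Δ / M * (24 * (100 * Δ ^ 2 / M)) := by
    refine (neg_le_abs _).trans ?_
    rw [abs_mul, abs_of_nonneg ha0]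
    exact mul_le_mul ha1 hgd (abs_nonneg _) (by positivity)
  have hasq : 0 ≤ a * (4000 * (v - u) ^ 2) := by positivity
  have h34 : Δ ^ 3 / (M:ℝ) ^ 2 ≤ Δ ^ 4 / M ^ 2 :=
    div_le_div_of_nonneg_right (pow_le_pow_right₀ hΔ (by norm_num)) (by positivity)
  have h4 : 0 ≤ Δ ^ 4 / (M:ℝ) ^ 2 := by positivity
  have step2 : (1 - a + b) * (prof u + profDeriv u * (v - u) + 4000 * (v - u) ^ 2)
      ≤ prof u - a * prof u + profDeriv u * L1 + 5 * 10 ^ 7 * (Δ ^ 4 / M ^ 2) := by
    have e1 : (2 * Δ / (M:ℝ)) ^ 2 * (4100 * Δ) = 16400 * (Δ ^ 3 / M ^ 2) := by ring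
    have e2 : 2 * Δ / (M:ℝ) * (24 * (100 * Δ ^ 2 / M)) = 4800 * (Δ ^ 3 / M ^ 2) := by ring
    have e3 : (100 * Δ ^ 2 / (M:ℝ)) ^ 2 = 10000 * (Δ ^ 4 / M ^ 2) := by ring
    have e4 : 24 * (700 * Δ ^ 3 / (M:ℝ) ^ 2) = 16800 * (Δ ^ 3 / M ^ 2) := by ring
    rw [e1] at hbX
    rw [e2] at hag
    rw [e3] at hsq
    rw [e4] at hgL
    linarith
  have step3 : P * (5 * 10 ^ 7 * (Δ ^ 4 / (M:ℝ) ^ 2)) ≤ 8 * 10 ^ 8 * D ^ 4 / M ^ 2 := by
    refine (mul_le_of_le_one_left (by positivity) hP1).trans (le_of_eq ?_)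
    rw [hΔd]; ring
  have step4 := mul_le_mul_of_nonneg_left step2 hP0
  have hself : P * (profDeriv u * selfTerm E M D e i) ≤ 24 * (P * selfTerm E M D e i) := by
    have h1 : profDeriv u * selfTerm E M D e i ≤ 24 * selfTerm E M D e i :=
      mul_le_mul_of_nonneg_right (le_of_abs_le hg) (hm.selfTerm_nonneg e)
    have := mul_le_mul_of_nonneg_left h1 hP0
    linarith
  have hself' := div_le_div_of_nonneg_right hself hM.le
  have e5 : P * (prof u - a * prof u + profDeriv u * L1 + 5 * 10 ^ 7 * (Δ ^ 4 / (M:ℝ) ^ 2))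
      = P * prof u + (-(P * wdeg E M e i * prof u)
          - P * profDeriv u * (dref D M i * fnbr E M D e i)
          + P * (profDeriv u * selfTerm E M D e i)) / M
        + P * (5 * 10 ^ 7 * (Δ ^ 4 / (M:ℝ) ^ 2)) := by
    rw [ha, hL1]; ring
  rw [e5] at step4
  rw [add_div] at step4 ⊢
  linarith

lemma hpot_nonneg (s : Setting V E D lam D3 M) (hi : i ≤ M) : 0 ≤ hpot V E M D i :=
  sum_nonneg fun e _ => mul_nonneg (qf_mem_unit E ∅ e hi).1 (prof_nonneg _)

lemma fmass_nonneg (s : Setting V E D lam D3 M) (hi : i ≤ M) : 0 ≤ fmass V E M i :=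
  sum_nonneg fun e _ => (qf_mem_unit E ∅ e hi).1

lemma fmass_le (s : Setting V E D lam D3 M) (hi : i ≤ M) : fmass V E M i ≤ V.card := by
  calc fmass V E M i ≤ ∑ _e ∈ V, (1:ℝ) := sum_le_sum fun e _ => (qf_mem_unit E ∅ e hi).2
    _ = _ := by simp

lemma hpot_le_card (s : Setting V E D lam D3 M) (hi : i < M) :
    hpot V E M D i ≤ V.card * (42 * D) := by
  calc hpot V E M D i ≤ ∑ _e ∈ V, 42 * D := sum_le_sum fun e _ => by
        have h1 := prof_le_lin _ (s.fdev_ge hi e)
        have h2 := (abs_le.1 ((s.mild hi).abs_fdev_le e)).2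
        have h3 := mul_le_mul (qf_mem_unit (M := M) E ∅ e hi.le).2 le_rfl
          (prof_nonneg (fdev E M D e i)) zero_le_one
        have := s.one_le_D
        change surv E M e i * _ ≤ _
        unfold surv
        linarith
    _ = _ := by rw [sum_const, nsmul_eq_mul]

lemma hpot_succ (s : Setting V E D lam D3 M) (hi : i < M) {ρm : ℝ}
    (hρ : ∀ R ∈ E, ∀ e ∈ R, Vale.Agent.P046.Full.rho E M R e i ≤ ρm) (hρ0 : 0 ≤ ρm) :
    hpot V E M D (i + 1) ≤ hpot V E M D i
      + (dref D M i * hpot V E M D i - kdiss E M D i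
        + 72 * ρm * (2 * fmass V E M i + 100 * hpot V E M D i)) / M
      + V.card * (8 * 10 ^ 8 * D ^ 4 / M ^ 2) := by
  have h := sum_le_sum fun e (_ : e ∈ V) => s.hpot_point hi e
  rw [sum_add_distrib, sum_add_distrib, ← sum_div, sum_add_distrib, sum_const, nsmul_eq_mul,
    ← mul_sum] at h
  change hpot V E M D (i + 1) ≤ hpot V E M D i + _ + _ at h
  have h1 := s.drift_main hi
  have h2 := s.sum_self_le hi hρ hρ0
  refine h.trans (add_le_add (add_le_add le_rfl (div_le_div_of_nonneg_right ?_ s.M_posR.le)) le_rfl)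
  linarith

/-- One step of the Lyapunov functional. -/
lemma lyap_step (s : Setting V E D lam D3 M) (hi : i < M) {ρm : ℝ}
    (hρ : ∀ R ∈ E, ∀ e ∈ R, Vale.Agent.P046.Full.rho E M R e i ≤ ρm) (hρ0 : 0 ≤ ρm) :
    √(dref D M (i + 1)) * hpot V E M D (i + 1) + √(dref D M i) * kdiss E M D i / (2 * M)
      ≤ √(dref D M i) * hpot V E M D i
        + (144 * ρm * (√(dref D M i) * fmass V E M i)
          + 7200 * ρm * (√(dref D M i) * hpot V E M D i)) / M
        + V.card * (10 ^ 9 * D ^ 5 / M ^ 2) := by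
  have hD := s.D_pos
  have hM := s.M_posR
  have hdp := dref_pos (M := M) hD i
  have hz0 : 0 ≤ dref D M i / M := div_nonneg hdp.le hM.le
  have hz1 : dref D M i / M ≤ D / M := div_le_div_of_nonneg_right (dref_le hD i) hM.le
  have hzD : D / (M:ℝ) ≤ 1 / 4 := by
    rw [div_le_iff₀ hM]; nlinarith [s.M_ge, s.one_le_D]
  obtain ⟨hsq, -⟩ := sqrt_succ_le (dref_mul_succ (M := M) hD i) (dref_pos (M := M) hD (i + 1)).le
    hz0 (by linarith)
  have h := s.hpot_succ hi hρ hρ0
  have hH := s.hpot_nonneg hi.le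
  have hHc := s.hpot_le_card hi
  have hK := s.kdiss_nonneg hi
  have hMs := s.fmass_nonneg hi.le
  have hH' := s.hpot_nonneg (show i + 1 ≤ M by omega)
  set d := dref D M i with hdd
  set z := d / M with hz
  set H := hpot V E M D i
  set K := kdiss E M D i
  set B := 72 * ρm * (2 * fmass V E M i + 100 * H) / (M:ℝ) with hB
  set err := (V.card : ℝ) * (8 * 10 ^ 8 * D ^ 4 / M ^ 2) with herr
  set f := 1 - z + 2 * z ^ 2 with hf
  have hf0 : 1 / 2 ≤ f := by nlinarith
  have hf1 : f ≤ 1 := by nlinarith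
  have hB0 : 0 ≤ B := by positivity
  have herr0 : 0 ≤ err := by positivity
  have h' : hpot V E M D (i + 1) ≤ (H + z * H) + (-(K / M)) + B + err := by
    have e : H + (d * H - K + 72 * ρm * (2 * fmass V E M i + 100 * H)) / (M:ℝ) + err
        = (H + z * H) + (-(K / M)) + B + err := by rw [hB, hz]; ring
    linarith
  have hz2 : z ^ 2 ≤ D ^ 2 / M ^ 2 := by
    rw [← div_pow]; exact pow_le_pow_left₀ hz0 hz1 2
  have hmain : f * hpot V E M D (i + 1) + K / (2 * M)
      ≤ H + B + err + V.card * (84 * D ^ 3 / M ^ 2) := by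
    have a1 := mul_le_mul_of_nonneg_left h' (by linarith : 0 ≤ f)
    have a2 : f * (H + z * H) ≤ H + 2 * z ^ 2 * H := by
      have : 0 ≤ z ^ 2 * H := by positivity
      have hz3 : 2 * z * (z ^ 2 * H) ≤ 1 * (z ^ 2 * H) :=
        mul_le_mul_of_nonneg_right (by linarith) this
      rw [hf]
      linarith [(show (1 - z + 2 * z ^ 2) * (H + z * H) = H + z ^ 2 * H + 2 * z * (z ^ 2 * H) by ring)]
    have a3 : f * (-(K / M)) ≤ -(K / (2 * M)) := by
      have : K / (2 * M) = 1 / 2 * (K / M) := by ring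
      rw [this]
      have := mul_le_mul_of_nonneg_right hf0 (div_nonneg hK hM.le)
      linarith
    have a4 : f * B ≤ B := mul_le_of_le_one_left hB0 hf1
    have a5 : f * err ≤ err := mul_le_of_le_one_left herr0 hf1
    have a6 : 2 * z ^ 2 * H ≤ V.card * (84 * D ^ 3 / M ^ 2) := by
      calc 2 * z ^ 2 * H ≤ 2 * (D ^ 2 / M ^ 2) * (V.card * (42 * D)) :=
            mul_le_mul (mul_le_mul_of_nonneg_left hz2 (by norm_num)) hHc hH (by positivity)
        _ = _ := by ring
    linarith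
  have hsd : √d ≤ D := by
    refine (Real.sqrt_le_sqrt (dref_le hD i)).trans ?_
    calc √D ≤ √(D * D) := Real.sqrt_le_sqrt (le_mul_of_one_le_right hD.le s.one_le_D)
      _ = D := Real.sqrt_mul_self hD.le
  have hs0 : 0 ≤ √d := Real.sqrt_nonneg d
  have a7 := mul_le_mul_of_nonneg_left hmain hs0
  have a8 := mul_le_mul_of_nonneg_right hsq hH'
  have a9 : √d * (err + V.card * (84 * D ^ 3 / M ^ 2)) ≤ V.card * (10 ^ 9 * D ^ 5 / M ^ 2) := by
    calc √d * (err + V.card * (84 * D ^ 3 / M ^ 2))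
        ≤ D * (err + V.card * (84 * D ^ 4 / M ^ 2)) := by
          refine mul_le_mul hsd (add_le_add le_rfl ?_) (by positivity) hD.le
          refine mul_le_mul_of_nonneg_left (div_le_div_of_nonneg_right ?_ (by positivity))
            (Nat.cast_nonneg _)
          have := pow_le_pow_right₀ s.one_le_D (show 3 ≤ 4 by norm_num)
          linarith
      _ = V.card * ((8 * 10 ^ 8 + 84) * D ^ 5 / M ^ 2) := by rw [herr]; ring
      _ ≤ _ := by gcongr; norm_num
  have e1 : √d * B = (144 * ρm * (√d * fmass V E M i) + 7200 * ρm * (√d * H)) / M := by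
    rw [hB]; ring
  have e2 : √d * (K / (2 * M)) = √d * K / (2 * M) := by ring
  linarith

lemma fmass_antitone (s : Setting V E D lam D3 M) {l : ℕ} (hil : i ≤ l) (hl : l ≤ M) :
    fmass V E M l ≤ fmass V E M i :=
  sum_le_sum fun e _ => qf_le_of_le E ∅ e hil hl

/-- The Lyapunov bound after step `a`. -/
lemma lyapunov (s : Setting V E D lam D3 M) {a : ℕ} (ha : a ≤ M) (hd : D3 ≤ dref D M a)
    (hsmall : 60000 * dref D M a ≤ D) :
    ∀ i, a ≤ i → i ≤ M →
      √(dref D M i) * hpot V E M D i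
        + (∑ l ∈ Ico a i, √(dref D M l) * kdiss E M D l) / (2 * M)
      ≤ 2 * (√(dref D M a) * hpot V E M D a
          + 432 * dref D M a / D * (√(dref D M a) * fmass V E M a)
          + V.card * (10 ^ 9 * D ^ 5 / M)) := by
  have hD := s.D_pos
  have hM := s.M_posR
  have hda := dref_pos (M := M) hD a
  set Φ := √(dref D M a) * hpot V E M D a
  set ρm := 3 * dref D M a / D with hρm
  set Q := 144 * ρm * (√(dref D M a) * fmass V E M a) + V.card * (10 ^ 9 * D ^ 5 / M) with hQ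
  set Lb := 2 * (Φ + Q) with hLb
  have hΦ : 0 ≤ Φ := mul_nonneg (Real.sqrt_nonneg _) (s.hpot_nonneg ha)
  have hρ0 : 0 ≤ ρm := by positivity
  have hρ1 : 7200 * ρm ≤ 1 / 2 := by
    rw [hρm, mul_div_assoc', div_le_iff₀ hD]; linarith
  have hQ0 : 0 ≤ Q := by
    have := s.fmass_nonneg ha
    positivity
  have key : ∀ i, a ≤ i → i ≤ M →
      √(dref D M i) * hpot V E M D i
        + (∑ l ∈ Ico a i, √(dref D M l) * kdiss E M D l) / (2 * M)
      ≤ Φ + ((i : ℝ) - a) / M * (Q + 7200 * ρm * Lb) := by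
    intro i hi
    induction hi with
    | refl => intro _; simp [Φ]
    | @step i hi ih =>
      intro hiM
      have hiM' : i < M := hiM
      have h1 := ih hiM'.le
      have hstep := s.lyap_step hiM' (fun R hR e he => s.rho_le hiM' hi hd hR he) hρ0
      have hfac : ((i : ℝ) - a) / M ≤ 1 := by
        rw [div_le_one hM]
        have : (i : ℝ) ≤ M := by exact_mod_cast hiM'.le
        have : (0:ℝ) ≤ a := Nat.cast_nonneg a
        linarith
      have hfac0 : 0 ≤ ((i : ℝ) - a) / M :=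
        div_nonneg (sub_nonneg.2 (Nat.cast_le.2 hi)) hM.le
      have hsum0 : 0 ≤ (∑ l ∈ Ico a i, √(dref D M l) * kdiss E M D l) / (2 * M) :=
        div_nonneg (sum_nonneg fun l hl => mul_nonneg (Real.sqrt_nonneg _)
          (s.kdiss_nonneg (by have := (mem_Ico.1 hl).2; omega))) (by positivity)
      have hLb0 : 0 ≤ Lb := by positivity
      have hb : 7200 * ρm * Lb ≤ 1 / 2 * Lb := mul_le_mul_of_nonneg_right hρ1 hLb0
      have hH : √(dref D M i) * hpot V E M D i ≤ Lb := by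
        have := mul_le_mul_of_nonneg_right hfac
          (by positivity : 0 ≤ Q + 7200 * ρm * Lb)
        linarith
      have hm : √(dref D M i) * fmass V E M i ≤ √(dref D M a) * fmass V E M a :=
        mul_le_mul (Real.sqrt_le_sqrt (dref_anti hD hi)) (s.fmass_antitone hi hiM'.le)
          (s.fmass_nonneg hiM'.le) (Real.sqrt_nonneg _)
      have hadd : (144 * ρm * (√(dref D M i) * fmass V E M i)
          + 7200 * ρm * (√(dref D M i) * hpot V E M D i)) / (M:ℝ)
          + V.card * (10 ^ 9 * D ^ 5 / M ^ 2) ≤ (Q + 7200 * ρm * Lb) / M := by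
        have e : (V.card : ℝ) * (10 ^ 9 * D ^ 5 / M ^ 2)
            = V.card * (10 ^ 9 * D ^ 5 / M) / M := by ring
        rw [e, ← add_div]
        refine div_le_div_of_nonneg_right ?_ hM.le
        have := mul_le_mul_of_nonneg_left hm (by positivity : 0 ≤ 144 * ρm)
        have := mul_le_mul_of_nonneg_left hH (by positivity : 0 ≤ 7200 * ρm)
        linarith
      have e2 : ((↑(i + 1) : ℝ) - a) / M * (Q + 7200 * ρm * Lb)
          = ((i : ℝ) - a) / M * (Q + 7200 * ρm * Lb) + (Q + 7200 * ρm * Lb) / M := by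
        push_cast; ring
      rw [e2, sum_Ico_succ_top hi, add_div]
      linarith
  intro i hi hiM
  refine (key i hi hiM).trans ?_
  have hfac : ((i : ℝ) - a) / M ≤ 1 := by
    rw [div_le_one hM]
    have : (i : ℝ) ≤ M := by exact_mod_cast hiM
    have : (0:ℝ) ≤ a := Nat.cast_nonneg a
    linarith
  have hLb0 : 0 ≤ Lb := by positivity
  have := mul_le_mul_of_nonneg_right hfac (by positivity : 0 ≤ Q + 7200 * ρm * Lb)
  have := mul_le_mul_of_nonneg_right hρ1 hLb0
  have e : 144 * ρm = 432 * dref D M a / D := by rw [hρm]; ring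
  rw [← e]
  linarith

/-- One step of `mass / √d`. -/
lemma mass_step (s : Setting V E D lam D3 M) (hi : i < M) :
    |fmass V E M (i + 1) / √(dref D M (i + 1)) - fmass V E M i / √(dref D M i)|
      ≤ √(dref D M i) * |∑ e ∈ V, surv E M e i * fdev E M D e i| / M
        + V.card * (200 * D ^ 3 / M ^ 2) := by
  have hm := s.mild hi
  have hD := s.D_pos
  have hM := s.M_posR
  have hdp := dref_pos (M := M) hD i
  have hd'p := dref_pos (M := M) hD (i + 1)
  have hd' := dref_mul_succ (M := M) hD i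
  set d := dref D M i with hdd
  set z := d / M with hz
  set S := fmass V E M i with hS
  set W := ∑ e ∈ V, surv E M e i * fdev E M D e i with hW
  set Δm := fmass V E M (i + 1) - S + z * (S + W) with hΔm
  have hz0 : 0 ≤ z := div_nonneg hdp.le hM.le
  have hz1 : z ≤ D / M := div_le_div_of_nonneg_right (dref_le hD i) hM.le
  have hzD : D / (M:ℝ) ≤ 1 / 4 := by
    rw [div_le_iff₀ hM]; nlinarith [s.M_ge, s.one_le_D]
  have hS0 := s.fmass_nonneg hi.le
  have hS1 := s.fmass_le hi.le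
  have hsum : ∑ e ∈ V, surv E M e i * (1 - wdeg E M e i / M) = S - z * (S + W) := by
    rw [hS, hW, fmass, ← sum_add_distrib, mul_sum, ← sum_sub_distrib]
    refine sum_congr rfl fun e _ => ?_
    rw [s.wdeg_eq e, hz, hdd]; ring
  have hlo : 0 ≤ Δm := by
    have := sum_le_sum fun e (_ : e ∈ V) => (hm.surv_succ_bounds e).1
    rw [hsum] at this
    change _ ≤ fmass V E M (i + 1) at this
    rw [hΔm]; linarith
  have hhi : Δm ≤ V.card * (16 * D ^ 2 / M ^ 2) := by
    have h1 : ∀ e ∈ V, surv E M e (i + 1)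
        ≤ surv E M e i * (1 - wdeg E M e i / M) + 16 * D ^ 2 / M ^ 2 := fun e _ => by
      refine (hm.surv_succ_bounds e).2.1.trans ?_
      rw [mul_add]
      refine add_le_add le_rfl ((mul_le_of_le_one_left (sq_nonneg _) (hm.surv_le_one e)).trans
        (le_of_eq ?_))
      ring
    have := sum_le_sum h1
    rw [sum_add_distrib, hsum, sum_const, nsmul_eq_mul] at this
    change fmass V E M (i + 1) ≤ _ at this
    rw [hΔm]; linarith
  have hWb : |W| ≤ V.card * (18 * D) := by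
    refine (abs_sum_le_sum_abs _ _).trans ?_
    calc ∑ e ∈ V, |surv E M e i * fdev E M D e i| ≤ ∑ _e ∈ V, 18 * D := sum_le_sum fun e _ => by
          rw [abs_mul, abs_of_pos (hm.surv_pos e)]
          refine (mul_le_of_le_one_left (abs_nonneg _) (hm.surv_le_one e)).trans ?_
          linarith [hm.abs_fdev_le e]
      _ = _ := by rw [sum_const, nsmul_eq_mul]
  set σ := √(1 + 2 * z) with hσ
  have hσ1 : σ ≤ 1 + z := by
    rw [hσ, ← Real.sqrt_sq (by linarith : 0 ≤ 1 + z)]
    exact Real.sqrt_le_sqrt (by linarith [sq_nonneg z, (show (1 + z) ^ 2 = 1 + 2 * z + z ^ 2 by ring)])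
  have hσ2 : 1 + z - z ^ 2 ≤ σ := by
    have h0 : 0 ≤ 1 + z - z ^ 2 := by nlinarith
    rw [hσ, ← Real.sqrt_sq h0]
    refine Real.sqrt_le_sqrt ?_
    nlinarith [mul_nonneg (mul_nonneg hz0 hz0) hz0, mul_nonneg hz0 hz0]
  have hsd : √d = √(dref D M (i + 1)) * σ := by rw [hσ, ← Real.sqrt_mul hd'p.le, hd']
  have hsd'0 : 0 < √(dref D M (i + 1)) := Real.sqrt_pos.2 hd'p
  have hsd0 : 0 < √d := Real.sqrt_pos.2 hdp
  have e1 : fmass V E M (i + 1) / √(dref D M (i + 1)) - S / √d
      = (fmass V E M (i + 1) * σ - S) / √d := by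
    rw [eq_div_iff hsd0.ne', sub_mul, div_mul_cancel₀ _ hsd0.ne', hsd]
    field_simp
  set q := σ - 1 - z with hq
  have hq1 : |q| ≤ z ^ 2 := by
    rw [hq, abs_le]; constructor <;> linarith [sq_nonneg z]
  have e2 : fmass V E M (i + 1) * σ - S
      = Δm * σ + S * (q - z ^ 2 - z * q) - z * W - z * W * (z + q) := by
    rw [hq, hΔm]; ring
  rw [e1, abs_div, abs_of_pos hsd0, div_le_iff₀ hsd0, e2]
  have hσb : |σ| ≤ 2 := by
    rw [abs_of_nonneg (hσ ▸ Real.sqrt_nonneg _)]; linarith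
  have b1 : |Δm * σ| ≤ V.card * (16 * D ^ 2 / M ^ 2) * 2 := by
    rw [abs_mul, abs_of_nonneg hlo]
    exact mul_le_mul hhi hσb (abs_nonneg _) (by positivity)
  have hz2 : z ^ 2 ≤ D ^ 2 / M ^ 2 := by
    rw [← div_pow]; exact pow_le_pow_left₀ hz0 hz1 2
  have b2 : |S * (q - z ^ 2 - z * q)| ≤ V.card * (3 * (D ^ 2 / M ^ 2)) := by
    rw [abs_mul, abs_of_nonneg hS0]
    refine mul_le_mul hS1 ?_ (abs_nonneg _) (Nat.cast_nonneg _)
    have h1 : |z * q| ≤ z ^ 2 := by
      rw [abs_mul, abs_of_nonneg hz0]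
      exact (mul_le_of_le_one_left (abs_nonneg _) (by linarith)).trans hq1
    have := abs_sub (q - z ^ 2) (z * q)
    have := abs_sub q (z ^ 2)
    rw [abs_of_nonneg (sq_nonneg z)] at this
    linarith
  have b3 : |z * W * (z + q)| ≤ V.card * (36 * D ^ 3 / M ^ 2) := by
    rw [abs_mul, abs_mul, abs_of_nonneg hz0]
    have h1 : |z + q| ≤ 2 * z := by
      refine (abs_add_le _ _).trans ?_
      rw [abs_of_nonneg hz0]
      nlinarith
    calc z * |W| * |z + q| ≤ z * (V.card * (18 * D)) * (2 * z) :=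
          mul_le_mul (mul_le_mul_of_nonneg_left hWb hz0) h1 (abs_nonneg _) (by positivity)
      _ = V.card * (36 * D) * z ^ 2 := by ring
      _ ≤ V.card * (36 * D) * (D ^ 2 / M ^ 2) := mul_le_mul_of_nonneg_left hz2 (by positivity)
      _ = _ := by ring
  have b4 : V.card * (16 * D ^ 2 / (M:ℝ) ^ 2) * 2 + V.card * (3 * (D ^ 2 / M ^ 2))
      + V.card * (36 * D ^ 3 / M ^ 2) ≤ V.card * (71 * D ^ 3 / M ^ 2) := by
    have h1 : D ^ 2 / (M:ℝ) ^ 2 ≤ D ^ 3 / M ^ 2 :=
      div_le_div_of_nonneg_right (pow_le_pow_right₀ s.one_le_D (by norm_num)) (by positivity)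
    have h2 := mul_le_mul_of_nonneg_left h1 (by positivity : (0:ℝ) ≤ 35 * V.card)
    ring_nf at h2 ⊢
    linarith
  have hsdlb : 1 / 2 ≤ √d := by
    rw [← Real.sqrt_sq (by norm_num : (0:ℝ) ≤ 1 / 2)]
    exact Real.sqrt_le_sqrt (by norm_num; exact hm.dr)
  have b5 : V.card * (71 * D ^ 3 / (M:ℝ) ^ 2) ≤ V.card * (200 * D ^ 3 / M ^ 2) * √d := by
    refine le_trans ?_ (mul_le_mul_of_nonneg_left hsdlb (by positivity))
    have : 0 ≤ (V.card : ℝ) * (D ^ 3 / M ^ 2) := by positivity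
    ring_nf at this ⊢
    linarith
  have e3 : |z * W| = √d * |W| / M * √d := by
    rw [abs_mul, abs_of_nonneg hz0, hz, div_mul_eq_mul_div, div_mul_eq_mul_div, mul_right_comm,
      Real.mul_self_sqrt hdp.le]
  have t1 := abs_sub (Δm * σ + S * (q - z ^ 2 - z * q) - z * W) (z * W * (z + q))
  have t2 := abs_sub (Δm * σ + S * (q - z ^ 2 - z * q)) (z * W)
  have t3 := abs_add_le (Δm * σ) (S * (q - z ^ 2 - z * q))
  linarith

end Setting

end

end Vale.Agent.P046.Full
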