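import Vale.Agent.P046.Full.Flow.Lyap

/-!
Global consequences of the window and of the Lyapunov functional.
-/

namespace Vale.Agent.P046.Full

open Finset

noncomputable section

variable {α : Type*} [DecidableEq α]

/-- The parameters of the flow: `D3` ends the window, `D1` starts the Lyapunov phase. -/
structure Params (V : Finset α) (E : Finset (Finset α)) (D lam D3 D1 : ℝ) (M : ℕ) : Prop where
  set_ : Setting V E D lam D3 M
  le_D1 : D3 ≤ D1
  cube : D1 ^ 3 ≤ D

/-- The scale of the uncovered mass. -/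
def scale (V : Finset α) (D : ℝ) : ℝ := V.card / √D

/-- The relative size of the Lyapunov functional. -/
def lyapSize (D lam D1 : ℝ) : ℝ := 40 * gmax D lam ^ 2 / D1

namespace Params

variable {V : Finset α} {E : Finset (Finset α)} {D lam D3 D1 : ℝ} {M i : ℕ}

lemma D1_big (p : Params V E D lam D3 D1 M) : 1000 ≤ D1 := p.set_.big.trans p.le_D1

lemma D1_le (p : Params V E D lam D3 D1 M) : D1 ≤ D := by
  have h := p.D1_big
  nlinarith [p.cube, mul_le_mul h h (by norm_num) (by linarith), sq_nonneg D1]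

lemma scale_nonneg (_p : Params V E D lam D3 D1 M) : 0 ≤ scale V D := by
  unfold scale; positivity

lemma cut1 (p : Params V E D lam D3 D1 M) :
    cutAt D M D1 < M ∧ D1 ≤ dref D M (cutAt D M D1) ∧ dref D M (cutAt D M D1) ≤ 2 * D1 ∧
      (∀ i, i ≤ M → D1 ≤ dref D M i → i ≤ cutAt D M D1) ∧
      (∀ i, i ≤ cutAt D M D1 → D1 ≤ dref D M i) :=
  p.set_.cut_spec p.le_D1 p.D1_le

lemma cut1_small (p : Params V E D lam D3 D1 M) : 60000 * dref D M (cutAt D M D1) ≤ D := by
  have h := p.D1_big
  have h2 := p.cut1.2.2.1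
  nlinarith [p.cube, mul_le_mul h h (by norm_num) (by linarith)]

lemma fmass_zero (_p : Params V E D lam D3 D1 M) : fmass V E M 0 = V.card := by
  simp [fmass, surv_zero]

lemma err_le (p : Params V E D lam D3 D1 M) (a b : ℕ) (hb : b ≤ M) :
    ∑ _l ∈ Ico a b, (V.card : ℝ) * (200 * D ^ 3 / M ^ 2) ≤ scale V D / D := by
  have hM := p.set_.M_posR
  have hD := p.set_.D_pos
  rw [sum_const, Nat.card_Ico, nsmul_eq_mul]
  have h1 : ((b - a : ℕ) : ℝ) ≤ M := by exact_mod_cast (show b - a ≤ M by omega)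
  refine (mul_le_mul_of_nonneg_right h1 (by positivity)).trans ?_
  have e : (M : ℝ) * (V.card * (200 * D ^ 3 / M ^ 2)) = V.card * (200 * D ^ 3 / M) := by
    field_simp
  rw [e, scale, div_div, div_eq_mul_inv (V.card : ℝ)]
  refine mul_le_mul_of_nonneg_left ?_ (Nat.cast_nonneg _)
  rw [inv_eq_one_div, div_le_div_iff₀ hM (by positivity), one_mul]
  have hs : √D ≤ D := by
    calc √D ≤ √(D * D) := Real.sqrt_le_sqrt (le_mul_of_one_le_right hD.le p.set_.one_le_D)
      _ = D := Real.sqrt_mul_self hD.le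
  calc 200 * D ^ 3 * (√D * D) ≤ 200 * D ^ 3 * (D * D) :=
        mul_le_mul_of_nonneg_left (mul_le_mul_of_nonneg_right hs hD.le) (by positivity)
    _ = 200 * D ^ 5 := by ring
    _ ≤ M := by
        have h : D ^ 5 ≤ D ^ 9 := pow_le_pow_right₀ p.set_.one_le_D (by norm_num)
        linarith [p.set_.M_big, pow_pos hD 5]

lemma sum_z (_p : Params V E D lam D3 D1 M) {a b : ℕ} (hab : a ≤ b) :
    ∑ l ∈ Ico a b, dref D M l / M = zsum D M b - zsum D M a := by
  rw [sum_Ico_eq_sub _ hab]; rfl

lemma sum_z_le (p : Params V E D lam D3 D1 M) {a b : ℕ} (hab : a ≤ b) (hb : b ≤ M) :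
    ∑ l ∈ Ico a b, dref D M l / M ≤ zmax D := by
  rw [p.sum_z hab]
  linarith [p.set_.zsum_le hb, zsum_nonneg (M := M) p.set_.D_pos a]

lemma weighted_dev_le (p : Params V E D lam D3 D1 M) (hi : i < M) (hd : D3 ≤ dref D M i) :
    |∑ e ∈ V, surv E M e i * fdev E M D e i|
      ≤ 3 * gmax D lam / (2 * D3) * fmass V E M i := by
  rw [fmass, mul_sum]
  refine (abs_sum_le_sum_abs _ _).trans (sum_le_sum fun e he => ?_)
  rw [abs_mul, abs_of_pos ((p.set_.mild hi).surv_pos e), mul_comm (3 * gmax D lam / (2 * D3))]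
  exact mul_le_mul_of_nonneg_left
    ((p.set_.dev_le hi.le hd he).trans (p.set_.window_dev_sup hd))
    ((p.set_.mild hi).surv_pos e).le

lemma sqrt_mass_eq (p : Params V E D lam D3 D1 M) (l : ℕ) :
    √(dref D M l) * fmass V E M l = dref D M l * (fmass V E M l / √(dref D M l)) := by
  have h := dref_pos (M := M) p.set_.D_pos l
  have h0 : √(dref D M l) ≠ 0 := (Real.sqrt_pos.2 h).ne'
  field_simp
  rw [Real.sq_sqrt h.le, mul_comm]

/-- `mass / √d` in the first phase. -/
lemma mass_window (p : Params V E D lam D3 D1 M) {θ : ℝ} (hθ : 3 * gmax D lam / (2 * D3) ≤ θ)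
    (hθZ : θ * zmax D ≤ 1 / 4) :
    ∀ i ≤ cutAt D M D1,
      |fmass V E M i / √(dref D M i) - scale V D| ≤ 4 * θ * zmax D * scale V D + scale V D / D := by
  intro i hi
  obtain ⟨hlt, -, -, -, hge⟩ := p.cut1
  have hs := p.set_
  have hθ0 : 0 ≤ θ := le_trans (by have := hs.D3_pos; have := hs.gmax_big; positivity) hθ
  have hA := p.scale_nonneg
  have h := affine_growth (x := fun l => fmass V E M l / √(dref D M l))
    (c := fun _ => (V.card : ℝ) * (200 * D ^ 3 / M ^ 2))
    (z := fun l => dref D M l / M) (θ := θ) (C := scale V D / D) (a := 0) (b := cutAt D M D1)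
    hθ0 (div_nonneg (hs.fmass_nonneg (Nat.zero_le M)) (Real.sqrt_nonneg _))
    (fun l => div_nonneg (dref_pos hs.D_pos l).le (Nat.cast_nonneg M))
    (fun _ => by have := hs.D_pos; positivity)
    (p.err_le 0 _ hlt.le)
    (le_trans (mul_le_mul_of_nonneg_left (p.sum_z_le (Nat.zero_le _) hlt.le) hθ0) hθZ)
    (fun l hl => by
      have hl2 := (mem_Ico.1 hl).2
      have hlM : l < M := by omega
      have hd : D3 ≤ dref D M l := p.le_D1.trans (hge l hl2.le)
      refine (hs.mass_step hlM).trans (add_le_add ?_ le_rfl)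
      have hW := mul_le_mul_of_nonneg_left
        ((p.weighted_dev_le hlM hd).trans (mul_le_mul_of_nonneg_right hθ (hs.fmass_nonneg hlM.le)))
        (Real.sqrt_nonneg (dref D M l))
      rw [mul_left_comm, p.sqrt_mass_eq l] at hW
      refine (div_le_div_of_nonneg_right hW hs.M_posR.le).trans (le_of_eq ?_)
      ring) i (Nat.zero_le i) hi
  simp only [p.fmass_zero, dref_zero] at h
  refine h.trans (add_le_add ?_ (p.err_le 0 i (by omega)))
  change θ * _ * (2 * scale V D + 2 * (scale V D / D)) ≤ _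
  have h1 := mul_le_mul_of_nonneg_left (p.sum_z_le (Nat.zero_le i) (show i ≤ M by omega)) hθ0
  have h2 : scale V D / D ≤ scale V D := div_le_self hA hs.one_le_D
  have := hs.D_pos
  calc θ * _ * (2 * scale V D + 2 * (scale V D / D))
      ≤ θ * zmax D * (2 * scale V D + 2 * (scale V D / D)) :=
        mul_le_mul_of_nonneg_right h1 (by positivity)
    _ ≤ θ * zmax D * (4 * scale V D) := mul_le_mul_of_nonneg_left (by linarith)
        (mul_nonneg hθ0 (by linarith [hs.two_le_zm]))
    _ = _ := by ring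

lemma theta_ok (p : Params V E D lam D3 D1 M) :
    3 * gmax D lam / (2 * D3) * zmax D ≤ 1 / 1000 := by
  have hs := p.set_
  rw [div_mul_eq_mul_div, div_le_iff₀ (by linarith [hs.D3_pos])]
  nlinarith [hs.gz_le, hs.gmax_big, hs.two_le_zm]

lemma mass_at_cut (p : Params V E D lam D3 D1 M) :
    fmass V E M (cutAt D M D1) / √(dref D M (cutAt D M D1)) ≤ 2 * scale V D := by
  have h := p.mass_window le_rfl (by linarith [p.theta_ok]) _ le_rfl
  have h2 : scale V D / D ≤ scale V D / 2 :=
    div_le_div_of_nonneg_left p.scale_nonneg two_pos (by linarith [p.set_.D_big])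
  have h3 := mul_le_mul_of_nonneg_right p.theta_ok p.scale_nonneg
  linarith [(abs_le.1 h).2, p.scale_nonneg]

/-- The Lyapunov functional after the window. -/
lemma lyap_bound (p : Params V E D lam D3 D1 M) (hi : cutAt D M D1 ≤ i) (hiM : i ≤ M) :
    √(dref D M i) * hpot V E M D i
        + (∑ l ∈ Ico (cutAt D M D1) i, √(dref D M l) * kdiss E M D l) / (2 * M)
      ≤ lyapSize D lam D1 * scale V D := by
  obtain ⟨hlt, ha, ha2, -, -⟩ := p.cut1
  have hs := p.set_
  have hD := hs.D_pos
  have hmc := p.mass_at_cut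
  set a := cutAt D M D1
  refine (hs.lyapunov hlt.le (p.le_D1.trans ha) p.cut1_small i hi hiM).trans ?_
  have hA := p.scale_nonneg
  have hD1 : 0 < D1 := by linarith [p.D1_big]
  have hg := hs.gmax_big
  set d := dref D M a with hd
  have hd0 : 0 < d := dref_pos hD a
  have hm := mul_le_mul_of_nonneg_left hmc hd0.le
  rw [hd, ← p.sqrt_mass_eq, ← hd] at hm
  have hm' : √d * fmass V E M a ≤ 4 * D1 * scale V D :=
    hm.trans (by have := mul_le_mul_of_nonneg_right ha2 hA; linarith)
  have hU : ∀ e ∈ V, |fdev E M D e a| ≤ 3 * gmax D lam / (2 * D1) := fun e he => by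
    refine (hs.dev_le hlt.le (p.le_D1.trans ha) he).trans ?_
    have h1 : lam / √D ≤ gmax D lam / D1 := by
      refine div_le_div₀ (by linarith) hs.lam_le_gmax hD1 ?_
      rw [← Real.sqrt_sq hD1.le]
      refine Real.sqrt_le_sqrt (le_trans ?_ p.cube)
      exact pow_le_pow_right₀ (by linarith [p.D1_big]) (by norm_num)
    have h2 : gmax D lam / (2 * d) ≤ gmax D lam / (2 * D1) :=
      div_le_div_of_nonneg_left (by linarith) (by linarith) (by linarith)
    have : 3 * gmax D lam / (2 * D1) = gmax D lam / D1 + gmax D lam / (2 * D1) := by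
      field_simp; ring
    linarith
  have hH : hpot V E M D a ≤ 2 * (3 * gmax D lam / (2 * D1)) ^ 2 * fmass V E M a := by
    rw [hpot, fmass, mul_sum]
    refine sum_le_sum fun e he => ?_
    rw [mul_comm]
    refine mul_le_mul_of_nonneg_right ((prof_le_sq _).trans ?_) (qf_mem_unit E ∅ e hlt.le).1
    rw [← sq_abs]
    exact mul_le_mul_of_nonneg_left (pow_le_pow_left₀ (abs_nonneg _) (hU e he) 2) two_pos.le
  have t1 : √d * hpot V E M D a ≤ 18 * gmax D lam ^ 2 / D1 * scale V D := by
    calc √d * hpot V E M D a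
        ≤ √d * (2 * (3 * gmax D lam / (2 * D1)) ^ 2 * fmass V E M a) :=
          mul_le_mul_of_nonneg_left hH (Real.sqrt_nonneg _)
      _ = 2 * (3 * gmax D lam / (2 * D1)) ^ 2 * (√d * fmass V E M a) := by ring
      _ ≤ 2 * (3 * gmax D lam / (2 * D1)) ^ 2 * (4 * D1 * scale V D) :=
          mul_le_mul_of_nonneg_left hm' (by positivity)
      _ = _ := by field_simp; ring
  have hDD : D1 ^ 2 / D ≤ 1 / D1 := by
    rw [div_le_div_iff₀ hD hD1]; linarith [p.cube, (show D1 ^ 2 * D1 = D1 ^ 3 by ring)]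
  have t2 : 432 * d / D * (√d * fmass V E M a) ≤ 3456 / D1 * scale V D := by
    calc 432 * d / D * (√d * fmass V E M a) ≤ 432 * (2 * D1) / D * (4 * D1 * scale V D) := by
          refine mul_le_mul ?_ hm' (mul_nonneg (Real.sqrt_nonneg _) (hs.fmass_nonneg hlt.le))
            (by positivity)
          gcongr
      _ = 3456 * (D1 ^ 2 / D) * scale V D := by ring
      _ ≤ 3456 * (1 / D1) * scale V D :=
          mul_le_mul_of_nonneg_right (mul_le_mul_of_nonneg_left hDD (by norm_num)) hA
      _ = _ := by ring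
  have t3 : (V.card : ℝ) * (10 ^ 9 * D ^ 5 / M) ≤ 10 / D1 * scale V D := by
    have hsD : √D ≤ D := by
      calc √D ≤ √(D * D) := Real.sqrt_le_sqrt (le_mul_of_one_le_right hD.le hs.one_le_D)
        _ = D := Real.sqrt_mul_self hD.le
    have e : 10 / D1 * scale V D = (V.card : ℝ) * (10 / (D1 * √D)) := by unfold scale; ring
    rw [e]
    refine mul_le_mul_of_nonneg_left ?_ (Nat.cast_nonneg _)
    rw [div_le_div_iff₀ hs.M_posR (by positivity)]
    calc 10 ^ 9 * D ^ 5 * (D1 * √D) ≤ 10 ^ 9 * D ^ 5 * (D * D) :=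
          mul_le_mul_of_nonneg_left (mul_le_mul p.D1_le hsD (Real.sqrt_nonneg _) hD.le)
            (by positivity)
      _ = 10 * (10 ^ 8 * D ^ 7) := by ring
      _ ≤ 10 * M := by
          have h : D ^ 7 ≤ D ^ 9 := pow_le_pow_right₀ hs.one_le_D (by norm_num)
          linarith [hs.M_big]
  have hg2 : 280 * 280 ≤ gmax D lam ^ 2 := by
    rw [sq]; exact mul_le_mul hg hg (by norm_num) (by linarith)
  have hfin : 2 * (18 * gmax D lam ^ 2 + 3456 + 10) / D1 ≤ lyapSize D lam D1 := by
    unfold lyapSize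
    exact div_le_div_of_nonneg_right (by linarith) hD1.le
  have := mul_le_mul_of_nonneg_right hfin hA
  ring_nf at t1 t2 t3 this ⊢
  linarith

lemma hpot_le (p : Params V E D lam D3 D1 M) (hi : cutAt D M D1 ≤ i) (hiM : i ≤ M) :
    √(dref D M i) * hpot V E M D i ≤ lyapSize D lam D1 * scale V D := by
  refine le_trans (le_add_of_nonneg_right ?_) (p.lyap_bound hi hiM)
  refine div_nonneg (sum_nonneg fun l hl => mul_nonneg (Real.sqrt_nonneg _)
    (p.set_.kdiss_nonneg ?_)) (by positivity)
  have := (mem_Ico.1 hl).2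
  omega

lemma kdiss_le (p : Params V E D lam D3 D1 M) (hi : cutAt D M D1 ≤ i) (hiM : i ≤ M) :
    (∑ l ∈ Ico (cutAt D M D1) i, kdiss E M D l) / M ≤ 4 * (lyapSize D lam D1 * scale V D) := by
  have hs := p.set_
  have h := p.lyap_bound hi hiM
  have h0 : 0 ≤ √(dref D M i) * hpot V E M D i :=
    mul_nonneg (Real.sqrt_nonneg _) (hs.hpot_nonneg hiM)
  have h1 : (∑ l ∈ Ico (cutAt D M D1) i, kdiss E M D l) / M
      ≤ 4 * ((∑ l ∈ Ico (cutAt D M D1) i, √(dref D M l) * kdiss E M D l) / (2 * M)) := by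
    have e : 4 * ((∑ l ∈ Ico (cutAt D M D1) i, √(dref D M l) * kdiss E M D l) / (2 * M))
        = (∑ l ∈ Ico (cutAt D M D1) i, 2 * (√(dref D M l) * kdiss E M D l)) / M := by
      rw [← mul_sum]; ring
    rw [e]
    refine div_le_div_of_nonneg_right (sum_le_sum fun l hl => ?_) hs.M_posR.le
    have hlM : l < M := by have := (mem_Ico.1 hl).2; omega
    have hq : 1 / 2 ≤ √(dref D M l) := by
      rw [← Real.sqrt_sq (by norm_num : (0:ℝ) ≤ 1 / 2)]
      exact Real.sqrt_le_sqrt (by norm_num; exact (hs.mild hlM).dr)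
    have := mul_le_mul_of_nonneg_right hq (hs.kdiss_nonneg hlM)
    linarith
  linarith

/-- `mass / √d` is conserved. -/
theorem mass_conserved (p : Params V E D lam D3 D1 M) {θ : ℝ} (hθ1 : θ ≤ 1)
    (hθ : 3 * gmax D lam / (2 * D3) ≤ θ) (hθZ : θ * zmax D ≤ 1 / 4) :
    ∀ i ≤ M, |fmass V E M i / √(dref D M i) - scale V D|
      ≤ (8 * θ * zmax D + 300 * lyapSize D lam D1 / θ) * scale V D := by
  intro i hi
  have hs := p.set_
  have hD := hs.D_pos
  have hA := p.scale_nonneg
  have hθ0 : 0 < θ := lt_of_lt_of_le (by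
    have := hs.D3_pos; have := hs.gmax_big; positivity) hθ
  have hD1 : 0 < D1 := by linarith [p.D1_big]
  have hLs : 0 ≤ lyapSize D lam D1 := by unfold lyapSize; positivity
  have hZ0 : 0 ≤ θ * zmax D := mul_nonneg hθ0.le (by linarith [hs.two_le_zm])
  obtain ⟨hlt, ha, -, -, -⟩ := p.cut1
  have hwin := p.mass_window hθ hθZ
  set a := cutAt D M D1
  set X := lyapSize D lam D1 * scale V D with hX
  have hX0 : 0 ≤ X := mul_nonneg hLs hA
  have hinv : scale V D / D ≤ X / θ := by
    rw [hX, div_le_div_iff₀ hD hθ0]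
    have h1 : θ ≤ lyapSize D lam D1 * D := by
      refine hθ1.trans ?_
      unfold lyapSize
      rw [div_mul_eq_mul_div, le_div_iff₀ hD1, one_mul]
      have : 1 ≤ 40 * gmax D lam ^ 2 := by nlinarith [hs.gmax_big]
      calc D1 ≤ D := p.D1_le
        _ ≤ _ := le_mul_of_one_le_left hD.le this
    have := mul_le_mul_of_nonneg_left h1 hA
    linarith
  rcases le_or_gt i a with hia | hia
  · refine (hwin i hia).trans ?_
    have : 0 ≤ X / θ := div_nonneg hX0 hθ0.le
    have := mul_nonneg hZ0 hA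
    have e : (8 * θ * zmax D + 300 * lyapSize D lam D1 / θ) * scale V D
        = 8 * (θ * zmax D * scale V D) + 300 * (X / θ) := by rw [hX]; ring
    rw [e]
    linarith
  · set C := 101 * (X / θ) with hC
    have hC0 : 0 ≤ C := by positivity
    have h := affine_growth (x := fun l => fmass V E M l / √(dref D M l))
      (c := fun _ => 100 * (X / θ) / M + (V.card : ℝ) * (200 * D ^ 3 / M ^ 2))
      (z := fun l => dref D M l / M) (θ := θ) (C := C) (a := a) (b := M)
      hθ0.le (div_nonneg (hs.fmass_nonneg hlt.le) (Real.sqrt_nonneg _))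
      (fun l => div_nonneg (dref_pos hD l).le (Nat.cast_nonneg M))
      (fun _ => by positivity)
      (by
        rw [sum_add_distrib]
        refine (add_le_add ?_ (p.err_le a M le_rfl)).trans
          (show 100 * (X / θ) + scale V D / D ≤ C by linarith)
        rw [sum_const, Nat.card_Ico, nsmul_eq_mul, mul_div_assoc', div_le_iff₀ hs.M_posR,
          mul_comm _ (M:ℝ)]
        refine mul_le_mul_of_nonneg_right ?_ (by positivity)
        exact_mod_cast Nat.sub_le M a)
      (le_trans (mul_le_mul_of_nonneg_left (p.sum_z_le hlt.le le_rfl) hθ0.le) hθZ)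
      (fun l hl => by
        obtain ⟨hl1, hl2⟩ := mem_Ico.1 hl
        refine (hs.mass_step hl2).trans ?_
        rw [← add_assoc]
        refine add_le_add ?_ le_rfl
        have hW : |∑ e ∈ V, surv E M e l * fdev E M D e l|
            ≤ θ * fmass V E M l + 100 * hpot V E M D l / θ := by
          rw [fmass, hpot, mul_sum, mul_sum, sum_div, ← sum_add_distrib]
          refine (abs_sum_le_sum_abs _ _).trans (sum_le_sum fun e _ => ?_)
          have hp := (hs.mild hl2).surv_pos e
          rw [abs_mul, abs_of_pos hp]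
          refine (mul_le_mul_of_nonneg_left (abs_le_prof (hs.fdev_ge hl2 e) hθ0 hθ1) hp.le).trans
            (le_of_eq ?_)
          ring
        have h1 := mul_le_mul_of_nonneg_left hW (Real.sqrt_nonneg (dref D M l))
        rw [mul_add, mul_left_comm, p.sqrt_mass_eq l] at h1
        have h2 : √(dref D M l) * (100 * hpot V E M D l / θ) ≤ 100 * (X / θ) := by
          have := mul_le_mul_of_nonneg_left (p.hpot_le hl1 hl2.le)
            (by positivity : (0:ℝ) ≤ 100 / θ)
          ring_nf at this ⊢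
          linarith
        refine (div_le_div_of_nonneg_right (h1.trans (add_le_add le_rfl h2)) hs.M_posR.le).trans
          (le_of_eq ?_)
        ring) i hia.le hi
    have hsum : ∑ l ∈ Ico a i, (100 * (X / θ) / M + (V.card : ℝ) * (200 * D ^ 3 / M ^ 2)) ≤ C := by
      rw [sum_add_distrib]
      refine (add_le_add ?_ (p.err_le a i hi)).trans
        (show 100 * (X / θ) + scale V D / D ≤ C by linarith)
      rw [sum_const, Nat.card_Ico, nsmul_eq_mul, mul_div_assoc', div_le_iff₀ hs.M_posR,
        mul_comm _ (M:ℝ)]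
      refine mul_le_mul_of_nonneg_right ?_ (by positivity)
      exact_mod_cast (show i - a ≤ M by omega)
    have hz := mul_le_mul_of_nonneg_left (p.sum_z_le hia.le hi) hθ0.le
    set xa := fmass V E M a / √(dref D M a) with hxa
    have hxa2 : xa ≤ 2 * scale V D := p.mass_at_cut
    have hxa0 : 0 ≤ xa := div_nonneg (hs.fmass_nonneg hlt.le) (Real.sqrt_nonneg _)
    have b1 : θ * (∑ l ∈ Ico a i, dref D M l / M) * (2 * xa + 2 * C)
        ≤ θ * zmax D * (4 * scale V D) + 1 / 4 * (2 * C) := by
      refine (mul_le_mul_of_nonneg_right hz (by positivity)).trans ?_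
      rw [mul_add]
      exact add_le_add (mul_le_mul_of_nonneg_left (by linarith) hZ0)
        (mul_le_mul_of_nonneg_right hθZ (by positivity))
    have b2 := hwin a le_rfl
    have b3 := abs_sub_le (fmass V E M i / √(dref D M i)) xa (scale V D)
    have e : (8 * θ * zmax D + 300 * lyapSize D lam D1 / θ) * scale V D
        = 8 * (θ * zmax D * scale V D) + 300 * (X / θ) := by rw [hX]; ring
    have : 0 ≤ X / θ := div_nonneg hX0 hθ0.le
    rw [e]
    linarith

lemma lyapSize_small (p : Params V E D lam D3 D1 M) :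
    10000 * zmax D * lyapSize D lam D1 ≤ D3 / D1 * 400 := by
  have hD1 : 0 < D1 := by linarith [p.D1_big]
  have h := p.set_.gm
  unfold lyapSize
  rw [mul_div_assoc', div_mul_eq_mul_div]
  exact div_le_div_of_nonneg_right (by linarith) hD1.le

/-- `mass / √d` never doubles. -/
lemma mass_le (p : Params V E D lam D3 D1 M) (hsep : 10000 * D3 ≤ D1) (hi : i ≤ M) :
    fmass V E M i ≤ 2 * scale V D * √(dref D M i) := by
  have hs := p.set_
  have hz := hs.two_le_zm
  have hθ : 3 * gmax D lam / (2 * D3) ≤ 1 / (100 * zmax D) := by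
    rw [le_div_iff₀ (by linarith)]
    linarith [p.theta_ok]
  have h := p.mass_conserved (θ := 1 / (100 * zmax D))
    (by rw [div_le_one (by linarith)]; linarith) hθ
    (by field_simp; norm_num) i hi
  have e1 : 8 * (1 / (100 * zmax D)) * zmax D = 8 / 100 := by field_simp
  have e2 : 300 * lyapSize D lam D1 / (1 / (100 * zmax D)) = 3 * (10000 * zmax D * lyapSize D lam D1) := by
    field_simp; ring
  rw [e1, e2] at h
  have h2 : D3 / D1 * 400 ≤ 4 / 100 := by
    rw [div_mul_eq_mul_div, div_le_iff₀ (by linarith [p.D1_big])]; linarith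
  have h3 := mul_le_mul_of_nonneg_right (p.lyapSize_small.trans h2) p.scale_nonneg
  have h4 := (abs_le.1 h).2
  have hd := Real.sqrt_pos.2 (dref_pos (M := M) hs.D_pos i)
  rw [← div_le_iff₀ hd]
  linarith [p.scale_nonneg]

end Params

end

end Vale.Agent.P046.Full
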