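import Vale.Agent.P046.Full.Flow.Base

/-!
One step expansions of the tree recursion seen as a flow on a weighted hypergraph.
-/

namespace Vale.Agent.P046.Full

open Finset

noncomputable section

lemma prod_one_sub {ι : Type*} [DecidableEq ι] (s : Finset ι) (x : ι → ℝ)
    (h0 : ∀ i ∈ s, 0 ≤ x i) (h1 : ∀ i ∈ s, x i ≤ 1) :
    1 - ∑ i ∈ s, x i ≤ ∏ i ∈ s, (1 - x i) ∧
      ∏ i ∈ s, (1 - x i) ≤ 1 - ∑ i ∈ s, x i + (∑ i ∈ s, x i) ^ 2 ∧
      0 ≤ ∏ i ∈ s, (1 - x i) ∧ ∏ i ∈ s, (1 - x i) ≤ 1 := by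
  induction s using Finset.induction with
  | empty => simp
  | insert a s ha ih =>
    obtain ⟨e1, e2, e3, e4⟩ := ih (fun i hi => h0 i (mem_insert_of_mem hi))
      fun i hi => h1 i (mem_insert_of_mem hi)
    have a0 := h0 a (mem_insert_self a s)
    have a1 := h1 a (mem_insert_self a s)
    have s0 : 0 ≤ ∑ i ∈ s, x i := sum_nonneg fun i hi => h0 i (mem_insert_of_mem hi)
    rw [sum_insert ha, prod_insert ha]
    refine ⟨?_, ?_, mul_nonneg (by linarith) e3, ?_⟩
    · nlinarith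
    · nlinarith
    · nlinarith

variable {α : Type*} [DecidableEq α]

/-- Probability that all three points of `R` are uncovered. -/
def wR (E : Finset (Finset α)) (M : ℕ) (R : Finset α) (i : ℕ) : ℝ := ∏ f ∈ R, qf E M R f i

/-- The rate at which `R` covers the live point `e`. -/
def rho (E : Finset (Finset α)) (M : ℕ) (R : Finset α) (e : α) (i : ℕ) : ℝ :=
  wR E M R i / surv E M e i

/-- The hyperedges at `e`. -/
def star (E : Finset (Finset α)) (e : α) : Finset (Finset α) := E.filter fun R => e ∈ R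

/-- The weighted degree. -/
def wdeg (E : Finset (Finset α)) (M : ℕ) (e : α) (i : ℕ) : ℝ := ∑ R ∈ star E e, rho E M R e i

/-- The deterministic reference. -/
def dref (D : ℝ) (M i : ℕ) : ℝ := D / (1 + 2 * D * i / M)

/-- The deviation of the weighted degree. -/
def fdev (E : Finset (Finset α)) (M : ℕ) (D : ℝ) (e : α) (i : ℕ) : ℝ :=
  wdeg E M e i / dref D M i - 1

/-- Sum of the partner deviations in `R`. -/
def partner (E : Finset (Finset α)) (M : ℕ) (D : ℝ) (R : Finset α) (e : α) (i : ℕ) : ℝ :=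
  ∑ f ∈ R.erase e, fdev E M D f i

/-- The second order deviation. -/
def fnbr (E : Finset (Finset α)) (M : ℕ) (D : ℝ) (e : α) (i : ℕ) : ℝ :=
  (∑ R ∈ star E e, rho E M R e i * partner E M D R e i) / dref D M i

/-- Sum of the three rates of `R`. -/
def rho3 (E : Finset (Finset α)) (M : ℕ) (R : Finset α) (i : ℕ) : ℝ := ∑ f ∈ R, rho E M R f i

/-- The self interaction. -/
def selfTerm (E : Finset (Finset α)) (M : ℕ) (D : ℝ) (e : α) (i : ℕ) : ℝ :=
  (∑ R ∈ star E e, rho E M R e i * rho3 E M R i) / dref D M i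

/-- The regime where no branch is likely to have fired. -/
structure Mild (V : Finset α) (E : Finset (Finset α)) (M : ℕ) (D Δ : ℝ) (i : ℕ) : Prop where
  lin : Lin V E
  lt : i < M
  acc : ∀ R ∈ E, ∀ e ∈ R, accum E M R e i ≤ 1 / 4
  deg_le : ∀ e, (deg E e : ℝ) ≤ Δ
  one_le : 1 ≤ Δ
  big : 100 * Δ ^ 2 ≤ M
  half_le : 1 / 2 ≤ D
  dr : 1 / 4 ≤ dref D M i

variable {V : Finset α} {E : Finset (Finset α)} {M : ℕ} {D Δ : ℝ} {i : ℕ}

lemma empty_notMem (h : Lin V E) : ∅ ∉ E := fun hh => by simpa using h.three ∅ hh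

lemma dref_succ (hD : 0 < D) (i : ℕ) :
    1 / dref D M (i + 1) = 1 / dref D M i + 2 / M := by
  unfold dref
  rw [one_div_div, one_div_div]
  push_cast
  field_simp
  ring

lemma dref_pos (hD : 0 < D) (i : ℕ) : 0 < dref D M i := by unfold dref; positivity

namespace Mild

lemma M_pos (h : Mild V E M D Δ i) : (0:ℝ) < M := by
  have : 0 < M := Nat.lt_of_le_of_lt (Nat.zero_le i) h.lt
  exact_mod_cast this

lemma D_pos (h : Mild V E M D Δ i) : 0 < D := by linarith [h.half_le]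

lemma qf_pos (h : Mild V E M D Δ i) (X : Finset α) (e : α) : 0 < qf E M X e i := by
  rw [qf_eq E X e h.lt.le]
  refine prod_pos fun R hR => ?_
  obtain ⟨h1, h2⟩ := mem_filter.1 hR
  linarith [h.acc R (mem_of_mem_erase h1) e h2]

lemma surv_pos (h : Mild V E M D Δ i) (e : α) : 0 < surv E M e i := h.qf_pos ∅ e

lemma surv_le_one (h : Mild V E M D Δ i) (e : α) : surv E M e i ≤ 1 :=
  (qf_mem_unit E ∅ e h.lt.le).2

lemma w_pos (h : Mild V E M D Δ i) (R : Finset α) : 0 < wR E M R i :=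
  prod_pos fun f _ => h.qf_pos R f

lemma rho_pos (h : Mild V E M D Δ i) (R : Finset α) (e : α) : 0 < rho E M R e i :=
  div_pos (h.w_pos R) (h.surv_pos e)

lemma rho_eq (h : Mild V E M D Δ i) {R : Finset α} (hR : R ∈ E) {e : α} (he : e ∈ R) :
    rho E M R e i = piv E M R e i / (1 - accum E M R e i) := by
  have ha := h.acc R hR e he
  rw [rho, wR, surv_eq_mul (empty_notMem h.lin) hR he h.lt.le, ← mul_prod_erase R _ he,
    mul_div_mul_left _ _ (h.qf_pos R e).ne', piv]

lemma rho_le_two (h : Mild V E M D Δ i) {R : Finset α} (hR : R ∈ E) {e : α} (he : e ∈ R) :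
    rho E M R e i ≤ 2 := by
  rw [h.rho_eq hR he]
  have ha := h.acc R hR e he
  rw [div_le_iff₀ (by linarith)]
  linarith [(piv_mem_unit (M := M) E R e h.lt.le).2]

lemma rho_div_le_one (h : Mild V E M D Δ i) {R : Finset α} (hR : R ∈ E) {e : α} (he : e ∈ R) :
    rho E M R e i / M ≤ 1 / 50 := by
  rw [div_le_iff₀ h.M_pos]
  have := h.rho_le_two hR he
  nlinarith [h.big, h.one_le, mul_le_mul h.one_le h.one_le zero_le_one (by linarith [h.one_le])]

lemma wdeg_nonneg (h : Mild V E M D Δ i) (e : α) : 0 ≤ wdeg E M e i :=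
  sum_nonneg fun R _ => (h.rho_pos R e).le

lemma wdeg_le (h : Mild V E M D Δ i) (e : α) : wdeg E M e i ≤ 2 * Δ := by
  calc wdeg E M e i ≤ ∑ _R ∈ star E e, (2:ℝ) := sum_le_sum fun R hR => by
        obtain ⟨h1, h2⟩ := mem_filter.1 hR; exact h.rho_le_two h1 h2
    _ = deg E e * 2 := by rw [sum_const, nsmul_eq_mul]; rfl
    _ ≤ _ := by nlinarith [h.deg_le e]

lemma factor (h : Mild V E M D Δ i) {R : Finset α} (hR : R ∈ E) {e : α} (he : e ∈ R) :
    1 - accum E M R e (i + 1) = (1 - accum E M R e i) * (1 - rho E M R e i / M) := by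
  have : (1 - accum E M R e i) ≠ 0 := by linarith [h.acc R hR e he]
  rw [h.rho_eq hR he, accum_succ]
  field_simp
  ring

/-- Exact one step identity. -/
lemma qf_succ (h : Mild V E M D Δ i) (X : Finset α) (e : α) :
    qf E M X e (i + 1) = qf E M X e i *
      ∏ R ∈ (E.erase X).filter (fun R => e ∈ R), (1 - rho E M R e i / M) := by
  rw [qf_eq E X e h.lt, qf_eq E X e h.lt.le, ← prod_mul_distrib]
  refine prod_congr rfl fun R hR => ?_
  obtain ⟨h1, h2⟩ := mem_filter.1 hR
  exact h.factor (mem_of_mem_erase h1) h2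

lemma surv_succ (h : Mild V E M D Δ i) (e : α) :
    surv E M e (i + 1) = surv E M e i * ∏ R ∈ star E e, (1 - rho E M R e i / M) := by
  rw [surv, h.qf_succ ∅ e, erase_eq_of_notMem (empty_notMem h.lin)]
  rfl

/-- Relative decay of a point. -/
lemma surv_succ_bounds (h : Mild V E M D Δ i) (e : α) :
    surv E M e i * (1 - wdeg E M e i / M) ≤ surv E M e (i + 1) ∧
    surv E M e (i + 1) ≤ surv E M e i * (1 - wdeg E M e i / M + (2 * Δ / M) ^ 2) ∧
    0 < surv E M e (i + 1) := by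
  have hp := h.surv_pos e
  obtain ⟨a, b, -, -⟩ := prod_one_sub (star E e) (fun R => rho E M R e i / M)
    (fun R _ => div_nonneg (h.rho_pos R e).le h.M_pos.le)
    (fun R hR => by
      obtain ⟨h1, h2⟩ := mem_filter.1 hR; linarith [h.rho_div_le_one h1 h2])
  rw [← sum_div] at a b
  change 1 - wdeg E M e i / M ≤ _ at a
  change _ ≤ 1 - wdeg E M e i / M + (wdeg E M e i / M) ^ 2 at b
  have c : (wdeg E M e i / M) ^ 2 ≤ (2 * Δ / M) ^ 2 := by
    refine pow_le_pow_left₀ (div_nonneg (h.wdeg_nonneg e) h.M_pos.le) ?_ 2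
    exact div_le_div_of_nonneg_right (h.wdeg_le e) h.M_pos.le
  rw [h.surv_succ e]
  refine ⟨mul_le_mul_of_nonneg_left a hp.le, mul_le_mul_of_nonneg_left (by linarith) hp.le,
    mul_pos hp (prod_pos fun R hR => ?_)⟩
  obtain ⟨h1, h2⟩ := mem_filter.1 hR
  linarith [h.rho_div_le_one h1 h2]

/-- The exponent of the decay of `rho`. -/
def rateOf (E : Finset (Finset α)) (M : ℕ) (R : Finset α) (e : α) (i : ℕ) : ℝ :=
  ∑ f ∈ R.erase e, wdeg E M f i - rho3 E M R i

lemma card_erase_two (h : Mild V E M D Δ i) {R : Finset α} (hR : R ∈ E) {e : α} (he : e ∈ R) :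
    (R.erase e).card = 2 := by rw [card_erase_of_mem he, h.lin.three R hR]

lemma rho3_nonneg (h : Mild V E M D Δ i) (R : Finset α) : 0 ≤ rho3 E M R i :=
  sum_nonneg fun f _ => (h.rho_pos R f).le

lemma rho3_le (h : Mild V E M D Δ i) {R : Finset α} (hR : R ∈ E) : rho3 E M R i ≤ 6 := by
  calc rho3 E M R i ≤ ∑ _f ∈ R, (2:ℝ) := sum_le_sum fun f hf => h.rho_le_two hR hf
    _ = 6 := by rw [sum_const, h.lin.three R hR, nsmul_eq_mul]; norm_num

lemma abs_rate_le (h : Mild V E M D Δ i) {R : Finset α} (hR : R ∈ E) {e : α} (he : e ∈ R) :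
    |rateOf E M R e i| ≤ 6 * Δ := by
  have h1 := h.rho3_nonneg R
  have h2 := h.rho3_le hR
  have h3 : 0 ≤ ∑ f ∈ R.erase e, wdeg E M f i := sum_nonneg fun f _ => h.wdeg_nonneg f
  have h4 : ∑ f ∈ R.erase e, wdeg E M f i ≤ 4 * Δ := by
    calc _ ≤ ∑ _f ∈ R.erase e, 2 * Δ := sum_le_sum fun f _ => h.wdeg_le f
      _ = 4 * Δ := by rw [sum_const, h.card_erase_two hR he, nsmul_eq_mul]; ring
  have := h.one_le
  unfold rateOf
  rw [abs_le]
  constructor <;> linarith

/-- First order expansion of the rates. -/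
lemma rho_succ (h : Mild V E M D Δ i) {R : Finset α} (hR : R ∈ E) {e : α} (he : e ∈ R) :
    |rho E M R e (i + 1) - rho E M R e i * (1 - rateOf E M R e i / M)|
      ≤ rho E M R e i * (60 * (Δ / M) ^ 2) := by
  classical
  have hM := h.M_pos
  set x : α → ℝ := fun f => rho E M R f i / M with hx
  have hx0 : ∀ f ∈ R, 0 ≤ x f := fun f _ => div_nonneg (h.rho_pos R f).le hM.le
  have hx1 : ∀ f ∈ R, x f ≤ 1 / 50 := fun f hf => h.rho_div_le_one hR hf
  have hw : wR E M R (i + 1) = wR E M R i *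
      ∏ f ∈ R, ∏ S ∈ (star E f).erase R, (1 - rho E M S f i / M) := by
    unfold wR
    rw [← prod_mul_distrib]
    refine prod_congr rfl fun f _ => ?_
    rw [h.qf_succ R f, filter_erase]; rfl
  set P := ∏ p ∈ (R.erase e).sigma (fun f => (star E f).erase R), (1 - rho E M p.2 p.1 i / M)
    with hP
  have hPeq : P = ∏ f ∈ R.erase e, ∏ S ∈ (star E f).erase R, (1 - rho E M S f i / M) :=
    prod_sigma _ _ _
  have hne : ∏ S ∈ (star E e).erase R, (1 - rho E M S e i / M) ≠ 0 := by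
    refine (prod_pos fun S hS => ?_).ne'
    obtain ⟨h1, h2⟩ := mem_filter.1 (mem_of_mem_erase hS)
    linarith [h.rho_div_le_one h1 h2]
  have hq : rho E M R e (i + 1) = rho E M R e i * (P / (1 - x e)) := by
    rw [rho, hw, h.surv_succ e, ← mul_prod_erase R _ he, ← hPeq,
      ← mul_prod_erase (star E e) _ (mem_filter.2 ⟨hR, he⟩)]
    have hs := (h.surv_pos e).ne'
    have h1 : (1 - x e) ≠ 0 := by linarith [hx1 e he]
    have key : ∀ {w s A : ℝ}, s ≠ 0 → A ≠ 0 →
        w * (A * P) / (s * ((1 - x e) * A)) = w / s * (P / (1 - x e)) := by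
      intro w s A hs hA
      field_simp
    exact key hs hne
  set σ := ∑ p ∈ (R.erase e).sigma (fun f => (star E f).erase R), rho E M p.2 p.1 i / M with hσ
  have hσeq : σ = (∑ f ∈ R.erase e, (wdeg E M f i - rho E M R f i)) / M := by
    rw [hσ, sum_sigma, sum_div]
    refine sum_congr rfl fun f hf => ?_
    rw [← sum_div, wdeg, ← add_sum_erase (star E f) _
      (mem_filter.2 ⟨hR, mem_of_mem_erase hf⟩)]
    ring
  obtain ⟨p1, p2, -, -⟩ := prod_one_sub ((R.erase e).sigma fun f => (star E f).erase R)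
    (fun p => rho E M p.2 p.1 i / M)
    (fun p _ => div_nonneg (h.rho_pos p.2 p.1).le hM.le)
    (fun p hp => by
      obtain ⟨-, h2⟩ := mem_sigma.1 hp
      obtain ⟨h3, h4⟩ := mem_filter.1 (mem_of_mem_erase h2)
      linarith [h.rho_div_le_one h3 h4])
  rw [← hP, ← hσ] at p1 p2
  have hσ0 : 0 ≤ σ := sum_nonneg fun p _ => div_nonneg (h.rho_pos _ _).le hM.le
  have hσ1 : σ ≤ 4 * (Δ / M) := by
    rw [hσeq, ← mul_div_assoc]
    refine div_le_div_of_nonneg_right ?_ hM.le
    calc _ ≤ ∑ _f ∈ R.erase e, 2 * Δ := sum_le_sum fun f _ => by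
          linarith [h.wdeg_le f, (h.rho_pos R f).le]
      _ = 4 * Δ := by rw [sum_const, h.card_erase_two hR he, nsmul_eq_mul]; ring
  have hxe : x e ≤ 2 * (Δ / M) := by
    rw [← mul_div_assoc]
    exact div_le_div_of_nonneg_right (by linarith [h.rho_le_two hR he, h.one_le]) hM.le
  have hy0 : 0 ≤ Δ / (M : ℝ) := div_nonneg (by linarith [h.one_le]) hM.le
  have hy1 : Δ / (M : ℝ) ≤ 1 / 100 := by
    rw [div_le_iff₀ hM]; nlinarith [h.big, h.one_le]
  have hrate : rateOf E M R e i / M = σ - x e := by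
    rw [hσeq, hx, rateOf, rho3, ← add_sum_erase R _ he, sum_sub_distrib]
    ring
  rw [hq, hrate, ← mul_sub, abs_mul, abs_of_pos (h.rho_pos R e)]
  refine mul_le_mul_of_nonneg_left ?_ (h.rho_pos R e).le
  have e0 := hx0 e he
  have e1 := hx1 e he
  have hd : P / (1 - x e) - (1 - (σ - x e))
      = ((P - (1 - σ)) + x e * (x e - σ)) / (1 - x e) := by
    field_simp [show (1 - x e) ≠ 0 by linarith]
    ring
  rw [hd, abs_div, abs_of_pos (show 0 < 1 - x e by linarith), div_le_iff₀ (by linarith), abs_le]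
  have hs2 : σ ^ 2 ≤ 16 * (Δ / M) ^ 2 := by nlinarith
  have hxs : x e * σ ≤ 8 * (Δ / M) ^ 2 := by nlinarith
  have hxx : x e * x e ≤ 4 * (Δ / M) ^ 2 := by nlinarith
  constructor <;> nlinarith

end Mild

end

end Vale.Agent.P046.Full
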